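import Vale.Agent.P073Z.Sk1

/-!
# Bands: definitions

A band is a compact polyhedron `B` with a product structure `B = W × [-1,1]`, given by the level
function `u` and the move `M (x, s)`, the point of level `s` on the fibre of `x`.
-/

open Set Metric Topology Filter
open scoped NNReal

namespace P073.Bd

/-- clamp to the interval -/
noncomputable def cl (t : ℝ) : ℝ := max (-1) (min t 1)

/-- the parameter interval -/
abbrev I : Set ℝ := Icc (-1) 1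

/-- the data of a band -/
structure Band (E : Type) where
  /-- the closed band -/
  B : Set E
  /-- the level function -/
  u : E → ℝ
  /-- the move along the fibres -/
  M : E × ℝ → E

variable {E F : Type} [NormedAddCommGroup E] [NormedSpace ℝ E]
  [NormedAddCommGroup F] [NormedSpace ℝ F]

namespace Band

/-- the wall: the middle level -/
def W (b : Band E) : Set E := {x ∈ b.B | b.u x = 0}

/-- the product structure -/
structure Ok (b : Band E) : Prop where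
  cpt : IsCompact b.B
  loc : LocCone b.B
  upl : PLOn b.u b.B
  Mpl : PLOn b.M (b.B ×ˢ I)
  urange : ∀ x ∈ b.B, b.u x ∈ I
  Mmem : ∀ x ∈ b.B, ∀ s ∈ I, b.M (x, s) ∈ b.B ∧ b.u (b.M (x, s)) = s
  Mid : ∀ x ∈ b.B, b.M (x, b.u x) = x
  MM : ∀ x ∈ b.B, ∀ s ∈ I, ∀ t ∈ I, b.M (b.M (x, s), t) = b.M (x, t)

/-- the open band is open in `X` -/
def In (b : Band E) (X : Set E) : Prop := b.B ⊆ X ∧ ∀ x ∈ b.B, |b.u x| < 1 → b.B ∈ 𝓝[X] x

/-- a band in `X` whose level function extends to `X` with values `1`, `-1` off the band -/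
structure On (b : Band E) (X : Set E) : Prop where
  ok : b.Ok
  sub : b.B ⊆ X
  upl : PLOn b.u X
  out : ∀ x ∈ X, x ∉ b.B → b.u x = 1 ∨ b.u x = -1

/-- the moves keep `Y` -/
def Keeps (b : Band E) (Y : Set E) : Prop := ∀ x ∈ b.B, ∀ s ∈ I, x ∈ Y → b.M (x, s) ∈ Y

/-- the inner half -/
noncomputable def half (b : Band E) : Band E where
  B := {x ∈ b.B | |b.u x| ≤ 1 / 2}
  u := fun x => cl (2 * b.u x)
  M := fun q => b.M (q.1, q.2 / 2)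

/-- the part in `Y` over the part `V` of the wall -/
def restr (b : Band E) (Y V : Set E) : Band E where
  B := {x ∈ b.B ∩ Y | b.M (x, 0) ∈ V}
  u := b.u
  M := b.M

/-- the part in `Y` -/
def cut (b : Band E) (Y : Set E) : Band E where
  B := b.B ∩ Y
  u := b.u
  M := b.M

/-- transport along a PL homeomorphism -/
def map {X : Set E} {Y : Set F} (b : Band E) (φ : ConHomeo X Y) : Band F where
  B := φ.toFun '' b.B
  u := fun y => b.u (φ.invFun y)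
  M := fun q => φ.toFun (b.M (φ.invFun q.1, q.2))

end Band

/-- the two bands agree up to sign where they overlap -/
def Match (b b' : Band E) : Prop := ∀ x ∈ b.B, x ∈ b'.B → ∃ ε : ℝ, (ε = 1 ∨ ε = -1) ∧
  b'.u x = ε * b.u x ∧ ∀ s ∈ I, b'.M (x, ε * s) = b.M (x, s)

/-- the band `g` agrees with `b` on `b.B` up to one sign -/
def Sgn (b g : Band E) : Prop := ∃ ε : ℝ, (ε = 1 ∨ ε = -1) ∧ ∀ x ∈ b.B, g.u x = ε * b.u x ∧
  ∀ s ∈ I, g.M (x, ε * s) = b.M (x, s)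

/-- the moves of `b` respect `b'` -/
def Comm (b b' : Band E) : Prop := ∀ x ∈ b.B, ∀ s ∈ I, (b.M (x, s) ∈ b'.B ↔ x ∈ b'.B) ∧
  (x ∈ b'.B → b'.u (b.M (x, s)) = b'.u x ∧
    ∀ t ∈ I, b'.M (b.M (x, s), t) = b.M (b'.M (x, t), s))

/-- the band `a` restricts to the band `b` on `S` -/
def Ext (a b : Band E) (S : Set E) : Prop := a.B ∩ S = b.B ∧ (∀ x ∈ S, a.u x = b.u x) ∧
  ∀ x ∈ b.B, ∀ s ∈ I, a.M (x, s) = b.M (x, s)

/-- Lipschitz on the members of a finite closed cover -/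
def PwLip (L : ℝ≥0) (f : E → ℝ) (X : Set E) : Prop :=
  ∃ 𝒞 : Finset (Set E), (∀ Y ∈ 𝒞, IsClosed Y ∧ LipschitzOnWith L f Y) ∧ X ⊆ ⋃ Y ∈ 𝒞, Y

/-- a chart onto the cube with Lipschitz constants `M₁` and (inverse) `M₂` -/
def Chart (n : ℕ) (C S : Set E) (M₁ M₂ : ℝ≥0) : Prop :=
  S ⊆ C ∧ ∃ φ : ConHomeo C (closedBall (0 : Fin n → ℝ) 1), φ.toFun '' S = sphere 0 1 ∧
    LipschitzOnWith M₁ φ.toFun C ∧ LipschitzOnWith M₂ φ.invFun (closedBall 0 1)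

/-- a finite disjoint union of circles off `S` and arcs with exactly their ends on `S` -/
def Lev (T S : Set E) : Prop := ∃ 𝒞 : Finset (Set E), T = ⋃ c ∈ 𝒞, c ∧
  (∀ c ∈ 𝒞, ∀ c' ∈ 𝒞, c ≠ c' → Disjoint c c') ∧
  ∀ c ∈ 𝒞, (IsCircle c ∧ Disjoint c S) ∨ ∃ p q, IsArc c p q ∧ c ∩ S = {p, q}

/-! ### the complex, the zones on the wires, the bands on the boundary -/

/-- a finite complex on a ball, with charts and constants, and the index set of the walls -/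
structure Base where
  /-- the complex -/
  K : RCx E3
  fin : Finite K.ι
  /-- the boundary sphere -/
  bd : Set E3
  ball : ConBall 3 K.carrier bd
  sub : K.Sub bd
  dim_le : ∀ c, K.dim c ≤ 3
  top : ∀ x ∈ K.carrier, ∃ c, K.dim c = 3 ∧ x ∈ K.cell c
  /-- the walls -/
  ι : Type
  finι : Finite ι
  /-- the family of a wall -/
  fam : ι → Bool
  /-- chart constant -/
  M₁ : K.ι → ℝ≥0
  /-- chart constant of the inverse -/
  M₂ : K.ι → ℝ≥0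
  chart : ∀ c, 2 ≤ K.dim c → Chart (K.dim c) (K.cell c) (K.bd c) (M₁ c) (M₂ c)
  /-- Lipschitz constant on a cell -/
  L : K.ι → ℝ≥0
  /-- Lipschitz constant on its boundary -/
  L₀ : K.ι → ℝ≥0
  L_le : ∀ c j, K.cell j ⊆ K.bd c → K.dim j + 1 = K.dim c → L j ≤ L₀ c

/-- the admissible points on the wires with their zones; the bands on the boundary -/
structure Frame (X : Base) (c₀ : ℝ≥0) where
  /-- the admissible points -/
  P : Set E3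
  /-- their zones -/
  z : E3 → Band E3
  /-- the bands on the boundary -/
  nb : X.ι → Band E3
  Pfin : P.Finite
  wire : ∀ p ∈ P, ∃ e, X.K.dim e = 1 ∧ (z p).Ok ∧ (z p).In (X.K.cell e) ∧
    (z p).B ⊆ X.K.ocell e ∧ (z p).W = {p} ∧ LipschitzOnWith (X.L e) (z p).u (z p).B
  zdisj : ∀ p ∈ P, ∀ q ∈ P, p ≠ q → Disjoint (z p).B (z q).B
  nb_on : ∀ i, (nb i).On X.bd
  nb_keep : ∀ i c, (nb i).Keeps (X.K.cell c)
  nb_comm : ∀ i j, i ≠ j → Comm (nb i) (nb j)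
  nb_disj : ∀ i j, i ≠ j → X.fam i = X.fam j → Disjoint (nb i).B (nb j).B
  nb_side : ∀ i, ConBall 2 {x ∈ X.bd | 0 ≤ (nb i).u x} (nb i).W ∧
    ConBall 2 {x ∈ X.bd | (nb i).u x ≤ 0} (nb i).W
  nb_wire : ∀ i, ∀ x ∈ (nb i).B ∩ X.K.skel 1, ∃ p ∈ P ∩ (nb i).W, x ∈ (z p).half.B
  nb_match : ∀ i, ∀ p ∈ P ∩ (nb i).W, (z p).half.B ⊆ (nb i).B ∧ Match (z p).half (nb i)
  nb_meet : ∀ i, ((nb i).W ∩ X.K.skel 1).Nonempty
  nb_cross : ∀ i j, X.fam i ≠ X.fam j → ∃ p q, p ≠ q ∧ (nb i).W ∩ (nb j).W = {p, q}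
  nb_lip : ∀ i φ, X.K.dim φ = 2 → X.K.cell φ ⊆ X.bd →
    LipschitzOnWith (X.L φ) (nb i).u ((nb i).B ∩ X.K.cell φ)
  L_ge : ∀ c, 2 ≤ X.K.dim c → ¬ X.K.cell c ⊆ X.bd →
    c₀ * X.M₁ c * (X.M₂ c * X.L₀ c + ((P ∩ X.K.cell c).ncard : ℕ)) ≤ X.L c

variable {X : Base} {c₀ : ℝ≥0}

/-- walls in general position -/
structure State (Fr : Frame X c₀) (D : X.ι → Set E3) : Prop where
  sub : ∀ i, D i ⊆ X.K.carrier
  disc : ∀ i, ConBall 2 (D i) (Fr.nb i).W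
  bd : ∀ i, D i ∩ X.bd = (Fr.nb i).W
  disj : ∀ i j, i ≠ j → X.fam i = X.fam j → Disjoint (D i) (D j)
  wire : ∀ i, D i ∩ X.K.skel 1 ⊆ Fr.P
  wire_disj : ∀ i j, i ≠ j → Disjoint (D i ∩ D j) (X.K.skel 1)
  lev : ∀ i φ, X.K.dim φ = 2 → Lev (D i ∩ X.K.cell φ) (X.K.bd φ)
  two : ∀ i c, X.K.dim c = 3 → D i ∩ X.K.cell c ⊆ closure (D i ∩ X.K.ocell c)
  fin : ∀ i j, i ≠ j → (D i ∩ D j ∩ X.K.skel 2).Finite

/-- the crossing points in the face `φ` -/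
def cross (X : Base) (D : X.ι → Set E3) (φ : X.K.ι) : Set E3 :=
  {x ∈ X.K.cell φ | ∃ i j, i ≠ j ∧ x ∈ D i ∧ x ∈ D j}

/-- `p` is joined to the boundary inside the wall `i` and inside the cells of `𝓕` -/
def Att (X : Base) (D : X.ι → Set E3) (𝓕 : Set X.K.ι) (i : X.ι) (p : E3) : Prop :=
  ∃ Z, Z ⊆ D i ∩ ⋃ φ ∈ 𝓕, X.K.cell φ ∧ IsPreconnected Z ∧ p ∈ Z ∧ (Z ∩ X.bd).Nonempty

/-- `D'` is simpler than `D` -/
structure Le (X : Base) (D' D : X.ι → Set E3) : Prop where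
  cnt : ∀ φ, X.K.dim φ = 2 → (cross X D' φ).encard ≤ (cross X D φ).encard
  pts : ∀ i, ∀ p ∈ D' i ∩ X.K.skel 1, ∃ j, p ∈ D j
  pers : ∀ 𝓕 : Set X.K.ι, (∀ φ ∈ 𝓕, X.K.dim φ = 2 ∧ cross X D φ = ∅) →
    ∀ i, ∀ p ∈ X.K.skel 1, Att X D 𝓕 i p → Att X D' 𝓕 i p

/-- walls with wide bands -/
structure Model (Fr : Frame X c₀) (b : X.ι → Band E3) : Prop where
  on : ∀ i, (b i).On X.K.carrier
  keep : ∀ i c, (b i).Keeps (X.K.cell c)
  disj : ∀ i j, i ≠ j → X.fam i = X.fam j → Disjoint (b i).B (b j).B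
  comm : ∀ i j, i ≠ j → Comm (b i) (b j)
  ext : ∀ i, Ext (b i) (Fr.nb i).half X.bd
  disc : ∀ i, ConBall 2 (b i).W (Fr.nb i).W
  wire : ∀ i, (b i).W ∩ X.K.skel 1 ⊆ Fr.P
  wire_disj : ∀ i j, i ≠ j → Disjoint ((b i).W ∩ (b j).W) (X.K.skel 1)
  fin : ∀ i j, i ≠ j → ((b i).W ∩ (b j).W ∩ X.K.skel 2).Finite
  reach : ∀ i j, i ≠ j → ∀ x ∈ (b i).W ∩ (b j).W, ∃ Z, Z ⊆ (b i).W ∩ (b j).W ∧
    IsPreconnected Z ∧ x ∈ Z ∧ (Z ∩ X.K.skel 2).Nonempty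
  touch : ∀ i c, ((b i).W ∩ X.K.cell c).Nonempty →
    ((b i).W ∩ X.K.cell c ∩ X.K.skel 1).Nonempty
  lip : ∀ i c, PwLip (4 * X.L c) (b i).u (X.K.cell c)

/-- the part of the trace on the faces which is joined to the boundary, its circles on the
boundaries of the cells, and the tiling of the walls -/
structure Trace (Fr : Frame X c₀) (D : X.ι → Set E3) where
  /-- arcs -/
  α : Type
  finα : Finite α
  /-- the wall of an arc -/
  lab : α → X.ι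
  /-- the face of an arc -/
  face : α → X.K.ι
  /-- the arc -/
  A : α → Set E3
  /-- first end -/
  p : α → E3
  /-- second end -/
  q : α → E3
  dim_face : ∀ a, X.K.dim (face a) = 2
  arc : ∀ a, IsArc (A a) (p a) (q a)
  sub : ∀ a, A a ⊆ D (lab a) ∩ X.K.cell (face a)
  ends : ∀ a, A a ∩ X.K.bd (face a) = {p a, q a}
  disj : ∀ a a', a ≠ a' → face a = face a' → lab a = lab a' → Disjoint (A a) (A a')
  sat : ∀ a φ, X.K.dim φ = 2 → ∀ x ∈ A a, x ∈ X.K.cell φ →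
    ∃ a', face a' = φ ∧ lab a' = lab a ∧ x ∈ A a'
  att : ∀ a, ∀ x ∈ A a, Att X D {φ | X.K.dim φ = 2} (lab a) x
  full : ∀ i x, Att X D {φ | X.K.dim φ = 2} i x → ∃ a, lab a = i ∧ x ∈ A a
  /-- circles -/
  κ : Type
  finκ : Finite κ
  /-- the cell of a circle -/
  cel : κ → X.K.ι
  /-- the wall of a circle -/
  clab : κ → X.ι
  /-- the arcs of a circle -/
  s : κ → Set α
  dim_cel : ∀ k, X.K.dim (cel k) = 3
  mem_s : ∀ k, ∀ a ∈ s k, lab a = clab k ∧ X.K.cell (face a) ⊆ X.K.cell (cel k)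
  cover : ∀ a c, X.K.dim c = 3 → X.K.cell (face a) ⊆ X.K.cell c → ∃ k, cel k = c ∧ a ∈ s k
  sdisj : ∀ k l, k ≠ l → cel k = cel l → clab k = clab l →
    Disjoint (⋃ a ∈ s k, A a) (⋃ a ∈ s l, A a)
  /-- tiles -/
  Δ : κ → Set E3
  tile : ∀ k, ConBall 2 (Δ k) (⋃ a ∈ s k, A a) ∧
    ∀ a, lab a = clab k → Δ k ∩ A a ⊆ ⋃ a' ∈ s k, A a'
  tile_union : ∀ i, (⋃ k, ⋃ (_ : clab k = i), Δ k) = D i
  tile_inter : ∀ k l, k ≠ l → clab k = clab l → Δ k ∩ Δ l ⊆ ⋃ a ∈ s k, A a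

variable {Fr : Frame X c₀} {D : X.ι → Set E3}

/-- the bands of the new arcs -/
structure Faces (T : Trace Fr D) (β : T.α → Band E3) : Prop where
  ok : ∀ a, (β a).Ok ∧ (β a).In (X.K.cell (T.face a))
  arc : ∀ a, IsArc (β a).W (T.p a) (T.q a)
  bd : ∀ a, (β a).B ∩ X.K.bd (T.face a) = (Fr.z (T.p a)).half.B ∪ (Fr.z (T.q a)).half.B
  mt : ∀ a, Match (Fr.z (T.p a)).half (β a) ∧ Match (Fr.z (T.q a)).half (β a)
  comm : ∀ a a', a ≠ a' → T.face a = T.face a' → Comm (β a) (β a')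
  disj : ∀ a a', a ≠ a' → T.face a = T.face a' → Disjoint (T.A a) (T.A a') →
    Disjoint (β a).B (β a').B
  sing : ∀ a a', a ≠ a' → T.face a = T.face a' → ¬ X.K.cell (T.face a) ⊆ X.bd →
    ((β a).W ∩ (β a').W).Subsingleton
  nat : ∀ a, X.K.cell (T.face a) ⊆ X.bd →
    β a = (Fr.nb (T.lab a)).restr (X.K.cell (T.face a)) (T.A a) ∧ (β a).W = T.A a
  lip : ∀ a, LipschitzOnWith (X.L (T.face a)) (β a).u (β a).B

/-- the bands of the new discs in the cells -/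
structure Cells (T : Trace Fr D) (β : T.α → Band E3) (γ : T.κ → Band E3) : Prop where
  on : ∀ k, (γ k).On (X.K.cell (T.cel k))
  disc : ∀ k, ConBall 2 (γ k).W (⋃ a ∈ T.s k, (β a).W)
  bd : ∀ k, (γ k).B ∩ X.K.bd (T.cel k) = ⋃ a ∈ T.s k, (β a).half.B
  mt : ∀ k, ∀ a ∈ T.s k, Match (β a).half (γ k)
  comm : ∀ k l, k ≠ l → T.cel k = T.cel l → Comm (γ k) (γ l)
  disj : ∀ k l, k ≠ l → T.cel k = T.cel l → X.fam (T.clab k) = X.fam (T.clab l) →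
    Disjoint (γ k).B (γ l).B
  reach : ∀ k l, k ≠ l → T.cel k = T.cel l → ∀ x ∈ (γ k).W ∩ (γ l).W,
    ∃ Z, Z ⊆ (γ k).W ∩ (γ l).W ∧ IsPreconnected Z ∧ x ∈ Z ∧ (Z ∩ X.K.bd (T.cel k)).Nonempty
  lip : ∀ k, LipschitzOnWith (X.L (T.cel k)) (γ k).u (X.K.cell (T.cel k))

/-- the points of the extra circles -/
def extra (b : X.ι → Band E3) : Set E3 :=
  {x | ∃ i j g, i ≠ j ∧ IsCircle g ∧ g ⊆ (b i).W ∩ (b j).W ∧ x ∈ g}

/-- the rounded corner -/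
def corner : Set (ℝ × ℝ) := {v | min v.1 (min v.2 (v.1 + v.2 - 1 / 2)) = 0}

/-- the walls after cutting and regluing along all extra circles -/
structure Swapped (Fr : Frame X c₀) (b : X.ι → Band E3) (D : X.ι → Set E3) : Prop where
  sub : ∀ i, D i ⊆ X.K.carrier
  disc : ∀ i, ConBall 2 (D i) (Fr.nb i).W
  bd : ∀ i, D i ∩ X.bd = (Fr.nb i).W
  inter : ∀ i j, i ≠ j → D i ∩ D j ⊆ ((b i).W ∩ (b j).W) \ extra b
  loc : ∀ i, ∀ x ∈ D i, ∃ O, IsOpen O ∧ x ∈ O ∧ ((∃ k, D i ∩ O = (b k).W ∩ O) ∨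
    ∃ j k, ∃ ε ε' : ℝ, j ≠ k ∧ (ε = 1 ∨ ε = -1) ∧ (ε' = 1 ∨ ε' = -1) ∧
      (∀ y ∈ O ∩ X.K.carrier, |(b j).u y| < 1 ∧ |(b k).u y| < 1) ∧
      D i ∩ O = {y ∈ O ∩ X.K.carrier | (ε * (b j).u y, ε' * (b k).u y) ∈ corner})
  pers : ∀ i Z, Z ⊆ (b i).W → IsPreconnected Z → (Z ∩ X.bd).Nonempty →
    (∀ j, j ≠ i → Disjoint Z (b j).B) → Z ⊆ D i

/-- the coordinate of a wall -/
def Base.co (X : Base) (i : X.ι) : Fin 3 := if X.fam i then 0 else 1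

/-- the flat wall -/
def lvl {lo hi : E3} (g : ConHomeo X.K.carrier (Icc lo hi)) (t : X.ι → ℝ) (i : X.ι) : Set E3 :=
  {x ∈ X.K.carrier | g.toFun x (X.co i) = t i}

/-- the bands on the boundary are the natural ones -/
structure Flat (Fr : Frame X c₀) {lo hi : E3} (g : ConHomeo X.K.carrier (Icc lo hi))
    (t : X.ι → ℝ) (lam : ℝ) : Prop where
  lt : ∀ k, lo k < hi k
  pos : 0 < lam
  bd_eq : X.bd = {x ∈ X.K.carrier | g.toFun x ∈ frontier (Icc lo hi)}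
  inside : ∀ i, lo (X.co i) + 2 * lam < t i ∧ t i + 2 * lam < hi (X.co i)
  sep : ∀ i j, i ≠ j → X.fam i = X.fam j → 4 * lam < |t i - t j|
  nat : ∀ i, ∀ x ∈ X.bd, (x ∈ (Fr.nb i).B ↔ |g.toFun x (X.co i) - t i| ≤ 2 * lam) ∧
    (Fr.nb i).u x = cl ((g.toFun x (X.co i) - t i) / (2 * lam)) ∧
    (x ∈ (Fr.nb i).B → ∀ s ∈ I, g.toFun ((Fr.nb i).M (x, s)) =
      Function.update (g.toFun x) (X.co i) (t i + 2 * lam * s))

/-- the level of `f` is in general position -/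
structure Gen1 (K : RCx E3) (T : Set E3) : Prop where
  vert : Disjoint T (K.skel 0)
  fin : (T ∩ K.skel 1).Finite
  lev : ∀ φ, K.dim φ = 2 → Lev (T ∩ K.cell φ) (K.bd φ)
  two : ∀ c, K.dim c = 3 → T ∩ K.cell c ⊆ closure (T ∩ K.ocell c)

/-- the input of the two family engine -/
structure Raw (X : Base) (c₀ : ℝ≥0) {lo hi : E3} (g : ConHomeo X.K.carrier (Icc lo hi))
    (t : X.ι → ℝ) (lam : ℝ≥0) : Prop where
  lt : ∀ k, lo k < hi k
  pos : 0 < lam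
  bd_eq : X.bd = {x ∈ X.K.carrier | g.toFun x ∈ frontier (Icc lo hi)}
  inside : ∀ i, lo (X.co i) + 4 * lam < t i ∧ t i + 4 * lam < hi (X.co i)
  sep : ∀ i j, i ≠ j → X.fam i = X.fam j → 8 * (lam : ℝ) < |t i - t j|
  align : ∀ c, X.K.cell c ⊆ X.bd → ∃ a b : E3, g.toFun '' X.K.cell c = Icc a b ∧
    ∀ i, 4 * (lam : ℝ) < |a (X.co i) - t i| ∧ 4 * (lam : ℝ) < |b (X.co i) - t i|
  lip_bd : ∀ c, X.K.cell c ⊆ X.bd → LipschitzOnWith (lam * X.L c) g.toFun (X.K.cell c)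
  L_ge : ∀ c, 2 ≤ X.K.dim c → ¬ X.K.cell c ⊆ X.bd → c₀ * X.M₁ c * (X.M₂ c * X.L₀ c +
    (((⋃ i, lvl g t i) ∩ X.K.skel 1 ∩ X.K.cell c).ncard : ℕ)) ≤ X.L c
  gen : ∀ i, Gen1 X.K (lvl g t i)
  gen₂ : ∀ i j, X.fam i ≠ X.fam j → Disjoint (lvl g t i ∩ lvl g t j) (X.K.skel 1) ∧
    (lvl g t i ∩ lvl g t j ∩ X.K.skel 2).Finite

/-- the inner wires are segments, long compared with the number of points on them -/
def Seg (X : Base) (P : Set E3) : Prop := ∀ e, X.K.dim e = 1 → ¬ X.K.cell e ⊆ X.bd →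
  ∃ x y, X.K.cell e = segment ℝ x y ∧ X.K.bd e = {x, y} ∧
    4 * (((P ∩ X.K.cell e).ncard : ℕ) : ℝ) ≤ X.L e * dist x y

/-- wide zones on the inner wires -/
def Zoned (X : Base) (P : Set E3) : Prop := ∀ e, X.K.dim e = 1 → ¬ X.K.cell e ⊆ X.bd →
  ∃ z : E3 → Band E3, (∀ p ∈ P ∩ X.K.cell e, (z p).Ok ∧ (z p).In (X.K.cell e) ∧
    (z p).B ⊆ X.K.ocell e ∧ (z p).W = {p} ∧ LipschitzOnWith (X.L e) (z p).u (z p).B) ∧
    ∀ p ∈ P ∩ X.K.cell e, ∀ q ∈ P ∩ X.K.cell e, p ≠ q → Disjoint (z p).B (z q).B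

end P073.Bd
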