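import Vale.Agent.P073Y.Bd.Sk
import Vale.Agent.P073Z.RCX2

/-!
# Amalgamation of cells
-/

open Set Metric Topology Filter

namespace P073.Bd

section

variable {E : Type} [NormedAddCommGroup E] [NormedSpace ℝ E] {K : RCx E}

/-- an open cell meeting the difference of two subcomplexes lies in it -/
theorem amal_A {C S : Set E} (hC : K.Sub C) (hS : K.Sub S) {i : K.ι}
    (h : ¬ Disjoint (K.ocell i) (C \ S)) : K.ocell i ⊆ C \ S := by
  obtain ⟨y, hy, hyC⟩ := not_disjoint_iff.1 h
  intro x hx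
  exact ⟨hC.cell_subset hy hyC.1 hx.1, fun hxS => hyC.2 (hS.cell_subset hx hxS hy.1)⟩

/-- a kept cell does not meet the open balls -/
theorem amal_B {μ : Type} {C S : μ → Set E} (hS : ∀ m, K.Sub (S m))
    (h4 : ∀ m i, (K.cell i ∩ (C m \ S m)).Nonempty →
      K.cell i ⊆ C m ∨ ∃ m', K.ocell i ⊆ C m' \ S m')
    {i : K.ι} (hi : ∀ m, Disjoint (K.ocell i) (C m \ S m)) (m : μ) :
    Disjoint (K.cell i) (C m \ S m) := by
  rw [Set.disjoint_left]
  intro x hx hxC
  obtain ⟨y, hy⟩ := K.ocell_nonempty i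
  rcases h4 m i ⟨x, hx, hxC⟩ with h | ⟨m', h⟩
  · by_cases hyS : y ∈ S m
    · exact hxC.2 ((hS m).cell_subset hy hyS hx)
    · exact Set.disjoint_left.1 (hi m) hy ⟨h hy.1, hyS⟩
  · exact Set.disjoint_left.1 (hi m') hy (h hy)

end

theorem amal : AMAL := by
  intro E _ _ K _ μ _ C S n h1 h2 h3 h4
  have hC : ∀ m, K.Sub (C m) := fun m => (h1 m).2.1
  have hS : ∀ m, K.Sub (S m) := fun m => (h1 m).2.2
  have hA : ∀ {j : K.ι} {x : E}, x ∈ K.ocell j → ¬ (∀ m, Disjoint (K.ocell j) (C m \ S m)) →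
      ∃ m, x ∈ C m \ S m := by
    intro j x hx hk
    obtain ⟨m, hm⟩ := not_forall.1 hk
    exact ⟨m, amal_A (hC m) (hS m) hm hx⟩
  let K' : RCx E :=
    { ι := μ ⊕ {i // ∀ m, Disjoint (K.ocell i) (C m \ S m)}
      cell := Sum.elim C fun i => K.cell i
      bd := Sum.elim S fun i => K.bd i
      dim := Sum.elim n fun i => K.dim i
      ball := by
        rintro (m | i)
        · exact (h1 m).1
        · exact K.ball i
      disj := by
        rintro (m | i) (m' | j) hne
        · rcases h2 m m' (fun e => hne (congrArg Sum.inl e)) with h | h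
          · exact h.mono_right sdiff_subset
          · exact Set.disjoint_left.2 fun x hx hx' => hx'.2 (h.1 hx.1)
        · exact (j.2 m).symm
        · exact i.2 m'
        · exact K.disj i j fun e => hne (congrArg Sum.inr (Subtype.ext e))
      bdry := by
        rintro (m | i) x hx
        · obtain ⟨j, hj, hs⟩ := (hS m).exists_ocell hx
          by_cases hk : ∀ m, Disjoint (K.ocell j) (C m \ S m)
          · exact ⟨Sum.inr ⟨j, hk⟩, hj, hs, h3 m j hs⟩
          · obtain ⟨m', hm'⟩ := hA hj hk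
            have hne : m' ≠ m := fun e => hm'.2 (e ▸ hx)
            rcases h2 m' m hne with h | h
            · exact absurd ((h1 m).1.1 hx) (Set.disjoint_left.1 h hm')
            · exact ⟨Sum.inl m', hm', h.1, h.2⟩
        · obtain ⟨j, hj, hs, hd⟩ := K.bdry i x hx
          refine ⟨Sum.inr ⟨j, fun m => ?_⟩, hj, hs, hd⟩
          exact (amal_B hS h4 i.2 m).mono_left
            (fun y hy => K.bd_subset i (hs hy.1))
      lf := fun x _ => ⟨univ, univ_mem, toFinite _⟩ }
  refine ⟨K', Sum.inl, Sum.inr, inferInstanceAs (Finite (μ ⊕ _)), ?_,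
    fun _ => ⟨rfl, rfl, rfl⟩, fun _ => ⟨rfl, rfl, rfl⟩, ?_⟩
  · apply Subset.antisymm
    · intro x hx
      obtain ⟨j, hj⟩ := K'.mem_carrier.1 hx
      rcases j with m | i
      · exact (hC m).subset_carrier hj
      · exact K.cell_subset_carrier i hj
    · intro x hx
      obtain ⟨j, hj⟩ := K.exists_ocell hx
      by_cases hk : ∀ m, Disjoint (K.ocell j) (C m \ S m)
      · exact K'.mem_carrier.2 ⟨Sum.inr ⟨j, hk⟩, hj.1⟩
      · obtain ⟨m, hm⟩ := hA hj hk
        exact K'.mem_carrier.2 ⟨Sum.inl m, hm.1⟩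
  · rintro (m | i)
    · exact Or.inl ⟨m, rfl⟩
    · exact Or.inr ⟨i, rfl⟩

end P073.Bd
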