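import Vale.Agent.P073Y.Bd.Sk
import Vale.Agent.P073Z.A14
import Vale.Agent.P073Z.A2.PL
import Vale.Agent.P073Z.A1

/-!
# Bands: product charts, levels, restrictions
-/

open Set Metric Topology Filter

namespace P073.Bd.Bas2

open P073.A2

variable {E F : Type} [NormedAddCommGroup E] [NormedSpace ℝ E]
  [NormedAddCommGroup F] [NormedSpace ℝ F]

theorem zero_mem_I : (0:ℝ) ∈ I := ⟨by norm_num, by norm_num⟩

theorem locCone_I : LocCone I := locCone_Icc _ _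

theorem cs_I : ConicalSet I := locCone_I.conicalSet

/-- preimages of polyhedra under PL maps on closed polyhedra -/
theorem locCone_pre {X : Set E} {Y : Set F} {h : E → F} (hX : IsClosed X) (hc : LocCone X)
    (hh : PLOn h X) (hYc : IsClosed Y) (hY : LocCone Y) : LocCone (X ∩ h ⁻¹' Y) := by
  intro x
  by_cases hx : x ∈ X
  · exact pre hx (hc x) (hh.1 x hx) (hh.2 x hx) (hY _)
  · refine locConeAt_of_compl_mem_nhds ?_
    exact (hh.1.preimage_isClosed_of_isClosed hX hYc).isOpen_compl.mem_nhds fun h => hx h.1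

theorem locCone_single (s : ℝ) : LocCone ({s} : Set ℝ) := by
  rw [← Icc_self]; exact locCone_Icc s s

variable {b b' : Band E}

omit [NormedAddCommGroup E] [NormedSpace ℝ E] in
theorem lev_eq (b : Band E) (s : ℝ) : {x ∈ b.B | b.u x = s} = b.B ∩ b.u ⁻¹' {s} := rfl

theorem lev_cpt (h : b.Ok) (s : ℝ) : IsCompact {x ∈ b.B | b.u x = s} := by
  rw [lev_eq]
  exact h.cpt.of_isClosed_subset
    (h.upl.1.preimage_isClosed_of_isClosed h.cpt.isClosed isClosed_singleton) inter_subset_left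

theorem lev_loc (h : b.Ok) (s : ℝ) : LocCone {x ∈ b.B | b.u x = s} := by
  rw [lev_eq]
  exact locCone_pre h.cpt.isClosed h.loc h.upl isClosed_singleton (locCone_single s)

theorem W_cpt (h : b.Ok) : IsCompact b.W ∧ LocCone b.W := ⟨lev_cpt h 0, lev_loc h 0⟩

omit [NormedAddCommGroup E] [NormedSpace ℝ E] in
theorem W_sub (b : Band E) : b.W ⊆ b.B := fun _ hx => hx.1

theorem M_zero (h : b.Ok) {x : E} (hx : x ∈ b.W) : b.M (x, 0) = x := by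
  have := h.Mid x hx.1
  rwa [hx.2] at this

theorem M_mem_W (h : b.Ok) {x : E} (hx : x ∈ b.B) : b.M (x, 0) ∈ b.W := h.Mmem x hx 0 zero_mem_I

theorem back (h : b.Ok) {x : E} (hx : x ∈ b.B) {s : ℝ} (hs : s ∈ I) :
    b.M (b.M (x, s), b.u x) = x := by
  rw [h.MM x hx s hs _ (h.urange x hx), h.Mid x hx]

theorem keeps_iff {Y : Set E} (h : b.Ok) (hk : b.Keeps Y) {x : E} (hx : x ∈ b.B) {s : ℝ}
    (hs : s ∈ I) : b.M (x, s) ∈ Y ↔ x ∈ Y := by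
  refine ⟨fun hy => ?_, hk x hx s hs⟩
  have := hk _ (h.Mmem x hx s hs).1 _ (h.urange x hx) hy
  rwa [back h hx hs] at this

/-- the move composed with PL maps -/
theorem pl_M (h : b.Ok) {Z : Set F} {f : F → E} {g : F → ℝ} (hf : PLOn f Z) (hg : PLOn g Z)
    (hfm : ∀ z ∈ Z, f z ∈ b.B) (hgm : ∀ z ∈ Z, g z ∈ I) : PLOn (fun z => b.M (f z, g z)) Z :=
  pl_comp h.Mpl (pl_prodMk hf hg) fun z hz => ⟨hfm z hz, hgm z hz⟩

/-- the move to a fixed level -/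
theorem pl_at (h : b.Ok) {Z : Set E} (hZ : ConicalSet Z) (hs : Z ⊆ b.B) {s : ℝ} (hI : s ∈ I) :
    PLOn (fun z => b.M (z, s)) Z :=
  pl_M h (pl_id hZ) (pl_const s hZ) hs fun _ _ => hI

theorem chart (h : b.Ok) : ∃ Φ : ConHomeo (b.W ×ˢ I) b.B,
    (∀ q, Φ.toFun q = b.M q) ∧ ∀ x, Φ.invFun x = (b.M (x, 0), b.u x) := by
  have hcs : ConicalSet (b.W ×ˢ I) := conicalSet_prod (W_cpt h).2.conicalSet cs_I
  have hpl : PLOn b.M (b.W ×ˢ I) := pl_mono h.Mpl hcs (prod_mono (W_sub b) Subset.rfl)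
  refine ⟨⟨b.M, fun x => (b.M (x, 0), b.u x), fun q hq => (h.Mmem q.1 hq.1.1 q.2 hq.2).1,
    fun x hx => ⟨M_mem_W h hx, h.urange x hx⟩, fun q hq => ?_, fun x hx => ?_, hpl.1,
    (pl_prodMk (pl_at h h.loc.conicalSet Subset.rfl zero_mem_I) h.upl).1, hpl.2⟩,
    fun _ => rfl, fun _ => rfl⟩
  · obtain ⟨x, s⟩ := q
    show (b.M (b.M (x, s), 0), b.u (b.M (x, s))) = (x, s)
    rw [h.MM x hq.1.1 s hq.2 0 zero_mem_I, M_zero h hq.1, (h.Mmem x hq.1.1 s hq.2).2]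
  · exact back h hx zero_mem_I

theorem zone (h : b.Ok) (h' : b'.Ok) (c : Comm b b') (c' : Comm b' b) :
    ∃ Φ : ConHomeo ((b.W ∩ b'.W) ×ˢ (I ×ˢ I)) (b.B ∩ b'.B),
      (∀ q, Φ.toFun q = b'.M (b.M (q.1, q.2.1), q.2.2)) ∧
      ∀ x, Φ.invFun x = (b'.M (b.M (x, 0), 0), (b.u x, b'.u x)) := by
  have hcs : ConicalSet ((b.W ∩ b'.W) ×ˢ (I ×ˢ I)) :=
    conicalSet_prod ((W_cpt h).2.inter (W_cpt h').2).conicalSet (conicalSet_prod cs_I cs_I)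
  have hcB : ConicalSet (b.B ∩ b'.B) := (h.loc.inter h'.loc).conicalSet
  have m1 : ∀ x ∈ b.B ∩ b'.B, ∀ s ∈ I, b.M (x, s) ∈ b.B ∩ b'.B := fun x hx s hs =>
    ⟨(h.Mmem x hx.1 s hs).1, (c x hx.1 s hs).1.2 hx.2⟩
  have m2 : ∀ x ∈ b.B ∩ b'.B, ∀ s ∈ I, b'.M (x, s) ∈ b.B ∩ b'.B := fun x hx s hs =>
    ⟨(c' x hx.2 s hs).1.2 hx.1, (h'.Mmem x hx.2 s hs).1⟩
  have hWB : ∀ x ∈ b.W ∩ b'.W, x ∈ b.B ∩ b'.B := fun x hx => ⟨hx.1.1, hx.2.1⟩
  have p2 : PLOn (fun q : E × (ℝ × ℝ) => q.2) ((b.W ∩ b'.W) ×ˢ (I ×ˢ I)) := pl_snd hcs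
  have hpl : PLOn (fun q : E × (ℝ × ℝ) => b'.M (b.M (q.1, q.2.1), q.2.2))
      ((b.W ∩ b'.W) ×ˢ (I ×ˢ I)) := by
    refine pl_M h' (pl_M h (pl_fst hcs) ?_ (fun q hq => hq.1.1.1) fun q hq => hq.2.1) ?_
      (fun q hq => (m1 _ (hWB _ hq.1) _ hq.2.1).2) fun q hq => hq.2.2
    · exact pl_comp_univ (pl_fst conicalSet_univ) p2
    · exact pl_comp_univ (pl_snd conicalSet_univ) p2
  have hinv : PLOn (fun x => (b'.M (b.M (x, 0), 0), (b.u x, b'.u x))) (b.B ∩ b'.B) := by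
    refine pl_prodMk (pl_M h' (pl_at h hcB inter_subset_left zero_mem_I) (pl_const 0 hcB)
      (fun x hx => (m1 x hx 0 zero_mem_I).2) fun _ _ => zero_mem_I)
      (pl_prodMk (pl_mono h.upl hcB inter_subset_left) (pl_mono h'.upl hcB inter_subset_right))
  refine ⟨⟨fun q => b'.M (b.M (q.1, q.2.1), q.2.2),
    fun x => (b'.M (b.M (x, 0), 0), (b.u x, b'.u x)),
    fun q hq => m2 _ (m1 _ (hWB _ hq.1) _ hq.2.1) _ hq.2.2, fun x hx => ?_, fun q hq => ?_,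
    fun x hx => ?_, hpl.1, hinv.1, hpl.2⟩, fun _ => rfl, fun _ => rfl⟩
  · have hy := m1 x hx 0 zero_mem_I
    refine ⟨⟨⟨(m2 _ hy 0 zero_mem_I).1, ?_⟩, M_mem_W h' hy.2⟩, h.urange x hx.1, h'.urange x hx.2⟩
    show b.u (b'.M (b.M (x, 0), 0)) = 0
    rw [((c' _ hy.2 0 zero_mem_I).2 hy.1).1, (h.Mmem x hx.1 0 zero_mem_I).2]
  · obtain ⟨x, s, t⟩ := q
    obtain ⟨hx, hs, ht⟩ := hq
    have hy := m1 x (hWB x hx) s hs
    show (b'.M (b.M (b'.M (b.M (x, s), t), 0), 0), (b.u (b'.M (b.M (x, s), t)),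
      b'.u (b'.M (b.M (x, s), t)))) = (x, s, t)
    rw [((c' _ hy.2 t ht).2 hy.1).2 0 zero_mem_I, h.MM x hx.1.1 s hs 0 zero_mem_I, M_zero h hx.1,
      h'.MM x hx.2.1 t ht 0 zero_mem_I, M_zero h' hx.2, ((c' _ hy.2 t ht).2 hy.1).1,
      (h.Mmem x hx.1.1 s hs).2, (h'.Mmem _ hy.2 t ht).2]
  · have hy := m1 x hx 0 zero_mem_I
    show b'.M (b.M (b'.M (b.M (x, 0), 0), b.u x), b'.u x) = x
    rw [((c' _ hy.2 0 zero_mem_I).2 hy.1).2 _ (h.urange x hx.1), back h hx.1 zero_mem_I,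
      back h' hx.2 zero_mem_I]

theorem level {Y : Set E} (h : b.Ok) (hk : b.Keeps Y) (_hY : IsCompact Y) (hc : LocCone Y)
    (s : ℝ) (hs : s ∈ I) : ∃ Φ : ConHomeo (b.W ∩ Y) {x ∈ b.B ∩ Y | b.u x = s},
      (∀ x, Φ.toFun x = b.M (x, s)) ∧ ∀ x, Φ.invFun x = b.M (x, 0) := by
  have hcs : ConicalSet (b.W ∩ Y) := ((W_cpt h).2.inter hc).conicalSet
  have hpl := pl_at h hcs (fun x hx => hx.1.1) hs
  have hinv := pl_at h h.loc.conicalSet Subset.rfl zero_mem_I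
  refine ⟨⟨fun x => b.M (x, s), fun x => b.M (x, 0),
    fun x hx => ⟨⟨(h.Mmem x hx.1.1 s hs).1, hk x hx.1.1 s hs hx.2⟩, (h.Mmem x hx.1.1 s hs).2⟩,
    fun x hx => ⟨M_mem_W h hx.1.1, hk x hx.1.1 0 zero_mem_I hx.1.2⟩, fun x hx => ?_,
    fun x hx => ?_, hpl.1, hinv.1.mono fun x hx => hx.1.1, hpl.2⟩, fun _ => rfl, fun _ => rfl⟩
  · show b.M (b.M (x, s), 0) = x
    rw [h.MM x hx.1.1 s hs 0 zero_mem_I, M_zero h hx.1]
  · show b.M (b.M (x, 0), s) = x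
    rw [← hx.2]; exact back h hx.1.1 zero_mem_I

/-- a saturated compact polyhedral part of a band is a band -/
theorem ok_sub (h : b.Ok) {Z : Set E} (hZ : IsCompact Z) (hc : LocCone Z) (hs : Z ⊆ b.B)
    (hk : ∀ x ∈ Z, ∀ s ∈ I, b.M (x, s) ∈ Z) : (⟨Z, b.u, b.M⟩ : Band E).Ok where
  cpt := hZ
  loc := hc
  upl := pl_mono h.upl hc.conicalSet hs
  Mpl := pl_mono h.Mpl (conicalSet_prod hc.conicalSet cs_I) (prod_mono hs Subset.rfl)
  urange := fun x hx => h.urange x (hs hx)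
  Mmem := fun x hx s hI => ⟨hk x hx s hI, (h.Mmem x (hs hx) s hI).2⟩
  Mid := fun x hx => h.Mid x (hs hx)
  MM := fun x hx => h.MM x (hs hx)

theorem restr {X Y V : Set E} (h : b.Ok) (hi : b.In X) (hYX : Y ⊆ X) (hY : IsCompact Y)
    (hc : LocCone Y) (hk : b.Keeps Y) (hV : V ⊆ b.W ∩ Y) (hVc : IsCompact V) (hVl : LocCone V)
    (hcl : IsClosed ((b.W ∩ Y) \ V)) :
    (b.restr Y V).Ok ∧ (b.restr Y V).In Y ∧ (b.restr Y V).W = V := by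
  have hBY : IsCompact (b.B ∩ Y) := h.cpt.inter hY
  have hBl : LocCone (b.B ∩ Y) := h.loc.inter hc
  have hpl := pl_at h hBl.conicalSet inter_subset_left zero_mem_I
  have heq : {x ∈ b.B ∩ Y | b.M (x, 0) ∈ V} = (b.B ∩ Y) ∩ (fun x => b.M (x, 0)) ⁻¹' V := rfl
  refine ⟨ok_sub h ?_ ?_ (fun x hx => hx.1.1) fun x hx s hs => ?_, ⟨fun x hx => hx.1.2,
    fun x hx hu => ?_⟩, ?_⟩
  · rw [heq]
    exact hBY.of_isClosed_subset (hpl.1.preimage_isClosed_of_isClosed hBY.isClosed hVc.isClosed)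
      inter_subset_left
  · rw [heq]
    exact locCone_pre hBY.isClosed hBl hpl hVc.isClosed hVl
  · refine ⟨⟨(h.Mmem x hx.1.1 s hs).1, hk x hx.1.1 s hs hx.1.2⟩, ?_⟩
    show b.M (b.M (x, s), 0) ∈ V
    rw [h.MM x hx.1.1 s hs 0 zero_mem_I]; exact hx.2
  · have h1 : b.B ∩ Y ∈ 𝓝[Y] x :=
      inter_mem (nhdsWithin_mono x hYX (hi.2 x hx.1.1 hu)) self_mem_nhdsWithin
    have h2 : ∀ᶠ y in 𝓝[b.B ∩ Y] x, b.M (y, 0) ∈ ((b.W ∩ Y) \ V)ᶜ :=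
      hpl.1 x hx.1 (hcl.isOpen_compl.mem_nhds fun hh => hh.2 hx.2)
    have h3 : 𝓝[Y] x ≤ 𝓝[b.B ∩ Y] x := nhdsWithin_le_iff.2 h1
    filter_upwards [h1, h3 h2] with y hy hy2
    refine ⟨hy, ?_⟩
    by_contra hn
    exact hy2 ⟨⟨M_mem_W h hy.1, hk y hy.1 0 zero_mem_I hy.2⟩, hn⟩
  · ext x
    constructor
    · intro hx
      have hW : x ∈ b.W := ⟨hx.1.1.1, hx.2⟩
      have := hx.1.2
      rwa [M_zero h hW] at this
    · intro hx
      have hW := (hV hx).1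
      refine ⟨⟨⟨hW.1, (hV hx).2⟩, ?_⟩, hW.2⟩
      rw [M_zero h hW]; exact hx

theorem cut {X Y : Set E} (h : b.On X) (hYX : Y ⊆ X) (hY : IsCompact Y) (hc : LocCone Y)
    (hk : b.Keeps Y) : (b.cut Y).On Y where
  ok := ok_sub h.ok (h.ok.cpt.inter hY) (h.ok.loc.inter hc) inter_subset_left
    fun x hx s hs => ⟨(h.ok.Mmem x hx.1 s hs).1, hk x hx.1 s hs hx.2⟩
  sub := inter_subset_right
  upl := pl_mono h.upl hc.conicalSet hYX
  out := fun x hx hn => h.out x (hYX hx) fun hB => hn ⟨hB, hx⟩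

theorem part_eq (h : b.Ok) {J : Set ℝ} (hJ : J ⊆ I) :
    {x ∈ b.B | b.u x ∈ J} = b.M '' (b.W ×ˢ J) := by
  ext x
  constructor
  · intro hx
    exact ⟨(b.M (x, 0), b.u x), ⟨M_mem_W h hx.1, hx.2⟩, back h hx.1 zero_mem_I⟩
  · rintro ⟨⟨y, s⟩, ⟨hy, hs⟩, rfl⟩
    obtain ⟨h1, h2⟩ := h.Mmem y hy.1 s (hJ hs)
    exact ⟨h1, by rw [h2]; exact hs⟩

theorem part_pre (h : b.Ok) (hW : IsPreconnected b.W) {J : Set ℝ} (hJ : J ⊆ I)
    (hp : IsPreconnected J) : IsPreconnected {x ∈ b.B | b.u x ∈ J} := by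
  rw [part_eq h hJ]
  exact (hW.prod hp).image _ (h.Mpl.1.mono (prod_mono (W_sub b) hJ))

theorem pre (h : b.Ok) (hW : IsPreconnected b.W) : IsPreconnected b.B ∧
    IsPreconnected {x ∈ b.B | 0 < b.u x} ∧ IsPreconnected {x ∈ b.B | b.u x < 0} := by
  refine ⟨?_, ?_, ?_⟩
  · convert part_pre h hW Subset.rfl isPreconnected_Icc using 1
    ext x
    exact ⟨fun hx => ⟨hx, h.urange x hx⟩, fun hx => hx.1⟩
  · convert part_pre h hW (J := Ioc 0 1) (fun s hs => ⟨by linarith [hs.1], hs.2⟩)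
      isPreconnected_Ioc using 1
    ext x
    exact ⟨fun hx => ⟨hx.1, hx.2, (h.urange x hx.1).2⟩, fun hx => ⟨hx.1, hx.2.1⟩⟩
  · convert part_pre h hW (J := Ico (-1) 0) (fun s hs => ⟨hs.1, by linarith [hs.2]⟩)
      isPreconnected_Ico using 1
    ext x
    exact ⟨fun hx => ⟨hx.1, (h.urange x hx.1).1, hx.2⟩, fun hx => ⟨hx.1, hx.2.2⟩⟩

theorem two {X Y : Set E} (h : b.Ok) (hi : b.In X) (hYX : Y ⊆ X) (hk : b.Keeps Y) :
    b.W ∩ closure Y ⊆ closure (b.W ∩ Y) := by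
  rintro x ⟨hx, hxY⟩
  have h1 : b.B ∈ 𝓝[Y] x :=
    nhdsWithin_mono x hYX (hi.2 x hx.1 (by rw [hx.2]; norm_num))
  have h2 : x ∈ closure (Y ∩ b.B) := by
    rw [mem_closure_iff_nhdsWithin_neBot] at hxY ⊢
    rwa [nhdsWithin_inter_of_mem' h1]
  have h3 : ContinuousWithinAt (fun y => b.M (y, 0)) (Y ∩ b.B) x :=
    ((pl_at h h.loc.conicalSet Subset.rfl zero_mem_I).1 x hx.1).mono inter_subset_right
  have h4 := h3.mem_closure h2 (t := b.W ∩ Y)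
    fun y hy => ⟨M_mem_W h hy.2, hk y hy.2 0 zero_mem_I hy.1⟩
  rwa [M_zero h hx] at h4

/-- transport of a union of circles and arcs -/
theorem lev_image {T S : Set E} {T' S' : Set F} (Φ : ConHomeo T T')
    (hS : ∀ x ∈ T, (Φ.toFun x ∈ S' ↔ x ∈ S)) (h : Lev T S) : Lev T' S' := by
  classical
  obtain ⟨𝒞, hT, hd, hc⟩ := h
  have hsub : ∀ c ∈ 𝒞, c ⊆ T := fun c hc => by
    rw [hT]; exact subset_biUnion_of_mem (u := fun c => c) hc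
  refine ⟨𝒞.image fun c => Φ.toFun '' c, ?_, ?_, ?_⟩
  · refine Φ.image_eq.symm.trans ?_
    ext y
    simp only [Finset.mem_image, mem_iUnion, exists_prop]
    constructor
    · rintro ⟨x, hx, rfl⟩
      obtain ⟨c, hc, hx⟩ := mem_iUnion₂.1 (hT.subset hx)
      exact ⟨_, ⟨c, hc, rfl⟩, mem_image_of_mem _ hx⟩
    · rintro ⟨_, ⟨c, hc, rfl⟩, x, hx, rfl⟩
      exact mem_image_of_mem _ (hsub c hc hx)
  · intro d hd1 d' hd2 hne
    obtain ⟨c, hc1, rfl⟩ := Finset.mem_image.1 hd1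
    obtain ⟨c', hc2, rfl⟩ := Finset.mem_image.1 hd2
    have hcc : c ≠ c' := fun e => hne (by rw [e])
    exact disjoint_image_image fun x hx y hy e =>
      Set.disjoint_left.1 (hd c hc1 c' hc2 hcc) hx
        ((Φ.injOn (hsub c hc1 hx) (hsub c' hc2 hy) e).symm ▸ hy)
  · intro d hd1
    obtain ⟨c, hc1, rfl⟩ := Finset.mem_image.1 hd1
    rcases hc c hc1 with ⟨⟨φ⟩, h2⟩ | ⟨p, q, h1, h2⟩
    · refine Or.inl ⟨⟨φ.trans (Φ.restr φ.conicalSet_right (hsub c hc1))⟩, ?_⟩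
      refine Set.disjoint_left.2 ?_
      rintro _ ⟨x, hx, rfl⟩ hy
      exact Set.disjoint_left.1 h2 hx ((hS x (hsub c hc1 hx)).1 hy)
    · refine Or.inr ⟨_, _, h1.image Φ (hsub c hc1), ?_⟩
      rw [← image_pair, ← h2]
      ext y
      constructor
      · rintro ⟨⟨x, hx, rfl⟩, hy⟩
        exact ⟨x, ⟨hx, (hS x (hsub c hc1 hx)).1 hy⟩, rfl⟩
      · rintro ⟨x, hx, rfl⟩
        exact ⟨⟨x, hx.1, rfl⟩, (hS x (hsub c hc1 hx.1)).2 hx.2⟩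

theorem lev [FiniteDimensional ℝ E] {X D S : Set E} (h : b.On X) (hDX : D ⊆ X)
    (hD : ConBall 2 D S) (hk : b.Keeps D) (hk' : b.Keeps S) : Lev (b.W ∩ D) S := by
  obtain ⟨T, hT, H⟩ := p4 hD (pl_mono h.upl hD.conicalSet hDX)
  obtain ⟨t, ht, htT⟩ := (Ioo_infinite (show (-1:ℝ) < 1 by norm_num)).exists_notMem_finite hT
  have htI : t ∈ I := Ioo_subset_Icc_self ht
  obtain ⟨Φ, -, hΦ⟩ := level h.ok hk hD.isCompact hD.locCone t htI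
  have he : {x ∈ D | b.u x = t} = {x ∈ b.B ∩ D | b.u x = t} := by
    ext x
    refine ⟨fun hx => ⟨⟨?_, hx.1⟩, hx.2⟩, fun hx => ⟨hx.1.2, hx.2⟩⟩
    by_contra hn
    rcases h.out x (hDX hx.1) hn with e | e
    · rw [hx.2] at e; exact ht.2.ne e
    · rw [hx.2] at e; exact ht.1.ne' e
  have hl : Lev {x ∈ b.B ∩ D | b.u x = t} S := he ▸ (H t htT).1
  refine lev_image Φ.symm (fun x hx => ?_) hl
  rw [ConHomeo.symm_toFun, hΦ]
  exact keeps_iff h.ok hk' hx.1.1 zero_mem_I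

end P073.Bd.Bas2
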