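import Vale.Agent.P073Y.Bd.Bas1
import Vale.Agent.P073Y.Bd.Bas2

/-!
# Bands: the elementary facts
-/

namespace P073.Bd

theorem bas : BAS := fun _ _ _ _ =>
  { half_W := Bas1.half_W
    half_ok := Bas1.half_ok
    half_in := Bas1.half_in
    half_on := Bas1.half_on
    half_comm := Bas1.half_comm
    half_match := Bas1.half_match
    on_in := Bas1.on_in
    on_W := Bas1.on_W
    W_cpt := Bas1.W_cpt
    keeps_iff := Bas1.keeps_iff
    match_refl := Bas1.match_refl
    match_symm := Bas1.match_symm
    sgn_half := Bas1.sgn_half
    comm_of_disjoint := Bas1.comm_of_disjoint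
    comm_u := Bas1.comm_u
    chart := Bas2.chart
    zone := Bas2.zone
    level := Bas2.level
    restr := Bas2.restr
    cut := Bas2.cut
    pre := Bas2.pre
    two := Bas2.two
    lev := Bas2.lev }

end P073.Bd
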