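import Vale.Agent.P073Y.Bd.Sk
import Vale.Agent.P073Z.SHELL
import Vale.Agent.P073Z.A1b

/-!
# The cup construction in a ball with a chart
-/

set_option linter.all false

open Set Metric Topology Filter
open scoped NNReal

namespace P073.Bd

namespace Collar

section general

variable {E : Type} [NormedAddCommGroup E] [NormedSpace ℝ E]

/-- the band with another level function -/
def setU (b : Band E) (u : E → ℝ) : Band E := ⟨b.B, u, b.M⟩

theorem setU_ok {b : Band E} {u : E → ℝ} (h : b.Ok) (e : EqOn u b.u b.B) : (setU b u).Ok where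
  cpt := h.cpt
  loc := h.loc
  upl := ⟨h.upl.1.congr e, h.upl.2.congr e⟩
  Mpl := h.Mpl
  urange := fun x hx => by
    change u x ∈ I
    rw [e hx]
    exact h.urange x hx
  Mmem := fun x hx s hs =>
    ⟨(h.Mmem x hx s hs).1, (e (h.Mmem x hx s hs).1).trans (h.Mmem x hx s hs).2⟩
  Mid := fun x hx => by
    change b.M (x, u x) = x
    rw [e hx]
    exact h.Mid x hx
  MM := h.MM

theorem setU_W {b : Band E} {u : E → ℝ} (e : EqOn u b.u b.B) : (setU b u).W = b.W := by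
  ext x
  exact and_congr_right fun hx => by
    change u x = 0 ↔ _
    rw [e hx]

theorem setU_comm {b b' : Band E} {u u' : E → ℝ} (h : Comm b b') (e : EqOn u' b'.u b'.B) :
    Comm (setU b u) (setU b' u') := fun x hx s hs =>
  ⟨(h x hx s hs).1, fun hx' => ⟨by
    change u' (b.M (x, s)) = u' x
    rw [e ((h x hx s hs).1.2 hx'), e hx']
    exact ((h x hx s hs).2 hx').1, ((h x hx s hs).2 hx').2⟩⟩

end general

theorem cl_lip (s t : ℝ) : |cl s - cl t| ≤ |s - t| := by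
  have := ((LipschitzWith.id.min_const (1 : ℝ)).const_max (-1)).dist_le_mul s t
  simpa [Real.dist_eq, cl] using this

theorem cl_low {s : ℝ} (h : s ≤ -1) : cl s = -1 :=
  max_eq_left ((min_le_left _ _).trans h)

theorem cl_min {s t : ℝ} (h : 1 ≤ t) : cl (min s t) = cl s := by
  rw [cl, cl, min_assoc, min_eq_right h]

theorem cl_eq_zero {s : ℝ} : cl s = 0 ↔ s = 0 := by
  unfold cl
  constructor
  · intro h
    rcases max_choice (-1 : ℝ) (min s 1) with h1 | h1 <;> rw [h1] at h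
    · norm_num at h
    · rcases min_choice s 1 with h2 | h2 <;> rw [h2] at h
      · exact h
      · norm_num at h
  · rintro rfl
    norm_num

/-- the shell -/
def Sh (n : ℕ) : Set (Fin n → ℝ) := {x | 1 / 2 ≤ ‖x‖ ∧ ‖x‖ ≤ 1}

theorem Sh_sub (n : ℕ) : Sh n ⊆ closedBall 0 1 := fun _ hx => mem_closedBall_zero_iff.2 hx.2

theorem Sh_closed (n : ℕ) : IsClosed (Sh n) :=
  (isClosed_le continuous_const continuous_norm).inter
    (isClosed_le continuous_norm continuous_const)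

theorem Sh_cpt (n : ℕ) : IsCompact (Sh n) :=
  (isCompact_closedBall _ _).of_isClosed_subset (Sh_closed n) (Sh_sub n)

theorem Sh_loc (n : ℕ) : LocCone (Sh n) :=
  (locCone_setOf_ge continuous_norm Sh.conicalOn_norm_pi _).inter
    (locCone_setOf_le continuous_norm Sh.conicalOn_norm_pi _)

/-- the level function on the cube is Lipschitz -/
theorem lip_cube (hL : LIPG) {E : Type} [NormedAddCommGroup E] [NormedSpace ℝ E] {n : ℕ}
    {S : Set E} {p : (Fin n → ℝ) → E} {u : E → ℝ} {L A Λ : ℝ≥0} {d w : ℝ} (hw : 0 < w)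
    (hd : d + 2 * w ≤ 1) (hp : LipschitzOnWith A p (Sh n)) (hS : MapsTo p (Sh n) S)
    (hu : PwLip L u S) (h1 : 2 * L * A ≤ Λ) (h2 : 2 / w ≤ Λ) :
    LipschitzOnWith Λ (fun z => cl (min (2 * u (p z)) ((d - 2 * (1 - ‖z‖)) / w)))
      (closedBall 0 1) := by
  classical
  obtain ⟨𝒞, h𝒞, hc⟩ := hu
  refine hL.1 (convex_closedBall _ _)
    ⟨insert (closedBall 0 (1 / 2)) (𝒞.image fun Z => Sh n ∩ p ⁻¹' Z), ?_, ?_⟩
  · intro Y hY
    rcases Finset.mem_insert.1 hY with rfl | hY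
    · refine ⟨isClosed_closedBall, LipschitzOnWith.of_dist_le_mul fun x hx y hy => ?_⟩
      have key : ∀ z ∈ closedBall (0 : Fin n → ℝ) (1 / 2),
          cl (min (2 * u (p z)) ((d - 2 * (1 - ‖z‖)) / w)) = -1 := fun z hz => by
        refine cl_low ((min_le_right _ _).trans ?_)
        rw [div_le_iff₀ hw]
        linarith [mem_closedBall_zero_iff.1 hz]
      rw [key x hx, key y hy, dist_self]
      positivity
    · obtain ⟨Z, hZ, rfl⟩ := Finset.mem_image.1 hY
      refine ⟨hp.continuousOn.preimage_isClosed_of_isClosed (Sh_closed n) (h𝒞 Z hZ).1,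
        LipschitzOnWith.of_dist_le_mul fun x hx y hy => ?_⟩
      have a1 := (h𝒞 Z hZ).2.dist_le_mul _ hx.2 _ hy.2
      have a2 := hp.dist_le_mul _ hx.1 _ hy.1
      have a3 : |‖x‖ - ‖y‖| ≤ dist x y := by
        rw [dist_eq_norm]
        exact abs_norm_sub_norm_le x y
      have h1' : 2 * (L : ℝ) * A ≤ Λ := by exact_mod_cast h1
      have d0 : 0 ≤ dist x y := dist_nonneg
      rw [Real.dist_eq] at a1 ⊢
      refine (cl_lip _ _).trans ((abs_min_sub_min_le_max _ _ _ _).trans (max_le ?_ ?_))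
      · rw [← mul_sub, abs_mul, abs_two]
        have a4 := mul_le_mul_of_nonneg_left a2 L.coe_nonneg
        have a5 := mul_le_mul_of_nonneg_right h1' d0
        linarith
      · have e : (d - 2 * (1 - ‖x‖)) / w - (d - 2 * (1 - ‖y‖)) / w = 2 / w * (‖x‖ - ‖y‖) := by
          ring
        rw [e, abs_mul, abs_of_pos (by positivity : 0 < 2 / w)]
        exact mul_le_mul h2 a3 (abs_nonneg _) Λ.coe_nonneg
  · intro z hz
    by_cases h : ‖z‖ ≤ 1 / 2
    · exact mem_biUnion (Finset.mem_insert_self _ _) (mem_closedBall_zero_iff.2 h)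
    · have hz' : z ∈ Sh n := ⟨(not_le.1 h).le, mem_closedBall_zero_iff.1 hz⟩
      obtain ⟨Z, hZ, hZ'⟩ := mem_iUnion₂.1 (hc (hS hz'))
      exact mem_biUnion (Finset.mem_insert_of_mem (Finset.mem_image_of_mem _ hZ)) ⟨hz', hZ'⟩

/-- the collar of a chart -/
theorem exists_nu (n : ℕ) : ∃ K : ℝ≥0, ∀ {E : Type} [NormedAddCommGroup E] [NormedSpace ℝ E]
    {C S : Set E} {M₂ : ℝ≥0} (φ : ConHomeo C (closedBall (0 : Fin n → ℝ) 1)), S ⊆ C →
    φ.toFun '' S = sphere 0 1 → LipschitzOnWith M₂ φ.invFun (closedBall 0 1) →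
    ∃ (ν : ConHomeo (S ×ˢ Icc (0 : ℝ) 1) (φ.invFun '' Sh n)) (p : (Fin n → ℝ) → E),
      (∀ x ∈ S, ν.toFun (x, 0) = x) ∧ LipschitzOnWith (M₂ * K) p (Sh n) ∧ MapsTo p (Sh n) S ∧
      ∀ y ∈ φ.invFun '' Sh n, ν.invFun y = (p (φ.toFun y), 2 * (1 - ‖φ.toFun y‖)) := by
  obtain ⟨Q, hQ⟩ := shell n
  obtain ⟨K, hK⟩ := lip (Sh_cpt n) (Sh_loc n) ⟨Q.cont_inv, Q.conical_inv⟩
  refine ⟨K, fun {E} _ _ {C S M₂} φ hSC hφ hM => ?_⟩
  have hB : ConicalSet S := ConBall.conicalSet_bdry ⟨hSC, φ, hφ⟩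
  obtain ⟨ψ, hψ, hψ'⟩ := Sh.exists_aff (a := 0) (b := 1) (a' := 1 / 2) (b' := 1) (c := 1)
    (d := -1 / 2) (by norm_num) (fun s hs => ⟨by linarith [hs.2], by linarith [hs.1]⟩)
    (fun s hs => ⟨by linarith [hs.2], by linarith [hs.1]⟩)
  let α : ConHomeo S (sphere (0 : Fin n → ℝ) 1) := (φ.restr hB hSC).cast rfl hφ
  let ν := ((Sh.prod α ψ).trans Q).trans (φ.symm.restr Q.conicalSet_right (Sh_sub n))
  refine ⟨ν, fun z => φ.invFun (Q.invFun z).1, fun x hx => ?_, ?_,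
    fun z hz => α.mapsTo_inv (Q.mapsTo_inv hz).1, ?_⟩
  · change φ.invFun (Q.toFun (φ.toFun x, ψ.toFun 0)) = x
    rw [hψ, mul_zero, add_zero, (hQ (φ.toFun x) (α.mapsTo hx)).1, φ.left_inv (hSC hx)]
  · have h1 := LipschitzWith.prod_fst.comp_lipschitzOnWith hK
    rw [one_mul] at h1
    exact hM.comp h1 fun z hz => sphere_subset_closedBall (Q.mapsTo_inv hz).1
  · rintro _ ⟨z, hz, rfl⟩
    change (φ.invFun (Q.invFun (φ.toFun (φ.invFun z))).1,
      ψ.invFun (Q.invFun (φ.toFun (φ.invFun z))).2) = _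
    rw [φ.right_inv (Sh_sub n hz), hψ']
    have h1 := Q.mapsTo_inv hz
    have h2 := (hQ _ h1.1).2.2 _ h1.2
    rw [Prod.mk.eta, Q.right_inv hz] at h2
    rw [← h2]
    refine Prod.ext rfl ?_
    change _ = 2 * (1 - ‖z‖)
    ring

end Collar

open Collar

theorem collar_of (hB : BAS) (hM : MAP) (hL : LIPG) (h0 : COLLAR0) (n : ℕ) :
    ∃ c₀, ∀ c, c₀ ≤ c → COLLAR n c := by
  obtain ⟨K, hK⟩ := exists_nu (n + 1)
  refine ⟨2 * K + 16, fun c hc => ?_⟩
  intro E _ _ _ κ C S M₁ M₂ L b rk N hch hb hcomm hrk hN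
  obtain ⟨hSC, φ, hφ, hM₁, hM₂⟩ := hch
  have hball : ConBall (n + 1) C S := ⟨hSC, φ, hφ⟩
  obtain ⟨ν, p, ν0, hp, hpS, hν⟩ := hK φ hSC hφ hM₂
  obtain ⟨w, hw, hwN⟩ : ∃ w : ℝ, 0 < w ∧ w * (4 * (N + 1)) = 1 :=
    ⟨1 / (4 * (N + 1)), by positivity, by field_simp⟩
  let d : κ → ℝ := fun k => (4 * rk k + 2) * w
  have hd : ∀ k, 2 * w ≤ d k ∧ d k + 2 * w ≤ 1 := fun k => by
    have h1 : (rk k : ℝ) ≤ N := by exact_mod_cast (hN k).le
    have h2 : (0 : ℝ) ≤ rk k := Nat.cast_nonneg _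
    have h3 := mul_le_mul_of_nonneg_left h1 hw.le
    have h4 := mul_nonneg hw.le h2
    constructor <;> simp only [d] <;> nlinarith
  have hlt : ∀ k l, rk k < rk l → d k + 4 * w ≤ d l := fun k l h => by
    have h1 : (rk k : ℝ) + 1 ≤ rk l := by exact_mod_cast h
    have h3 := mul_le_mul_of_nonneg_left h1 hw.le
    simp only [d]
    nlinarith
  obtain ⟨a, ha, hac⟩ := h0 b d hball.isCompact_bdry hball.locCone_bdry hw (fun k => (hb k).1)
    hcomm hd fun k l hkl => by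
      rcases lt_or_gt_of_ne (hrk.ne hkl) with h | h
      · exact le_abs.2 (Or.inr (by linarith [hlt k l h]))
      · exact le_abs.2 (Or.inl (by linarith [hlt l k h]))
  obtain ⟨m1, m2, m3⟩ := hM ν
  have hY : φ.invFun '' Sh (n + 1) ⊆ C := by
    rintro _ ⟨z, hz, rfl⟩
    exact φ.mapsTo_inv (Sh_sub _ hz)
  let U : κ → E → ℝ := fun k y =>
    cl (min (2 * (b k).u (p (φ.toFun y))) ((d k - 2 * (1 - ‖φ.toFun y‖)) / w))
  have hU : ∀ k, EqOn (U k) ((a k).map ν).u (φ.invFun '' Sh (n + 1)) := fun k y hy => by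
    change _ = (a k).u (ν.invFun y)
    rw [hν y hy, (ha k).2.1]
  have hU' : ∀ k y, ‖φ.toFun y‖ ≤ 1 / 2 → U k y = -1 := fun k y hy => by
    refine cl_low ((min_le_right _ _).trans ?_)
    rw [div_le_iff₀ hw]
    linarith [(hd k).2]
  have hon : ∀ k, ((a k).map ν).On (φ.invFun '' Sh (n + 1)) := fun k => m2 (ha k).1
  have hUB : ∀ k, EqOn (U k) ((a k).map ν).u ((a k).map ν).B := fun k => (hU k).mono (hon k).sub
  have hout : ∀ y ∈ C, y ∉ φ.invFun '' Sh (n + 1) → ‖φ.toFun y‖ ≤ 1 / 2 := fun y hy hy' => by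
    by_contra h
    exact hy' ⟨φ.toFun y, ⟨(not_le.1 h).le, mem_closedBall_zero_iff.1 (φ.mapsTo hy)⟩,
      φ.left_inv hy⟩
  have hS0 : ∀ x ∈ S, (x, (0 : ℝ)) ∈ S ×ˢ Icc (0 : ℝ) 1 := fun x hx => ⟨hx, le_rfl, zero_le_one⟩
  have hi0 : ∀ x ∈ S, ν.invFun x = (x, 0) := fun x hx => by
    rw [← ν.left_inv (hS0 x hx), ν0 x hx]
  have hdw : ∀ k, 2 ≤ (d k - 0) / w := fun k => by
    rw [le_div_iff₀ hw]
    linarith [(hd k).1]
  have hmem : ∀ k, ∀ x ∈ S, |2 * (b k).u x| ≤ 1 → x ∈ (b k).B := fun k x hx h => by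
    by_contra hn
    rcases (hb k).1.out x hx hn with h1 | h1 <;> rw [h1] at h <;> norm_num at h
  refine ⟨fun k => setU ((a k).map ν) (U k), _, ν, d, hY, ν0,
    fun k => ⟨by linarith [(hd k).1], by linarith [(hd k).2]⟩,
    fun k l h => by linarith [hlt k l h], fun k => ⟨?_, ⟨?_, ?_, ?_⟩, ?_, ?_⟩,
    fun k l hkl => setU_comm (m3 (ha k).1.ok (ha l).1.ok (ha k).1.sub (ha l).1.sub (hac k l hkl))
      (hUB l), fun k l hkl h => ?_⟩
  · have hsub : closedBall (0 : Fin (n + 1) → ℝ) (1 / 2) ⊆ closedBall 0 1 :=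
      closedBall_subset_closedBall (by norm_num)
    have c1 : IsClosed (φ.invFun '' Sh (n + 1)) :=
      ((Sh_cpt _).image_of_continuousOn (φ.cont_inv.mono (Sh_sub _))).isClosed
    have c2 : IsClosed (φ.invFun '' closedBall 0 (1 / 2)) :=
      ((isCompact_closedBall _ _).image_of_continuousOn (φ.cont_inv.mono hsub)).isClosed
    have e : C = φ.invFun '' Sh (n + 1) ∪ φ.invFun '' closedBall 0 (1 / 2) := by
      refine Subset.antisymm (fun y hy => ?_) (union_subset hY ?_)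
      · by_cases hy' : y ∈ φ.invFun '' Sh (n + 1)
        · exact Or.inl hy'
        · exact Or.inr ⟨_, mem_closedBall_zero_iff.2 (hout y hy hy'), φ.left_inv hy⟩
      · rintro _ ⟨z, hz, rfl⟩
        exact φ.mapsTo_inv (hsub hz)
    have e2 : EqOn (U k) (fun _ => -1) (φ.invFun '' closedBall 0 (1 / 2)) := by
      rintro _ ⟨z, hz, rfl⟩
      refine hU' k _ ?_
      rw [φ.right_inv (hsub hz)]
      exact mem_closedBall_zero_iff.1 hz
    refine ⟨setU_ok (hon k).ok (hUB k), (hon k).sub.trans hY, ?_, fun y hy hy' => ?_⟩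
    · change PLOn (U k) C
      rw [e]
      refine ⟨((hon k).upl.1.congr (hU k)).union_of_isClosed (continuousOn_const.congr e2) c1 c2,
        ((hon k).upl.2.congr (hU k)).union ((conicalOn_const _ (φ.symm.conicalSet_image
          (Convex.conicalSet (convex_closedBall _ _)) hsub)).congr e2) ?_ ?_⟩
      · intro x _ hx
        rwa [c1.closure_eq] at hx
      · intro x _ hx
        rwa [c2.closure_eq] at hx
    · change U k y = 1 ∨ U k y = -1
      by_cases h : y ∈ φ.invFun '' Sh (n + 1)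
      · rw [hU k h]
        exact (hon k).out y h hy'
      · exact Or.inr (hU' k y (hout y hy h))
  · ext x
    constructor
    · rintro ⟨⟨q, hq, rfl⟩, hx⟩
      have h1 := hi0 _ hx
      rw [ν.left_inv ((ha k).1.sub hq)] at h1
      have h2 := (((ha k).2.2.1 q).1 hq).2
      generalize ν.toFun q = x at *
      subst h1
      have h3 : |2 * (b k).u x| ≤ 1 := by
        rcases min_choice (2 * (b k).u x) ((d k - 0) / w) with h | h
        · rwa [h] at h2
        · rw [h] at h2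
          linarith [hdw k, (abs_le.1 h2).2]
      refine ⟨hmem k x hx h3, ?_⟩
      rw [abs_mul, abs_two] at h3
      linarith
    · rintro ⟨hx, hx'⟩
      have hxS := (hb k).1.sub hx
      refine ⟨⟨(x, 0), ((ha k).2.2.1 _).2 ⟨hS0 x hxS, ?_⟩, ν0 x hxS⟩, hxS⟩
      obtain ⟨h1, h2⟩ := abs_le.1 hx'
      rw [min_eq_left (by linarith [hdw k]), abs_le]
      constructor <;> linarith
  · intro x hx
    change U k x = cl (2 * (b k).u x)
    rw [hU k (ν0 x hx ▸ ν.mapsTo (hS0 x hx))]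
    change (a k).u (ν.invFun x) = _
    rw [hi0 x hx, (ha k).2.1, cl_min (by linarith [hdw k])]
  · intro x hx s hs
    change ν.toFun ((a k).M (ν.invFun x, s)) = _
    rw [hi0 x ((hb k).1.sub hx.1), (ha k).2.2.2 x hx s hs]
    refine ν0 _ ((hb k).1.sub ((hb k).1.ok.Mmem x hx.1 _ ?_).1)
    constructor <;> linarith [hs.1, hs.2]
  · have hN1 : (1 : ℝ) ≤ N := by exact_mod_cast (Nat.zero_le _).trans_lt (hN k)
    have hc' : 2 * (K : ℝ) + 16 ≤ c := by exact_mod_cast hc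
    have k0 := K.coe_nonneg
    have l0 := mul_nonneg M₂.coe_nonneg L.coe_nonneg
    have h1 := lip_cube hL (Λ := c * (M₂ * L + N)) hw (hd k).2 hp hpS (hb k).2 (by
      rw [← NNReal.coe_le_coe]
      push_cast
      nlinarith [mul_le_mul_of_nonneg_right hc' l0, mul_nonneg c.coe_nonneg (zero_le_one.trans hN1)])
      (by
        push_cast
        have e : 2 / w = 8 * (N + 1) := by
          rw [div_eq_iff hw.ne']
          linarith
        rw [e]
        nlinarith [mul_nonneg c.coe_nonneg l0, mul_le_mul_of_nonneg_right hc' (zero_le_one.trans hN1),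
          mul_nonneg k0 (zero_le_one.trans hN1)])
    have h2 := h1.comp hM₁ φ.mapsTo
    rw [mul_right_comm]
    exact h2
  · rw [setU_W (hUB k), (m1 (ha k).1.ok (ha k).1.sub).2.1]
    congr 1
    ext ⟨x, r⟩
    change ((x, r) ∈ (a k).B ∧ (a k).u (x, r) = 0) ↔ _
    rw [(ha k).2.2.1, (ha k).2.1, cl_eq_zero, (hB E).on_W (hb k).1]
    simp only [mem_prod, mem_Icc, mem_union, mem_setOf_eq, mem_singleton_iff]
    constructor
    · rintro ⟨⟨⟨hx, hr, -⟩, -⟩, h⟩
      have h1 : 0 ≤ 2 * (b k).u x := h ▸ min_le_left _ _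
      have h2 : 0 ≤ (d k - r) / w := h ▸ min_le_right _ _
      rw [le_div_iff₀ hw] at h2
      rcases min_choice (2 * (b k).u x) ((d k - r) / w) with h3 | h3 <;> rw [h3] at h
      · exact Or.inl ⟨⟨hx, by linarith⟩, hr, by linarith⟩
      · rw [div_eq_iff hw.ne'] at h
        exact Or.inr ⟨⟨hx, by linarith⟩, by linarith⟩
    · have h1 := hd k
      rintro (⟨⟨hx, h⟩, hr, hr'⟩ | ⟨⟨hx, h⟩, rfl⟩)
      · have e : min (2 * (b k).u x) ((d k - r) / w) = 0 := by
          rw [h, mul_zero]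
          exact min_eq_left (div_nonneg (by linarith) hw.le)
        rw [e]
        exact ⟨⟨⟨hx, hr, by linarith⟩, by norm_num⟩, rfl⟩
      · have e : min (2 * (b k).u x) ((d k - d k) / w) = 0 := by
          rw [sub_self, zero_div]
          exact min_eq_right (by linarith)
        rw [e]
        exact ⟨⟨⟨hx, by linarith, by linarith⟩, by norm_num⟩, rfl⟩
  · refine disjoint_left.2 ?_
    rintro _ ⟨q, hq, rfl⟩ ⟨q', hq', e⟩
    obtain rfl : q' = q := ν.injOn ((ha l).1.sub hq') ((ha k).1.sub hq) e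
    obtain ⟨hS, h1⟩ := ((ha k).2.2.1 _).1 hq
    have h2 := (((ha l).2.2.1 _).1 hq').2
    obtain ⟨h3, h4⟩ := le_min_iff.1 (abs_le.1 h1).1
    rw [le_div_iff₀ hw] at h4
    have h5 : 3 ≤ (d l - q'.2) / w := by
      rw [le_div_iff₀ hw]
      linarith [hlt k l hkl]
    have h6 : |2 * (b l).u q'.1| ≤ 1 := by
      rcases min_choice (2 * (b l).u q'.1) ((d l - q'.2) / w) with h | h
      · rwa [h] at h2
      · rw [h] at h2
        linarith [(abs_le.1 h2).2]
    rw [h _ (hmem l _ hS.1 h6)] at h3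
    norm_num at h3

end P073.Bd
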