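import Vale.Agent.P073Y.Bd.Collar0A
import Vale.Agent.P073Z.A1
import Vale.Agent.P073Z.A2.PL

/-!
# The cup construction in collar coordinates
-/

open Set Metric Topology Filter

namespace P073.Bd.C0

open A2

variable {E F' : Type} [NormedAddCommGroup E] [NormedSpace ℝ E]
  [NormedAddCommGroup F'] [NormedSpace ℝ F']

theorem lc_pre {X : Set E} {Y : Set F'} {h : E → F'} (hX : IsClosed X) (hc : LocCone X)
    (hh : PLOn h X) (hY : LocCone Y) : LocCone (X ∩ h ⁻¹' Y) := by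
  intro x
  by_cases hx : x ∈ X
  · exact pre hx (hc x) (hh.1 x hx) (hh.2 x hx) (hY _)
  · refine locConeAt_of_compl_mem_nhds ?_
    exact mem_of_superset (hX.isOpen_compl.mem_nhds hx) fun y hy hy' => hy hy'.1

theorem pl_union {X X' : Set E} {h : E → F'} (hX : IsClosed X) (hX' : IsClosed X')
    (H : PLOn h X) (H' : PLOn h X') : PLOn h (X ∪ X') :=
  ⟨H.1.union_of_isClosed H'.1 hX hX', H.2.union H'.2 (fun _ _ hx => hX.closure_subset hx)
    fun _ _ hx => hX'.closure_subset hx⟩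

theorem pl_T {X : Set E} {a ρ : E → ℝ} (ha : PLOn a X) (hρ : PLOn ρ X) :
    PLOn (fun y => T (a y) (ρ y)) X := by
  have hX := pl_set ha
  refine pl_congr (pl_max (pl_const (0:ℝ) hX) (pl_max (pl_mul (1 / 3) (pl_sub ha hρ))
    (pl_sub ha (pl_const (1:ℝ) hX)))) fun y _ => ?_
  simp only [T]
  congr 2
  ring

theorem pl_F {X : Set E} {a ρ s : E → ℝ} (ha : PLOn a X) (hρ : PLOn ρ X) (hs : PLOn s X) :
    PLOn (fun y => F (a y) (ρ y) (s y)) X :=
  pl_min (pl_add hs (pl_mul 3 (pl_T ha hρ))) (pl_add (pl_const (1:ℝ) (pl_set ha)) (pl_T ha hρ))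

theorem pl_cl {X : Set E} {a : E → ℝ} (ha : PLOn a X) : PLOn (fun y => cl (a y)) X :=
  pl_max (pl_const (-1:ℝ) (pl_set ha)) (pl_min ha (pl_const (1:ℝ) (pl_set ha)))

open Classical in
/-- the move, extended by the identity off the band -/
noncomputable def mt (b : Band E) (x : E) (σ : ℝ) : E := if x ∈ b.B then b.M (x, σ) else x

omit [NormedAddCommGroup E] [NormedSpace ℝ E] in
theorem mt_in {b : Band E} {x : E} (h : x ∈ b.B) (σ : ℝ) : mt b x σ = b.M (x, σ) := if_pos h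

omit [NormedAddCommGroup E] [NormedSpace ℝ E] in
theorem mt_out {b : Band E} {x : E} (h : x ∉ b.B) (σ : ℝ) : mt b x σ = x := if_neg h

/-- first coordinate in the plane -/
def ca (b : Band E) (q : E × ℝ) : ℝ := 2 * b.u q.1

/-- second coordinate in the plane -/
noncomputable def cr (d w : ℝ) (q : E × ℝ) : ℝ := (d - q.2) / w

/-- the cup over the band `b` at depth `d` -/
noncomputable def cup (b : Band E) (S : Set E) (d w : ℝ) : Band (E × ℝ) where
  B := {q | q ∈ S ×ˢ Icc (0:ℝ) 1 ∧ |min (ca b q) (cr d w q)| ≤ 1}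
  u := fun q => cl (min (ca b q) (cr d w q))
  M := fun p => (mt b p.1.1 (F (ca b p.1) (cr d w p.1) p.2 / 2),
    d - w * F (cr d w p.1) (ca b p.1) p.2)

variable {b b' : Band E} {S : Set E} {d d' w : ℝ}

theorem u_mem (hb : b.On S) {x : E} (hx : x ∈ S) : b.u x ∈ I := by
  by_cases h : x ∈ b.B
  · exact hb.ok.urange x h
  · rcases hb.out x hx h with e | e <;> rw [e] <;> constructor <;> norm_num

theorem mt_mem (hb : b.On S) {x : E} (hx : x ∈ S) {σ : ℝ} (hσ : σ ∈ I) : mt b x σ ∈ S := by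
  by_cases h : x ∈ b.B
  · rw [mt_in h]
    exact hb.sub (hb.ok.Mmem x h σ hσ).1
  · rwa [mt_out h]

theorem mt_mt (hb : b.Ok) (x : E) {σ τ : ℝ} (hσ : σ ∈ I) (hτ : τ ∈ I) :
    mt b (mt b x σ) τ = mt b x τ := by
  by_cases h : x ∈ b.B
  · rw [mt_in h, mt_in h, mt_in (hb.Mmem x h σ hσ).1, hb.MM x h σ hσ τ hτ]
  · rw [mt_out h]

theorem mt_self (hb : b.Ok) (x : E) : mt b x (b.u x) = x := by
  by_cases h : x ∈ b.B
  · rw [mt_in h, hb.Mid x h]
  · rw [mt_out h]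

omit [NormedAddCommGroup E] [NormedSpace ℝ E] in
theorem mt_comm (h : Comm b b') (h' : Comm b' b) (x : E) {σ τ : ℝ} (hσ : σ ∈ I) (hτ : τ ∈ I) :
    mt b' (mt b x σ) τ = mt b (mt b' x τ) σ := by
  by_cases h1 : x ∈ b.B
  · by_cases h2 : x ∈ b'.B
    · rw [mt_in h1, mt_in h2, mt_in ((h x h1 σ hσ).1.2 h2), mt_in ((h' x h2 τ hτ).1.2 h1)]
      exact ((h x h1 σ hσ).2 h2).2 τ hτ
    · rw [mt_out h2, mt_in h1, mt_out fun h3 => h2 ((h x h1 σ hσ).1.1 h3)]
  · by_cases h2 : x ∈ b'.B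
    · rw [mt_out h1, mt_in h2, mt_out fun h3 => h1 ((h' x h2 τ hτ).1.1 h3)]
    · rw [mt_out h1, mt_out h2, mt_out h1]

theorem ca_le (hb : b.On S) {q : E × ℝ} (hq : q.1 ∈ S) : ca b q ≤ 2 := by
  have := (u_mem hb hq).2
  rw [ca]
  linarith

theorem sig_mem (hb : b.On S) {q : E × ℝ} (hq : q ∈ (cup b S d w).B) {s : ℝ} (hs : s ∈ I) :
    F (ca b q) (cr d w q) s / 2 ∈ I := by
  have h1 : s ≤ F (ca b q) (cr d w q) s := le_F hs.2
  have h2 : F (ca b q) (cr d w q) s ≤ 2 := F_le (ca_le hb hq.1.1) (band hq.2).2.1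
  have := hs.1
  constructor <;> linarith

theorem ca_M (hb : b.On S) {q : E × ℝ} (hq : q ∈ (cup b S d w).B) {s : ℝ} (hs : s ∈ I) :
    ca b ((cup b S d w).M (q, s)) = F (ca b q) (cr d w q) s := by
  change 2 * b.u (mt b q.1 (F (ca b q) (cr d w q) s / 2)) = _
  by_cases h : q.1 ∈ b.B
  · rw [mt_in h, (hb.ok.Mmem _ h _ (sig_mem hb hq hs)).2]
    ring
  · rw [mt_out h]
    have h1 := (band hq.2).1
    rcases hb.out _ hq.1.1 h with e | e
    · have e' : ca b q = 2 := by rw [ca, e]; norm_num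
      rw [F_high e'.ge (band hq.2).2.1 hs.1]
      rfl
    · rw [ca, e] at h1
      norm_num at h1

omit [NormedAddCommGroup E] [NormedSpace ℝ E] in
theorem cr_M (hw : 0 < w) (q : E × ℝ) (s : ℝ) :
    cr d w ((cup b S d w).M (q, s)) = F (cr d w q) (ca b q) s := by
  change (d - (d - w * F (cr d w q) (ca b q) s)) / w = _
  field_simp
  ring

omit [NormedAddCommGroup E] [NormedSpace ℝ E] in
theorem snd_eq (hw : 0 < w) (q : E × ℝ) : q.2 = d - w * cr d w q := by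
  rw [cr]
  field_simp
  ring

omit [NormedAddCommGroup E] [NormedSpace ℝ E] in
/-- the depth moves only near `d` -/
theorem snd_M (hw : 0 < w) {q : E × ℝ} (hq : q ∈ (cup b S d w).B) {s : ℝ} (hs : s ∈ I) :
    (2 ≤ cr d w q → ((cup b S d w).M (q, s)).2 = q.2) ∧
    (cr d w q ≤ 2 → (d - 2 * w ≤ q.2 ∧ q.2 ≤ d + w) ∧
      d - 2 * w ≤ ((cup b S d w).M (q, s)).2 ∧ ((cup b S d w).M (q, s)).2 ≤ d + w) := by
  obtain ⟨h1, h2, -⟩ := band hq.2
  refine ⟨fun h => ?_, fun h => ?_⟩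
  · change d - w * F (cr d w q) (ca b q) s = _
    rw [F_high h h1 hs.1]
    exact (snd_eq hw q).symm
  · have e := snd_eq (d := d) hw q
    have h3 : s ≤ F (cr d w q) (ca b q) s := le_F hs.2
    have h4 : F (cr d w q) (ca b q) s ≤ 2 := F_le h h1
    have h5 := hs.1
    refine ⟨⟨by nlinarith, by nlinarith⟩, ?_, ?_⟩
    · change _ ≤ d - w * F (cr d w q) (ca b q) s
      nlinarith
    · change d - w * F (cr d w q) (ca b q) s ≤ _
      nlinarith

theorem M_mem (hb : b.On S) (hw : 0 < w) (hd : 2 * w ≤ d ∧ d + 2 * w ≤ 1) {q : E × ℝ}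
    (hq : q ∈ (cup b S d w).B) {s : ℝ} (hs : s ∈ I) :
    (cup b S d w).M (q, s) ∈ S ×ˢ Icc (0:ℝ) 1 := by
  refine ⟨mt_mem hb hq.1.1 (sig_mem hb hq hs), ?_⟩
  obtain ⟨h1, h2⟩ := snd_M hw hq hs
  rcases le_total 2 (cr d w q) with h | h
  · rw [h1 h]
    exact hq.1.2
  · obtain ⟨-, h3, h4⟩ := h2 h
    exact ⟨by linarith [hd.1], by linarith [hd.2]⟩

theorem min_M (hb : b.On S) (hw : 0 < w) {q : E × ℝ} (hq : q ∈ (cup b S d w).B) {s : ℝ}
    (hs : s ∈ I) :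
    min (ca b ((cup b S d w).M (q, s))) (cr d w ((cup b S d w).M (q, s))) = s := by
  rw [ca_M hb hq hs, cr_M hw, min_F hq.2 hs.2]

theorem pl_ca (hb : b.On S) {Z : Set (E × ℝ)} (hZ : ConicalSet Z) (h : ∀ q ∈ Z, q.1 ∈ S) :
    PLOn (ca b) Z := pl_mul 2 (pl_comp hb.upl (pl_fst hZ) h)

theorem pl_cr {Z : Set (E × ℝ)} (hZ : ConicalSet Z) : PLOn (cr d w) Z := by
  refine pl_congr (pl_mul w⁻¹ (pl_sub (pl_const d hZ) (pl_snd hZ))) fun q _ => ?_
  simp only [cr]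
  ring

theorem cup_on (hS : IsCompact S) (hc : LocCone S) (hb : b.On S) (hw : 0 < w)
    (hd : 2 * w ≤ d ∧ d + 2 * w ≤ 1) : (cup b S d w).On (S ×ˢ Icc 0 1) := by
  have hX : IsCompact (S ×ˢ Icc (0:ℝ) 1) := hS.prod isCompact_Icc
  have hXc : LocCone (S ×ˢ Icc (0:ℝ) 1) := locCone_prod hc (locCone_Icc 0 1)
  have hm : PLOn (fun q => min (ca b q) (cr d w q)) (S ×ˢ Icc (0:ℝ) 1) :=
    pl_min (pl_ca hb hXc.conicalSet fun q hq => hq.1) (pl_cr hXc.conicalSet)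
  have eB : (cup b S d w).B =
      S ×ˢ Icc (0:ℝ) 1 ∩ (fun q => min (ca b q) (cr d w q)) ⁻¹' Icc (-1) 1 := by
    ext q
    exact and_congr_right fun _ => abs_le
  have hBcl : IsClosed (cup b S d w).B := by
    rw [eB]
    exact hm.1.preimage_isClosed_of_isClosed hX.isClosed isClosed_Icc
  have hBc : LocCone (cup b S d w).B := by
    rw [eB]
    exact lc_pre hX.isClosed hXc hm (locCone_Icc _ _)
  have hsub : (cup b S d w).B ⊆ S ×ˢ Icc 0 1 := fun q hq => hq.1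
  have hu : PLOn (cup b S d w).u (S ×ˢ Icc (0:ℝ) 1) := pl_cl hm
  refine ⟨⟨hX.of_isClosed_subset hBcl hsub, hBc, pl_mono hu hBc.conicalSet hsub, ?_, ?_, ?_, ?_,
    ?_⟩, hsub, hu, fun q hq h => cl_out fun h' => h ⟨hq, h'⟩⟩
  · have hZcl : IsClosed ((cup b S d w).B ×ˢ I) := hBcl.prod isClosed_Icc
    have hZc : LocCone ((cup b S d w).B ×ˢ I) := locCone_prod hBc (locCone_Icc _ _)
    have hZ := hZc.conicalSet
    have p1 : PLOn (fun p : (E × ℝ) × ℝ => p.1) ((cup b S d w).B ×ˢ I) := pl_fst hZ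
    have p2 : PLOn (fun p : (E × ℝ) × ℝ => p.2) ((cup b S d w).B ×ˢ I) := pl_snd hZ
    have p11 : PLOn (fun p : (E × ℝ) × ℝ => p.1.1) ((cup b S d w).B ×ˢ I) :=
      pl_comp_univ (pl_fst conicalSet_univ) p1
    have pa : PLOn (fun p : (E × ℝ) × ℝ => ca b p.1) ((cup b S d w).B ×ˢ I) :=
      pl_comp (pl_ca hb hBc.conicalSet fun q hq => hq.1.1) p1 fun p hp => hp.1
    have pr : PLOn (fun p : (E × ℝ) × ℝ => cr d w p.1) ((cup b S d w).B ×ˢ I) :=
      pl_comp_univ (pl_cr conicalSet_univ) p1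
    have pu : PLOn (fun p : (E × ℝ) × ℝ => b.u p.1.1) ((cup b S d w).B ×ˢ I) :=
      pl_comp hb.upl p11 fun p hp => hp.1.1.1
    have ps : PLOn (fun p : (E × ℝ) × ℝ => F (ca b p.1) (cr d w p.1) p.2 / 2)
        ((cup b S d w).B ×ˢ I) :=
      pl_congr (pl_mul (1 / 2) (pl_F pa pr p2)) fun p _ => by ring
    refine pl_prodMk ?_ (pl_sub (pl_const d hZ) (pl_mul w (pl_F pr pa p2)))
    have e : (cup b S d w).B ×ˢ I =
        ((cup b S d w).B ×ˢ I ∩ (fun p : (E × ℝ) × ℝ => p.1.1) ⁻¹' b.B) ∪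
        ((cup b S d w).B ×ˢ I ∩ (fun p : (E × ℝ) × ℝ => b.u p.1.1) ⁻¹' Icc 1 1) := by
      refine Subset.antisymm (fun p hp => ?_) (union_subset inter_subset_left inter_subset_left)
      by_cases h : p.1.1 ∈ b.B
      · exact Or.inl ⟨hp, h⟩
      · rcases hb.out _ hp.1.1.1 h with e | e
        · exact Or.inr ⟨hp, e.ge, e.le⟩
        · have h1 := (band hp.1.2).1
          rw [ca, e] at h1
          norm_num at h1
    have c1 := (lc_pre hZcl hZc p11 hb.ok.loc).conicalSet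
    have c2 := (lc_pre hZcl hZc pu (locCone_Icc 1 1)).conicalSet
    rw [e]
    refine pl_union (p11.1.preimage_isClosed_of_isClosed hZcl hb.ok.cpt.isClosed)
      (pu.1.preimage_isClosed_of_isClosed hZcl isClosed_Icc) ?_ ?_
    · refine pl_congr (pl_comp hb.ok.Mpl (pl_mono (pl_prodMk p11 ps) c1 inter_subset_left)
        fun p hp => ⟨hp.2, sig_mem hb hp.1.1 hp.1.2⟩) fun p hp => mt_in hp.2 _
    · refine pl_congr (pl_mono p11 c2 inter_subset_left) fun p hp => ?_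
      have e1 : b.u p.1.1 = 1 := le_antisymm hp.2.2 hp.2.1
      have e2 : ca b p.1 = 2 := by rw [ca, e1]; norm_num
      change mt b p.1.1 (F (ca b p.1) (cr d w p.1) p.2 / 2) = p.1.1
      rw [F_high e2.ge (band hp.1.1.2).2.1 hp.1.2.1, e2]
      have := mt_self hb.ok p.1.1
      rw [e1] at this
      simpa using this
  · intro q hq
    change cl _ ∈ I
    rw [cl_eq hq.2]
    exact abs_le.1 hq.2
  · intro q hq s hs
    have e := min_M hb hw hq hs
    have hs' : |s| ≤ 1 := abs_le.2 hs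
    refine ⟨⟨M_mem hb hw hd hq hs, by rwa [e]⟩, ?_⟩
    change cl _ = s
    rw [e, cl_eq hs']
  · intro q hq
    change (mt b q.1 (F (ca b q) (cr d w q) (cl (min (ca b q) (cr d w q))) / 2),
      d - w * F (cr d w q) (ca b q) (cl (min (ca b q) (cr d w q)))) = q
    have h2 : |min (cr d w q) (ca b q)| ≤ 1 := by rw [min_comm]; exact hq.2
    rw [cl_eq hq.2, F_self hq.2, min_comm, F_self h2, ← snd_eq hw q]
    have : ca b q / 2 = b.u q.1 := by rw [ca]; ring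
    rw [this, mt_self hb.ok]
  · intro q hq s hs t ht
    have h2 : |min (cr d w q) (ca b q)| ≤ 1 := by rw [min_comm]; exact hq.2
    change (mt b (mt b q.1 (F (ca b q) (cr d w q) s / 2))
      (F (ca b ((cup b S d w).M (q, s))) (cr d w ((cup b S d w).M (q, s))) t / 2),
      d - w * F (cr d w ((cup b S d w).M (q, s))) (ca b ((cup b S d w).M (q, s))) t) = _
    rw [ca_M hb hq hs, cr_M hw, F_F hq.2 hs.2, F_F h2 hs.2,
      mt_mt hb.ok _ (sig_mem hb hq hs) (sig_mem hb hq ht)]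
    rfl

omit [NormedAddCommGroup E] [NormedSpace ℝ E] in
/-- far above the depth the move is horizontal -/
theorem M_high (hw : 0 < w) {q : E × ℝ} (hq : q ∈ (cup b S d w).B) (h : 2 ≤ cr d w q) {s : ℝ}
    (hs : s ∈ I) : (cup b S d w).M (q, s) = (mt b q.1 (s / 2), q.2) := by
  refine Prod.ext ?_ ((snd_M hw hq hs).1 h)
  change mt b q.1 (F (ca b q) (cr d w q) s / 2) = _
  rcases (band hq.2).2.2 with ⟨h1, h2⟩ | ⟨h1, h2⟩
  · rw [F_low h1 h2 hs.2]
  · linarith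

theorem ca_mt (hB : Bas E) (hb : b.On S) (hb' : b'.On S) (h : Comm b b') (x : E) {σ : ℝ}
    (hσ : σ ∈ I) : b'.u (mt b x σ) = b'.u x := by
  by_cases h1 : x ∈ b.B
  · rw [mt_in h1]
    exact hB.comm_u hb.ok hb.sub hb' h x h1 σ hσ
  · rw [mt_out h1]

omit [NormedAddCommGroup E] [NormedSpace ℝ E] in
theorem cr_ge (hw : 0 < w) {q : E × ℝ} {c : ℝ} (h : q.2 ≤ d - c * w) : c ≤ cr d w q := by
  rw [cr, le_div_iff₀ hw]
  linarith

omit [NormedAddCommGroup E] [NormedSpace ℝ E] in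
theorem cr_le (hw : 0 < w) {q : E × ℝ} {c : ℝ} (h : d - c * w ≤ q.2) : cr d w q ≤ c := by
  rw [cr, div_le_iff₀ hw]
  linarith

/-- the level of the other cup does not change, or it is very negative -/
theorem min_other (hB : Bas E) (hb : b.On S) (hb' : b'.On S) (h : Comm b b') (hw : 0 < w)
    (hdd : 4 * w ≤ |d - d'|) {q : E × ℝ} (hq : q ∈ (cup b S d w).B) {s : ℝ} (hs : s ∈ I) :
    min (ca b' ((cup b S d w).M (q, s))) (cr d' w ((cup b S d w).M (q, s))) =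
      min (ca b' q) (cr d' w q) ∨
    (cr d' w ((cup b S d w).M (q, s)) ≤ -2 ∧ cr d' w q ≤ -2) := by
  have ea : ca b' ((cup b S d w).M (q, s)) = ca b' q :=
    congrArg (fun y => 2 * y) (ca_mt hB hb hb' h q.1 (sig_mem hb hq hs))
  obtain ⟨h1, h2⟩ := snd_M hw hq hs
  rcases le_total 2 (cr d w q) with h3 | h3
  · left
    rw [ea, cr, h1 h3]
    rfl
  · obtain ⟨⟨h4, h5⟩, h6, h7⟩ := h2 h3
    have h8 := ca_le hb' hq.1.1
    rcases le_abs.1 hdd with h9 | h9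
    · exact Or.inr ⟨cr_le hw (by linarith), cr_le hw (by linarith)⟩
    · left
      rw [ea, min_eq_left (h8.trans (cr_ge hw (by linarith))),
        min_eq_left (h8.trans (cr_ge hw (by linarith)))]

theorem mem_other (hB : Bas E) (hb : b.On S) (hb' : b'.On S) (h : Comm b b') (hw : 0 < w)
    (hd : 2 * w ≤ d ∧ d + 2 * w ≤ 1) (hdd : 4 * w ≤ |d - d'|) {q : E × ℝ}
    (hq : q ∈ (cup b S d w).B) {s : ℝ} (hs : s ∈ I) :
    (cup b S d w).M (q, s) ∈ (cup b' S d' w).B ↔ q ∈ (cup b' S d' w).B := by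
  rcases min_other hB hb hb' h hw hdd hq hs with e | ⟨e1, e2⟩
  · exact ⟨fun h1 => ⟨hq.1, e ▸ h1.2⟩, fun h1 => ⟨M_mem hb hw hd hq hs, e.symm ▸ h1.2⟩⟩
  · refine ⟨fun h1 => ?_, fun h1 => ?_⟩
    · have := (band h1.2).2.1
      linarith
    · have := (band h1.2).2.1
      linarith

theorem comm_aux (hB : Bas E) (hb : b.On S) (hb' : b'.On S) (h : Comm b b') (h' : Comm b' b)
    (hw : 0 < w) (hd : 2 * w ≤ d ∧ d + 2 * w ≤ 1) (hdd : d + 4 * w ≤ d') {q : E × ℝ}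
    (hq : q ∈ (cup b S d w).B) (hq' : q ∈ (cup b' S d' w).B) {s t : ℝ} (hs : s ∈ I)
    (ht : t ∈ I) : (cup b' S d' w).M ((cup b S d w).M (q, s), t) =
      (cup b S d w).M ((cup b' S d' w).M (q, t), s) := by
  have hi : ∀ p : E × ℝ, -1 ≤ cr d w p → 2 ≤ cr d' w p := fun p hp => by
    have e := snd_eq (d := d) hw p
    exact cr_ge hw (by nlinarith)
  have ht2 : t / 2 ∈ I := ⟨by linarith [ht.1], by linarith [ht.2]⟩
  have m1 := (mem_other hB hb hb' h hw hd (le_abs.2 (Or.inr (by linarith))) hq hs).2 hq'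
  have r1 : -1 ≤ cr d w ((cup b S d w).M (q, s)) := by
    rw [cr_M hw]
    exact hs.1.trans (le_F hs.2)
  rw [M_high hw m1 (hi _ r1) ht, M_high hw hq' (hi _ (band hq.2).2.1) ht]
  have ea : ca b (mt b' q.1 (t / 2), q.2) = ca b q :=
    congrArg (fun y => 2 * y) (ca_mt hB hb' hb h' q.1 ht2)
  have er : cr d w (mt b' q.1 (t / 2), q.2) = cr d w q := rfl
  change (mt b' (mt b q.1 (F (ca b q) (cr d w q) s / 2)) (t / 2),
    d - w * F (cr d w q) (ca b q) s) =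
    (mt b (mt b' q.1 (t / 2))
      (F (ca b (mt b' q.1 (t / 2), q.2)) (cr d w (mt b' q.1 (t / 2), q.2)) s / 2),
    d - w * F (cr d w (mt b' q.1 (t / 2), q.2)) (ca b (mt b' q.1 (t / 2), q.2)) s)
  rw [ea, er, mt_comm h h' _ (sig_mem hb hq hs) ht2]

theorem cup_comm (hB : Bas E) (hb : b.On S) (hb' : b'.On S) (h : Comm b b') (h' : Comm b' b)
    (hw : 0 < w) (hd : 2 * w ≤ d ∧ d + 2 * w ≤ 1) (hd' : 2 * w ≤ d' ∧ d' + 2 * w ≤ 1)
    (hdd : 4 * w ≤ |d - d'|) : Comm (cup b S d w) (cup b' S d' w) := by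
  intro q hq s hs
  refine ⟨mem_other hB hb hb' h hw hd hdd hq hs, fun hq' => ⟨?_, fun t ht => ?_⟩⟩
  · rcases min_other hB hb hb' h hw hdd hq hs with e | ⟨-, e2⟩
    · exact congrArg cl e
    · have := (band hq'.2).2.1
      linarith
  · rcases le_abs.1 hdd with h9 | h9
    · exact (comm_aux hB hb' hb h' h hw hd' (by linarith) hq' hq ht hs).symm
    · exact comm_aux hB hb hb' h h' hw hd (by linarith) hq hq' hs ht

end P073.Bd.C0

namespace P073.Bd

theorem collar0_of (hB : BAS) : COLLAR0 := by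
  intro E _ _ _ κ S b d w hS hc hw hb hcm hd hdd
  refine ⟨fun k => C0.cup (b k) S (d k) w, fun k => ⟨C0.cup_on hS hc (hb k) hw (hd k),
    fun q => rfl, fun q => Iff.rfl, fun x hx s hs => ?_⟩, fun k l hkl =>
    C0.cup_comm (hB E) (hb k) (hb l) (hcm k l hkl) (hcm l k hkl.symm) hw (hd k) (hd l)
      (hdd k l hkl)⟩
  have h2 : 2 ≤ C0.cr (d k) w (x, (0:ℝ)) := C0.cr_ge hw (by linarith [(hd k).1])
  obtain ⟨h3, h4⟩ := abs_le.1 hx.2
  have ha : C0.ca (b k) (x, (0:ℝ)) = 2 * (b k).u x := rfl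
  have hq : (x, (0:ℝ)) ∈ (C0.cup (b k) S (d k) w).B := by
    refine ⟨⟨(hb k).sub hx.1, le_rfl, zero_le_one⟩, ?_⟩
    rw [min_eq_left (by linarith), ha, abs_le]
    constructor <;> linarith
  rw [C0.M_high hw hq h2 hs, C0.mt_in hx.1]
  rfl

end P073.Bd
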