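import Vale.Agent.P073Y.Bd.Sk
import Vale.Agent.P073Z.SHELL
import Vale.Agent.P073Z.A12.Arcs
import Vale.Agent.P073Z.DISC2.Path

/-!
# Cups with depths adapted to the nesting
-/

open Set Metric Topology Filter
open scoped NNReal

namespace P073.Bd

namespace CupsA

/-- the rank of an injective map to a linear order -/
theorem exists_rk_of {κ β : Type} [Finite κ] [LinearOrder β] (g : κ → β)
    (hg : Function.Injective g) :
    ∃ rk : κ → ℕ, Function.Injective rk ∧ (∀ k, rk k < Nat.card κ) ∧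
      ∀ k l, g k < g l → rk k < rk l := by
  have key : ∀ k l, g k < g l → {m | g m < g k}.ncard < {m | g m < g l}.ncard := by
    intro k l h
    refine ncard_lt_ncard ⟨fun m hm => lt_trans hm h, fun h2 => ?_⟩ (toFinite _)
    exact lt_irrefl (g k) (h2 h)
  refine ⟨fun k => {m | g m < g k}.ncard, fun k l h => ?_, fun k => ?_, key⟩
  · by_contra hne
    rcases lt_or_gt_of_ne (hg.ne hne) with h1 | h1
    · exact (key k l h1).ne h
    · exact (key l k h1).ne h.symm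
  · rw [← ncard_univ]
    refine ncard_lt_ncard ⟨subset_univ _, fun h2 => ?_⟩ (toFinite _)
    exact lt_irrefl (g k) (h2 (mem_univ k))

/-- an injective ranking which extends strict inclusion -/
theorem exists_rk {κ α : Type} [Finite κ] (R : κ → Set α) :
    ∃ rk : κ → ℕ, Function.Injective rk ∧ (∀ k, rk k < Nat.card κ) ∧
      ∀ k l, R k ⊂ R l → rk k < rk l := by
  obtain ⟨e, he⟩ := Countable.exists_injective_nat κ
  obtain ⟨rk, h1, h2, h3⟩ := exists_rk_of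
    (fun k => toLex ({m | R m ⊂ R k}.ncard, e k))
    (fun k l h => he (congrArg (fun z => (ofLex z).2) h))
  refine ⟨rk, h1, h2, fun k l h => h3 k l ?_⟩
  rw [Prod.Lex.toLex_lt_toLex]
  refine Or.inl (ncard_lt_ncard ⟨fun m hm => lt_trans hm h, fun h2 => ?_⟩ (toFinite _))
  exact lt_irrefl (R k) (h2 h)

/-- the nesting of the sides -/
theorem nest {T : Type} [TopologicalSpace T] {S : Set T} {u v : T → ℝ} {x₀ : T}
    (hv : ContinuousOn v S) (hN : IsPreconnected {x ∈ S | u x ≤ 0}) (hx : x₀ ∈ S)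
    (hu : u x₀ < 0) (hv0 : v x₀ < 0) (h : ∀ x ∈ S, v x = 0 → 0 < u x) :
    ∀ x ∈ S, u x ≤ 0 → v x < 0 := by
  intro x hxS hux
  by_contra h1
  obtain ⟨z, hz, h2⟩ := hN.intermediate_value (a := x₀) (b := x) ⟨hx, hu.le⟩ ⟨hxS, hux⟩
    (hv.mono fun _ hy => hy.1) (show (0:ℝ) ∈ Icc (v x₀) (v x) from ⟨hv0.le, not_lt.1 h1⟩)
  exact absurd (h z hz.1 h2) (not_lt.2 hz.2)

variable {E : Type} [NormedAddCommGroup E] [NormedSpace ℝ E]

theorem bd_nonempty {n : ℕ} {P W : Set E} (h : ConBall (n + 1) P W) : W.Nonempty := by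
  obtain ⟨-, φ, hφ⟩ := h
  have h1 : (φ.toFun '' W).Nonempty := by
    rw [hφ]
    exact NormedSpace.sphere_nonempty.2 zero_le_one
  exact h1.of_image

/-- the copy at height `d` -/
def lift {P : Set E} (hP : ConicalSet P) (d : ℝ) : ConHomeo P (P ×ˢ ({d} : Set ℝ)) where
  toFun x := (x, d)
  invFun z := z.1
  mapsTo := fun _ hx => ⟨hx, rfl⟩
  mapsTo_inv := fun _ hz => hz.1
  left_inv := fun _ _ => rfl
  right_inv := fun _ hz => Prod.ext rfl (Eq.symm hz.2)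
  cont := by fun_prop
  cont_inv := by fun_prop
  conical := (conicalOn_id hP).prodMk (conicalOn_const d hP)

/-- the vertical part of the cup as a collar -/
noncomputable def side {W : Set E} (hW : ConicalSet W) {d : ℝ} (hd : 0 < d) :
    ConHomeo ((W ×ˢ ({d} : Set ℝ)) ×ˢ Icc (0:ℝ) 1) (W ×ˢ Icc 0 d) where
  toFun q := (q.1.1, d - d * q.2)
  invFun z := ((z.1, d), d⁻¹ * (d - z.2))
  mapsTo := fun q hq => ⟨hq.1.1, by nlinarith [hq.2.2], by nlinarith [hq.2.1]⟩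
  mapsTo_inv := fun z hz => ⟨⟨hz.1, rfl⟩,
    mul_nonneg (inv_nonneg.2 hd.le) (sub_nonneg.2 hz.2.2), by
      rw [inv_mul_le_iff₀ hd]
      linarith [hz.2.1]⟩
  left_inv := fun q hq => by
    refine Prod.ext (Prod.ext rfl (Eq.symm hq.1.2)) ?_
    change d⁻¹ * (d - (d - d * q.2)) = q.2
    field_simp
    ring
  right_inv := fun z _ => by
    refine Prod.ext rfl ?_
    change d - d * (d⁻¹ * (d - z.2)) = z.2
    field_simp
    ring
  cont := by fun_prop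
  cont_inv := by fun_prop
  conical := by
    have h1 : ConicalSet ((W ×ˢ ({d} : Set ℝ)) ×ˢ Icc (0:ℝ) 1) :=
      Sh.conicalSet_prod (Sh.conicalSet_prod hW (Convex.conicalSet (convex_singleton d)))
        (Convex.conicalSet (convex_Icc 0 1))
    exact (conicalOn_linear ((LinearMap.fst ℝ E ℝ).comp (LinearMap.fst ℝ (E × ℝ) ℝ)) h1).prodMk
      ((conicalOn_const d h1).sub ((Sh.conicalOn_snd h1).const_smul d))

/-- the cup is a ball -/
theorem cup_ball {n : ℕ} {P W : Set E} (h : ConBall n P W) {d : ℝ} (hd : 0 < d) :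
    ConBall n (W ×ˢ Icc 0 d ∪ P ×ˢ ({d} : Set ℝ)) (W ×ˢ ({0} : Set ℝ)) := by
  have h1 := h.image (lift h.conicalSet d) Subset.rfl
  rw [ConHomeo.image_eq] at h1
  have e1 : (lift h.conicalSet d).toFun '' W = W ×ˢ ({d} : Set ℝ) := by
    ext z
    constructor
    · rintro ⟨x, hx, rfl⟩
      exact ⟨hx, rfl⟩
    · intro hz
      exact ⟨z.1, hz.1, Prod.ext rfl (Eq.symm hz.2)⟩
  rw [e1] at h1
  have h2 := colo (side h.conicalSet_bdry hd) h1
    (fun z hz => Prod.ext rfl (by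
      change d - d * 0 = z.2
      rw [mul_zero, sub_zero]
      exact Eq.symm hz.2))
    (fun z hz => ⟨hz.1.1, hz.2.2⟩)
  have e2 : (side h.conicalSet_bdry hd).toFun '' ((W ×ˢ ({d} : Set ℝ)) ×ˢ ({1} : Set ℝ)) =
      W ×ˢ ({0} : Set ℝ) := by
    ext z
    constructor
    · rintro ⟨q, hq, rfl⟩
      refine ⟨hq.1.1, ?_⟩
      have h3 : q.2 = 1 := hq.2
      change d - d * q.2 = 0
      rw [h3, mul_one, sub_self]
    · intro hz
      refine ⟨((z.1, d), 1), ⟨⟨hz.1, rfl⟩, rfl⟩, Prod.ext rfl ?_⟩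
      change d - d * 1 = z.2
      rw [mul_one, sub_self]
      exact Eq.symm hz.2
  rwa [e2, union_comm] at h2

omit [NormedAddCommGroup E] [NormedSpace ℝ E] in
theorem cup_sub {S P W : Set E} {d : ℝ} (hW : W ⊆ S) (hP : P ⊆ S) (h0 : 0 < d) (h1 : d < 1) :
    W ×ˢ Icc 0 d ∪ P ×ˢ ({d} : Set ℝ) ⊆ S ×ˢ Icc (0:ℝ) 1 := by
  rintro z (hz | hz)
  · exact ⟨hW hz.1, hz.2.1, hz.2.2.trans h1.le⟩
  · have h2 : z.2 = d := hz.2
    exact ⟨hP hz.1, h2 ▸ ⟨h0.le, h1.le⟩⟩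

/-- the intersection of two cups -/
theorem cup_inter {S Y P W P' W' : Set E} (ν : ConHomeo (S ×ˢ Icc (0:ℝ) 1) Y) {d d' : ℝ}
    (hW : W ⊆ S) (hP : P ⊆ S) (hW' : W' ⊆ S) (hP' : P' ⊆ S) (h0 : 0 < d) (h1 : d < d')
    (h2 : d' < 1) {x : E} (hx : x ∈ ν.toFun '' (W ×ˢ Icc 0 d ∪ P ×ˢ ({d} : Set ℝ)))
    (hx' : x ∈ ν.toFun '' (W' ×ˢ Icc 0 d' ∪ P' ×ˢ ({d'} : Set ℝ))) :
    ∃ y t, x = ν.toFun (y, t) ∧ y ∈ W' ∧ ((y ∈ W ∧ t ∈ Icc 0 d) ∨ (y ∈ P ∧ t = d)) := by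
  obtain ⟨z, hz, rfl⟩ := hx
  obtain ⟨z', hz', h3⟩ := hx'
  obtain rfl : z' = z := ν.injOn (cup_sub hW' hP' (h0.trans h1) h2 hz')
    (cup_sub hW hP h0 (h1.trans h2) hz) h3
  have h4 : z'.2 ≤ d := by
    rcases hz with hz | hz
    · exact hz.2.2
    · exact le_of_eq hz.2
  refine ⟨z'.1, z'.2, rfl, ?_, hz⟩
  rcases hz' with hz' | hz'
  · exact hz'.1
  · have h5 : z'.2 = d' := hz'.2
    linarith

/-- from a point of a circle on the positive side to the first zero -/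
theorem first_zero {J S : Set E} {u : E → ℝ} (hJ : IsCircle J) (hJS : J ⊆ S)
    (hu : ContinuousOn u S) (hN : IsClosed {x ∈ S | u x ≤ 0}) {y z : E} (hy : y ∈ J) (hz : z ∈ J)
    (hy0 : 0 ≤ u y) (hz0 : u z ≤ 0) :
    ∃ A a, A ⊆ J ∧ IsPreconnected A ∧ y ∈ A ∧ a ∈ A ∧ u a = 0 ∧ ∀ x ∈ A, 0 ≤ u x := by
  rcases eq_or_lt_of_le hy0 with h0 | h0
  · exact ⟨{y}, y, singleton_subset_iff.2 hy, isPreconnected_singleton, rfl, rfl, h0.symm,
      fun x hx => by rw [hx]; exact hy0⟩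
  have hne : z ≠ y := fun h => by
    rw [h] at hz0
    exact absurd h0 (not_lt.2 hz0)
  obtain ⟨A₁, A₂, hA, -, hU, -⟩ := arcs.2.2.1 hJ hz hy hne
  have hA1 : A₁ ⊆ J := hU ▸ subset_union_left
  obtain ⟨a, ha, A', hA', hsub, hK⟩ := arcs.2.2.2.2.2.2 hA hN ⟨hJS hz, hz0⟩
    (fun h => absurd h0 (not_lt.2 h.2))
  have hAJ : A' ⊆ J := hsub.trans hA1
  have hone : ∀ x ∈ A', u x ≤ 0 → x = a := fun x hx h => by
    have h3 : x ∈ A' ∩ {x ∈ S | u x ≤ 0} := ⟨hx, hJS (hAJ hx), h⟩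
    rwa [hK] at h3
  obtain ⟨w, hw, h2⟩ := hA'.isConnected.isPreconnected.intermediate_value hA'.left_mem
    hA'.right_mem (hu.mono (hAJ.trans hJS)) (show (0:ℝ) ∈ Icc (u a) (u y) from ⟨ha.2.2, hy0⟩)
  have h3 : u a = 0 := by rw [← hone w hw h2.le]; exact h2
  refine ⟨A', a, hAJ, hA'.isConnected.isPreconnected, hA'.right_mem, hA'.left_mem, h3,
    fun x hx => ?_⟩
  by_contra h4
  have h5 := hone x hx (not_le.1 h4).le
  rw [h5, h3] at h4
  exact h4 le_rfl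

/-- the path which runs along the bottom and goes up -/
theorem hook_pre {S Y A : Set E} (ν : ConHomeo (S ×ˢ Icc (0:ℝ) 1) Y) {a : E} {t : ℝ}
    (hA : IsPreconnected A) (hAS : A ⊆ S) (ha : a ∈ A) (ht : t ∈ Icc (0:ℝ) 1) :
    IsPreconnected (ν.toFun '' (({a} : Set E) ×ˢ Icc 0 t ∪ A ×ˢ ({t} : Set ℝ))) := by
  refine IsPreconnected.image ?_ _ (ν.cont.mono ?_)
  · exact IsPreconnected.union (a, t) ⟨rfl, ht.1, le_rfl⟩ ⟨ha, rfl⟩
      (isPreconnected_singleton.prod isPreconnected_Icc) (hA.prod isPreconnected_singleton)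
  · rintro z (hz | hz)
    · have h1 : z.1 = a := hz.1
      exact ⟨h1 ▸ hAS ha, hz.2.1, hz.2.2.trans ht.2⟩
    · have h1 : z.2 = t := hz.2
      exact ⟨hAS hz.1, h1 ▸ ht⟩

end CupsA

open CupsA

theorem cups_of (hB : BAS) {n : ℕ} {c : ℝ≥0} (h : COLLAR (n + 1) c) : CUPS n c := by
  intro E _ _ _ κ _ C S M₁ M₂ L b x₀ hch hon hcomm hx₀ hneg hball
  obtain ⟨rk, hinj, hlt, hmono⟩ := exists_rk (fun k => {x ∈ S | 0 ≤ (b k).u x})
  obtain ⟨a, Y, ν, d, -, hν, hd, hdlt, ha, hcm, hdis⟩ :=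
    h b rk (Nat.card κ) hch hon hcomm hinj hlt
  have hW : ∀ k, (b k).W = {x ∈ S | (b k).u x = 0} := fun k => (hB E).on_W (hon k).1
  have hWS : ∀ k, (b k).W ⊆ S := fun k x hx => by
    rw [hW] at hx
    exact hx.1
  have hW0 : ∀ k, ∀ x ∈ (b k).W, (b k).u x = 0 := fun k x hx => hx.2
  have hcont : ∀ k, ContinuousOn (b k).u S := fun k => (hon k).1.upl.1
  -- the deeper wall is not on the positive side of the shallower one
  have hnest : ∀ k l, rk k < rk l → ∃ z ∈ (b l).W, (b k).u z ≤ 0 := by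
    intro k l hkl
    by_contra h1
    have h2 : ∀ x ∈ S, (b l).u x = 0 → 0 < (b k).u x := fun x hx h3 => by
      by_contra h4
      exact h1 ⟨x, by rw [hW]; exact ⟨hx, h3⟩, not_lt.1 h4⟩
    have h3 := nest (hcont l) (hball k).2.isConnected.isPreconnected hx₀ (hneg k) (hneg l) h2
    refine lt_asymm hkl (hmono l k ⟨fun x hx => ⟨hx.1, ?_⟩, fun h4 => ?_⟩)
    · by_contra h5
      exact absurd (h3 x hx.1 (not_le.1 h5).le) (not_lt.2 hx.2)
    · obtain ⟨x, hx⟩ := bd_nonempty (hball k).1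
      have h5 := h4 (show x ∈ {x ∈ S | 0 ≤ (b k).u x} from ⟨hWS k hx, (hW0 k x hx).ge⟩)
      exact absurd (h3 x (hWS k hx) (hW0 k x hx).le) (not_lt.2 h5.2)
  have hint : ∀ k l, rk k < rk l → ∀ x ∈ (a k).W ∩ (a l).W, ∃ y t, x = ν.toFun (y, t) ∧
      y ∈ (b l).W ∧ ((y ∈ (b k).W ∧ t ∈ Icc 0 (d k)) ∨
        (y ∈ {x ∈ S | 0 ≤ (b k).u x} ∧ t = d k)) := by
    intro k l hkl x hx
    rw [(ha k).2.2.2, (ha l).2.2.2] at hx
    exact cup_inter ν (hWS k) (sep_subset _ _) (hWS l) (sep_subset _ _) (hd k).1 (hdlt k l hkl)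
      (hd l).2 hx.1 hx.2
  have hD : ∀ k l, rk k < rk l →
      ((∀ x ∈ (b l).B, (b k).u x = 1) ∨ ∀ x ∈ (b l).B, (b k).u x = -1) →
      Disjoint (a k).B (a l).B := by
    intro k l hkl h1
    refine hdis k l hkl (h1.resolve_left fun h2 => ?_)
    obtain ⟨z, hz, h3⟩ := hnest k l hkl
    rw [h2 z hz.1] at h3
    exact absurd h3 (by norm_num)
  have hS : ∀ k l p q, rk k < rk l → (b l).W = {p, q} → Disjoint (b k).W (b l).W →
      ((a k).W ∩ (a l).W).Subsingleton := by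
    intro k l p q hkl hpq hdj
    obtain ⟨z, hz, h3⟩ := hnest k l hkl
    have hz0 : (b k).u z < 0 := lt_of_le_of_ne h3 fun h4 =>
      disjoint_left.1 hdj (by rw [hW]; exact ⟨hWS l hz, h4⟩) hz
    have key : ∀ x ∈ (a k).W ∩ (a l).W, ∃ y, x = ν.toFun (y, d k) ∧ y ∈ ({p, q} : Set E) ∧
        y ≠ z := by
      intro x hx
      obtain ⟨y, t, h4, h5, h6 | h6⟩ := hint k l hkl x hx
      · exact absurd h5 (disjoint_left.1 hdj h6.1)
      · refine ⟨y, h6.2 ▸ h4, hpq ▸ h5, fun h7 => ?_⟩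
        exact absurd h6.1.2 (not_le.2 (h7 ▸ hz0))
    intro x hx x' hx'
    obtain ⟨y, h4, h5, h6⟩ := key x hx
    obtain ⟨y', h4', h5', h6'⟩ := key x' hx'
    rw [hpq] at hz
    have h7 : y = y' := by
      rcases hz with rfl | rfl
      · exact (h5.resolve_left h6).trans (h5'.resolve_left h6').symm
      · exact (h5.resolve_right h6).trans (h5'.resolve_right h6').symm
    rw [h4, h4', h7]
  have hR : ∀ k l, rk k < rk l → IsCircle (b l).W → ∀ x ∈ (a k).W ∩ (a l).W,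
      ∃ Z, Z ⊆ (a k).W ∩ (a l).W ∧ IsPreconnected Z ∧ x ∈ Z ∧ (Z ∩ S).Nonempty := by
    intro k l hkl hJ x hx
    have hdl := hdlt k l hkl
    obtain ⟨y, t, h4, h5, h6⟩ := hint k l hkl x hx
    -- a connected set `A` at height `t` and a point `w` where one can go up
    obtain ⟨A, w, hAl, hAc, hyA, hwA, hwk, ht, hA⟩ : ∃ A w, A ⊆ (b l).W ∧ IsPreconnected A ∧
        y ∈ A ∧ w ∈ A ∧ w ∈ (b k).W ∧ t ∈ Icc 0 (d k) ∧
        (A ⊆ (b k).W ∨ (A ⊆ {x ∈ S | 0 ≤ (b k).u x} ∧ t = d k)) := by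
      rcases h6 with h6 | h6
      · exact ⟨{y}, y, singleton_subset_iff.2 h5, isPreconnected_singleton, rfl, rfl, h6.1, h6.2,
          Or.inl (singleton_subset_iff.2 h6.1)⟩
      · obtain ⟨z, hz, h3⟩ := hnest k l hkl
        obtain ⟨A, w, k1, k2, k3, k4, k5, k6⟩ := first_zero hJ (hWS l) (hcont k)
          (hball k).2.isClosed h5 hz h6.1.2 h3
        refine ⟨A, w, k1, k2, k3, k4, ?_, ⟨(hd k).1.le.trans h6.2.ge, h6.2.le⟩,
          Or.inr ⟨fun v hv => ⟨hWS l (k1 hv), k6 v hv⟩, h6.2⟩⟩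
        rw [hW]
        exact ⟨hWS l (k1 k4), k5⟩
    refine ⟨_, ?_, hook_pre ν hAc (hAl.trans (hWS l)) hwA ⟨ht.1, ht.2.trans (hd k).2.le⟩,
      ⟨(y, t), Or.inr ⟨hyA, rfl⟩, h4.symm⟩, w,
      ⟨(w, 0), Or.inl ⟨rfl, le_rfl, ht.1⟩, hν w (hWS k hwk)⟩, hWS k hwk⟩
    rw [(ha k).2.2.2, (ha l).2.2.2]
    refine subset_inter (image_mono ?_) (image_mono ?_)
    · rintro z (hz | hz)
      · have h1 : z.1 = w := hz.1
        exact Or.inl ⟨h1 ▸ hwk, hz.2.1, hz.2.2.trans ht.2⟩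
      · have h1 : z.2 = t := hz.2
        rcases hA with hA | hA
        · exact Or.inl ⟨hA hz.1, h1 ▸ ht⟩
        · exact Or.inr ⟨hA.1 hz.1, h1.trans hA.2⟩
    · rintro z (hz | hz)
      · have h1 : z.1 = w := hz.1
        exact Or.inl ⟨h1 ▸ hAl hwA, hz.2.1, hz.2.2.trans (ht.2.trans hdl.le)⟩
      · have h1 : z.2 = t := hz.2
        exact Or.inl ⟨hAl hz.1, h1 ▸ ⟨ht.1, ht.2.trans hdl.le⟩⟩
  refine ⟨a, fun k => ⟨(ha k).1, (ha k).2.1, (ha k).2.2.1, ?_⟩, hcm, fun k l hkl h1 h2 => ?_,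
    fun k l p q hkl h1 h2 h3 => ?_, fun k l hkl h1 h2 x hx => ?_⟩
  · have h1 := (cup_ball (hball k).1 (hd k).1).image ν
      (cup_sub (hWS k) (sep_subset _ _) (hd k).1 (hd k).2)
    have e1 : ν.toFun '' ((b k).W ×ˢ ({0} : Set ℝ)) = (b k).W := by
      ext x
      constructor
      · rintro ⟨⟨y, s⟩, hz, rfl⟩
        obtain rfl : s = 0 := hz.2
        rw [hν y (hWS k hz.1)]
        exact hz.1
      · intro hx
        exact ⟨(x, 0), ⟨hx, rfl⟩, hν x (hWS k hx)⟩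
    rwa [e1, ← (ha k).2.2.2] at h1
  · rcases lt_or_gt_of_ne (hinj.ne hkl) with h3 | h3
    · exact hD k l h3 h1
    · exact (hD l k h3 h2).symm
  · rcases lt_or_gt_of_ne (hinj.ne hkl) with h4 | h4
    · exact hS k l p q h4 h1 h3
    · obtain ⟨p', q', h5⟩ := h2
      rw [inter_comm]
      exact hS l k p' q' h4 h5 h3.symm
  · rcases lt_or_gt_of_ne (hinj.ne hkl) with h4 | h4
    · exact hR k l h4 h2 x hx
    · rw [inter_comm] at hx ⊢
      exact hR l k h4 h1 x hx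

end P073.Bd
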