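import Vale.Agent.P073Y.Bd.Sk
import Vale.Agent.P073Z.A1
import Vale.Agent.P073Z.SHELL.A

/-!
# Transport of bands; piecewise Lipschitz functions
-/

open Set Metric Topology Filter
open scoped NNReal

namespace P073.Bd

namespace Mp

variable {E F : Type} [NormedAddCommGroup E] [NormedSpace ℝ E]
  [NormedAddCommGroup F] [NormedSpace ℝ F] {X : Set E} {Y : Set F}

theorem map_B (φ : ConHomeo X Y) (b : Band E) : (b.map φ).B = φ.toFun '' b.B := rfl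

theorem map_u (φ : ConHomeo X Y) (b : Band E) {x : E} (hx : x ∈ X) :
    (b.map φ).u (φ.toFun x) = b.u x := by
  show b.u (φ.invFun (φ.toFun x)) = b.u x
  rw [φ.left_inv hx]

theorem map_M (φ : ConHomeo X Y) (b : Band E) {x : E} (hx : x ∈ X) (s : ℝ) :
    (b.map φ).M (φ.toFun x, s) = φ.toFun (b.M (x, s)) := by
  show φ.toFun (b.M (φ.invFun (φ.toFun x), s)) = _
  rw [φ.left_inv hx]

theorem mem_image_iff (φ : ConHomeo X Y) {Z : Set E} (hZ : Z ⊆ X) {x : E} (hx : x ∈ X) :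
    φ.toFun x ∈ φ.toFun '' Z ↔ x ∈ Z := by
  constructor
  · rintro ⟨z, hz, he⟩
    rwa [← φ.injOn (hZ hz) hx he]
  · exact fun h => mem_image_of_mem _ h

theorem map_ok [FiniteDimensional ℝ E] [FiniteDimensional ℝ F] (φ : ConHomeo X Y) {b : Band E}
    (hb : b.Ok) (hs : b.B ⊆ X) : (b.map φ).Ok := by
  have hc := hb.loc.conicalSet
  let ψ := φ.restr hc hs
  have hI : ConicalSet I := Convex.conicalSet (convex_Icc _ _)
  have hP : ConicalSet ((φ.toFun '' b.B) ×ˢ I) := Sh.conicalSet_prod ψ.conicalSet_right hI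
  have k1 : ContinuousOn (fun q : F × ℝ => (φ.invFun q.1, q.2)) ((φ.toFun '' b.B) ×ˢ I) :=
    (ψ.cont_inv.comp continuousOn_fst fun _ hq => hq.1).prodMk continuousOn_snd
  have k2 : ConicalOn (fun q : F × ℝ => (φ.invFun q.1, q.2)) ((φ.toFun '' b.B) ×ˢ I) :=
    (ψ.conical_inv.comp (conicalOn_linear (LinearMap.fst ℝ F ℝ) hP) (fun _ hq => hq.1)
      continuousOn_fst).prodMk (conicalOn_linear (LinearMap.snd ℝ F ℝ) hP)
  have k3 : MapsTo (fun q : F × ℝ => (φ.invFun q.1, q.2)) ((φ.toFun '' b.B) ×ˢ I) (b.B ×ˢ I) :=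
    fun _ hq => ⟨ψ.mapsTo_inv hq.1, hq.2⟩
  have k4 : MapsTo b.M (b.B ×ˢ I) b.B := fun q hq => (hb.Mmem q.1 hq.1 q.2 hq.2).1
  refine ⟨hb.cpt.image_of_continuousOn ψ.cont, img hb.cpt hb.loc ⟨ψ.cont, ψ.conical⟩,
    ⟨hb.upl.1.comp ψ.cont_inv ψ.mapsTo_inv,
      hb.upl.2.comp ψ.conical_inv ψ.mapsTo_inv ψ.cont_inv⟩,
    ⟨ψ.cont.comp (hb.Mpl.1.comp k1 k3) (k4.comp k3),
      ψ.conical.comp (hb.Mpl.2.comp k2 k3 k1) (k4.comp k3) (hb.Mpl.1.comp k1 k3)⟩,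
    ?_, ?_, ?_, ?_⟩
  · rintro _ ⟨x, hx, rfl⟩
    rw [map_u φ b (hs hx)]
    exact hb.urange x hx
  · rintro _ ⟨x, hx, rfl⟩ s hsI
    obtain ⟨h1, h2⟩ := hb.Mmem x hx s hsI
    rw [map_M φ b (hs hx), map_u φ b (hs h1)]
    exact ⟨mem_image_of_mem _ h1, h2⟩
  · rintro _ ⟨x, hx, rfl⟩
    rw [map_u φ b (hs hx), map_M φ b (hs hx), hb.Mid x hx]
  · rintro _ ⟨x, hx, rfl⟩ s hsI t ht
    rw [map_M φ b (hs hx), map_M φ b (hs (hb.Mmem x hx s hsI).1), map_M φ b (hs hx),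
      hb.MM x hx s hsI t ht]

theorem map_W (φ : ConHomeo X Y) {b : Band E} (hs : b.B ⊆ X) :
    (b.map φ).W = φ.toFun '' b.W := by
  ext y
  constructor
  · rintro ⟨⟨x, hx, rfl⟩, h0⟩
    rw [map_u φ b (hs hx)] at h0
    exact ⟨x, ⟨hx, h0⟩, rfl⟩
  · rintro ⟨x, ⟨hx, h0⟩, rfl⟩
    exact ⟨mem_image_of_mem _ hx, by rw [map_u φ b (hs hx)]; exact h0⟩

theorem image_mem_nhdsWithin (φ : ConHomeo X Y) {Z : Set E} {x : E} (hx : x ∈ X)
    (hZ : Z ∈ 𝓝[X] x) : φ.toFun '' Z ∈ 𝓝[Y] (φ.toFun x) := by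
  have h1 : ContinuousWithinAt φ.invFun Y (φ.toFun x) := φ.cont_inv _ (φ.mapsTo hx)
  have h2 := h1.tendsto_nhdsWithin φ.mapsTo_inv
  rw [φ.left_inv hx] at h2
  filter_upwards [h2 hZ, self_mem_nhdsWithin] with y hy hyY
  exact ⟨φ.invFun y, hy, φ.right_inv hyY⟩

theorem map_in (φ : ConHomeo X Y) {b : Band E} (h : b.In X) : (b.map φ).In Y := by
  refine ⟨(image_mono h.1).trans φ.mapsTo.image_subset, ?_⟩
  rintro _ ⟨x, hx, rfl⟩ hu
  rw [map_u φ b (h.1 hx)] at hu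
  exact image_mem_nhdsWithin φ (h.1 hx) (h.2 x hx hu)

theorem map_keeps (φ : ConHomeo X Y) {b : Band E} (hs : b.B ⊆ X) {Z : Set E} (hZ : Z ⊆ X)
    (h : b.Keeps Z) : (b.map φ).Keeps (φ.toFun '' Z) := by
  rintro _ ⟨x, hx, rfl⟩ s hsI hxZ
  rw [map_M φ b (hs hx)]
  exact mem_image_of_mem _ (h x hx s hsI ((mem_image_iff φ hZ (hs hx)).1 hxZ))

theorem map_on [FiniteDimensional ℝ E] [FiniteDimensional ℝ F] (φ : ConHomeo X Y) {b : Band E}
    (h : b.On X) : (b.map φ).On Y := by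
  refine ⟨map_ok φ h.ok h.sub, (image_mono h.sub).trans φ.mapsTo.image_subset,
    ⟨h.upl.1.comp φ.cont_inv φ.mapsTo_inv,
      h.upl.2.comp φ.conical_inv φ.mapsTo_inv φ.cont_inv⟩, fun y hy hn => ?_⟩
  exact h.out _ (φ.mapsTo_inv hy) fun hm => hn ⟨_, hm, φ.right_inv hy⟩

theorem map_comm (φ : ConHomeo X Y) {b b' : Band E} (hb : b.Ok) (hb' : b'.Ok) (hs : b.B ⊆ X)
    (hs' : b'.B ⊆ X) (h : Comm b b') : Comm (b.map φ) (b'.map φ) := by
  rintro _ ⟨x, hx, rfl⟩ s hsI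
  obtain ⟨h1, h2⟩ := h x hx s hsI
  have hm := hs (hb.Mmem x hx s hsI).1
  rw [map_M φ b (hs hx), map_B, mem_image_iff φ hs' hm, mem_image_iff φ hs' (hs hx)]
  refine ⟨h1, fun hx' => ?_⟩
  obtain ⟨h3, h4⟩ := h2 hx'
  rw [map_u φ b' hm, map_u φ b' (hs hx)]
  refine ⟨h3, fun t ht => ?_⟩
  rw [map_M φ b' hm, map_M φ b' (hs hx), map_M φ b (hs' (hb'.Mmem x hx' t ht).1), h4 t ht]

/-- the estimate on an interval covered by finitely many closed sets -/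
theorem seg_bound {ι : Type} (K : ℝ) (g : ℝ → ℝ) (Z : ι → Set ℝ) (s : Finset ι) :
    (∀ i ∈ s, IsClosed (Z i) ∧ ∀ a ∈ Z i, ∀ b ∈ Z i, a ≤ b → |g b - g a| ≤ K * (b - a)) →
    ∀ a b, a ≤ b → Icc a b ⊆ ⋃ i ∈ s, Z i → |g b - g a| ≤ K * (b - a) := by
  classical
  induction s using Finset.strongInduction with
  | H s ih =>
    intro hZ a b hab hcov
    obtain ⟨i, hi, hai⟩ := mem_iUnion₂.1 (hcov (left_mem_Icc.2 hab))
    have hT : IsCompact (Icc a b ∩ Z i) := isCompact_Icc.inter_right (hZ i hi).1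
    obtain ⟨c, ⟨hc1, hc2⟩, hcm⟩ := hT.exists_isGreatest ⟨a, left_mem_Icc.2 hab, hai⟩
    have h1 := (hZ i hi).2 a hai c hc2 hc1.1
    rcases hc1.2.eq_or_lt with rfl | hcb
    · exact h1
    · have hcl : IsClosed (⋃ j ∈ s.erase i, Z j) :=
        isClosed_biUnion_finset fun j hj => (hZ j (Finset.mem_of_mem_erase hj)).1
      have hsub : Ioc c b ⊆ ⋃ j ∈ s.erase i, Z j := by
        intro t ht
        have htI : t ∈ Icc a b := ⟨hc1.1.trans ht.1.le, ht.2⟩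
        obtain ⟨j, hj, htj⟩ := mem_iUnion₂.1 (hcov htI)
        refine mem_iUnion₂.2 ⟨j, Finset.mem_erase.2 ⟨?_, hj⟩, htj⟩
        rintro rfl
        exact absurd (hcm ⟨htI, htj⟩) (not_le.2 ht.1)
      have hsub' : Icc c b ⊆ ⋃ j ∈ s.erase i, Z j := by
        rw [← closure_Ioc hcb.ne]
        exact hcl.closure_subset_iff.2 hsub
      have h2 := ih (s.erase i) (Finset.erase_ssubset hi)
        (fun j hj => hZ j (Finset.mem_of_mem_erase hj)) c b hcb.le hsub'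
      have h3 := abs_sub_le (g b) (g c) (g a)
      linarith

theorem lip_of_convex {L : ℝ≥0} {f : E → ℝ} (hX : Convex ℝ X) (h : PwLip L f X) :
    LipschitzOnWith L f X := by
  obtain ⟨𝒞, h𝒞, hcov⟩ := h
  refine LipschitzOnWith.of_dist_le_mul fun x hx y hy => ?_
  have hγ : Continuous fun t : ℝ => AffineMap.lineMap y x t := AffineMap.lineMap_continuous
  have key := seg_bound (L * dist x y) (fun t => f (AffineMap.lineMap y x t))
    (fun Z : Set E => (fun t : ℝ => AffineMap.lineMap y x t) ⁻¹' Z) 𝒞 (fun Z hZ =>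
      ⟨(h𝒞 Z hZ).1.preimage hγ, fun a ha b hb hab => by
        have h1 := (h𝒞 Z hZ).2.dist_le_mul _ hb _ ha
        rw [dist_lineMap_lineMap, Real.dist_eq, Real.dist_eq, abs_of_nonneg (sub_nonneg.2 hab),
          dist_comm y x] at h1
        linarith⟩) 0 1 zero_le_one (fun t ht => by
      obtain ⟨Z, hZ, hm⟩ := mem_iUnion₂.1 (hcov (hX.lineMap_mem hy hx ht))
      exact mem_iUnion₂.2 ⟨Z, hZ, hm⟩)
  simpa [Real.dist_eq] using key

omit [NormedSpace ℝ E] in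
theorem pw_sum {L : ℝ≥0} {ι : Type} (s : Finset ι) (B : ι → Set E) (u : ι → E → ℝ)
    (hX : IsClosed X) (h : ∀ i ∈ s, ContinuousOn (u i) X ∧ PwLip L (u i) X ∧
      ∀ x ∈ X, x ∉ B i → u i x = 1 ∨ u i x = -1)
    (hd : ∀ i ∈ s, ∀ j ∈ s, i ≠ j → Disjoint (B i) (B j)) :
    PwLip L (fun x => ∑ i ∈ s, u i x) X := by
  classical
  rcases s.eq_empty_or_nonempty with rfl | ⟨i₀, hi₀⟩
  · refine ⟨{X}, fun Z hZ => ?_, by simp⟩
    rw [Finset.mem_singleton.1 hZ]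
    refine ⟨hX, fun x _ y _ => by simp⟩
  choose! 𝒞 h𝒞 hcov using fun i hi => (h i hi).2.1
  let σ : Finset ι → ι → ℝ := fun T j => if j ∈ T then 1 else -1
  let P : ι → Set E × Finset ι → Set E := fun i q =>
    q.1 ∩ {x ∈ X | ∀ j ∈ s.erase i, u j x = σ q.2 j}
  refine ⟨s.biUnion fun i => (𝒞 i ×ˢ s.powerset).image (P i), fun Z hZ => ?_, fun x hx => ?_⟩
  · obtain ⟨i, hi, hZ⟩ := Finset.mem_biUnion.1 hZ
    obtain ⟨q, hq, rfl⟩ := Finset.mem_image.1 hZ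
    obtain ⟨h1, h2⟩ := h𝒞 i hi q.1 (Finset.mem_product.1 hq).1
    refine ⟨h1.inter ?_, ?_⟩
    · have e : {x ∈ X | ∀ j ∈ s.erase i, u j x = σ q.2 j} =
          X ∩ ⋂ j ∈ s.erase i, (X ∩ u j ⁻¹' {σ q.2 j}) := by
        ext x
        simp only [mem_setOf_eq, mem_inter_iff, mem_iInter, mem_preimage, mem_singleton_iff]
        exact ⟨fun hx => ⟨hx.1, fun j hj => ⟨hx.1, hx.2 j hj⟩⟩,
          fun hx => ⟨hx.1, fun j hj => (hx.2 j hj).2⟩⟩
      rw [e]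
      exact hX.inter (isClosed_biInter fun j hj =>
        (h j (Finset.mem_of_mem_erase hj)).1.preimage_isClosed_of_isClosed hX isClosed_singleton)
    · refine LipschitzOnWith.of_dist_le_mul fun x hx y hy => ?_
      have e : ∀ z ∈ P i q, ∑ j ∈ s, u j z = u i z + ∑ j ∈ s.erase i, σ q.2 j := fun z hz => by
        rw [← Finset.add_sum_erase s _ hi, Finset.sum_congr rfl hz.2.2]
      rw [e x hx, e y hy, dist_add_right]
      exact h2.dist_le_mul x hx.1 y hy.1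
  · obtain ⟨i, hi, hout⟩ : ∃ i ∈ s, ∀ j ∈ s, j ≠ i → x ∉ B j := by
      by_cases hB : ∃ i ∈ s, x ∈ B i
      · obtain ⟨i, hi, hxi⟩ := hB
        exact ⟨i, hi, fun j hj hne hxj => disjoint_left.1 (hd j hj i hi hne) hxj hxi⟩
      · exact ⟨i₀, hi₀, fun j hj _ hxj => hB ⟨j, hj, hxj⟩⟩
    obtain ⟨Z, hZ, hxZ⟩ := mem_iUnion₂.1 (hcov i hi hx)
    refine mem_iUnion₂.2 ⟨P i (Z, s.filter fun j => u j x = 1), Finset.mem_biUnion.2 ⟨i, hi,
      Finset.mem_image_of_mem _ (Finset.mem_product.2 ⟨hZ,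
        Finset.mem_powerset.2 (Finset.filter_subset _ _)⟩)⟩, hxZ, hx, fun j hj => ?_⟩
    obtain ⟨hne, hjs⟩ := Finset.mem_erase.1 hj
    simp only [σ, Finset.mem_filter, hjs, true_and]
    split_ifs with h1
    · exact h1
    · exact ((h j hjs).2.2 x hx (hout j hjs hne)).resolve_left h1

end Mp

theorem map_thm : MAP := fun φ =>
  ⟨fun hb hs => ⟨Mp.map_ok φ hb hs, Mp.map_W φ hs, Mp.map_in φ,
    fun _ hZ h => Mp.map_keeps φ hs hZ h⟩, fun h => Mp.map_on φ h,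
    fun hb hb' hs hs' h => Mp.map_comm φ hb hb' hs hs' h⟩

theorem lipg : LIPG :=
  ⟨fun hX h => Mp.lip_of_convex hX h, fun s b hX h hd =>
    Mp.pw_sum s (fun i => (b i).B) (fun i => (b i).u) hX
      (fun i hi => ⟨(h i hi).1, (h i hi).2.2⟩) hd⟩

end P073.Bd
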