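import Vale.Agent.P073Y.Bd.Sk
import Vale.Agent.P073Z.A1
import Vale.Agent.P073Z.A2.PL

/-!
# Gluing of bands: GLUE and GCOMM
-/

open Set Metric Topology Filter
open scoped NNReal

namespace P073.Bd

namespace Glue

theorem smem {ε s : ℝ} (hε : ε = 1 ∨ ε = -1) (hs : s ∈ I) : ε * s ∈ I := by
  obtain ⟨h1, h2⟩ := hs
  rcases hε with rfl | rfl <;> constructor <;> linarith

theorem smul2 {ε : ℝ} (hε : ε = 1 ∨ ε = -1) (s : ℝ) : ε * (ε * s) = s := by
  rcases hε with rfl | rfl <;> ring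

theorem sabs {ε : ℝ} (hε : ε = 1 ∨ ε = -1) (s : ℝ) : |ε * s| = |s| := by
  rcases hε with rfl | rfl <;> simp

variable {E F : Type} [NormedAddCommGroup E] [NormedSpace ℝ E]
  [NormedAddCommGroup F] [NormedSpace ℝ F]

omit [NormedAddCommGroup E] [NormedSpace ℝ E] in
/-- the moves of `g` in terms of the moves of `b` -/
theorem sgn_M {b g : Band E} (h : Sgn b g) : ∃ ε : ℝ, (ε = 1 ∨ ε = -1) ∧ ∀ x ∈ b.B,
    g.u x = ε * b.u x ∧ ∀ s ∈ I, g.M (x, s) = b.M (x, ε * s) := by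
  obtain ⟨ε, hε, h⟩ := h
  refine ⟨ε, hε, fun x hx => ⟨(h x hx).1, fun s hs => ?_⟩⟩
  have := (h x hx).2 (ε * s) (smem hε hs)
  rwa [smul2 hε] at this

theorem locCone_pre {X : Set E} {Y : Set F} {h : E → F} (hc : IsClosed X) (hX : LocCone X)
    (hh : PLOn h X) (hY : LocCone Y) : LocCone (X ∩ h ⁻¹' Y) := by
  intro x
  by_cases hx : x ∈ X
  · exact pre hx (hX x) (hh.1 x hx) (hh.2 x hx) (hY _)
  · refine (locConeAt_congr ?_).1 (locCone_empty x)
    filter_upwards [hc.isOpen_compl.mem_nhds hx] with y hy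
    exact ⟨fun h => h.elim, fun h => hy h.1⟩

theorem pl_iUnion {ι : Type} [Finite ι] {X : ι → Set E} {h : E → F} (hc : ∀ i, IsClosed (X i))
    (H : ∀ i, PLOn h (X i)) : PLOn h (⋃ i, X i) :=
  ⟨(RelLF.of_finite hc).continuousOn fun i => (H i).1,
    (RelLF.of_finite hc).conicalOn fun i => (H i).2⟩

theorem pl_union {X Y : Set E} {h : E → F} (hX : IsClosed X) (hY : IsClosed Y)
    (H : PLOn h X) (H' : PLOn h Y) : PLOn h (X ∪ Y) := by
  rw [union_eq_iUnion]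
  exact pl_iUnion (fun b => by cases b <;> assumption) (fun b => by cases b <;> assumption)

omit [NormedSpace ℝ E] in
theorem side {Z P N : Set E} (hZ : IsPreconnected Z) (hP : IsClosed P) (hN : IsClosed N)
    (h : Z ⊆ P ∪ N) (h' : ∀ x ∈ Z, x ∈ P → x ∈ N → False) : Z ⊆ P ∨ Z ⊆ N := by
  refine isPreconnected_iff_subset_of_disjoint_closed.1 hZ P N hP hN h ?_
  exact eq_empty_of_forall_notMem fun x hx => h' x hx.1 hx.2.1 hx.2.2

/-- the orientation of one band -/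
theorem exists_sign [FiniteDimensional ℝ E] (hB : Bas E) {b : Band E} {P N : Set E} (hb : b.Ok)
    (hW : IsPreconnected b.W) (hP : IsClosed P) (hN : IsClosed N) (hsub : b.B ⊆ P ∪ N)
    (hz : ∀ x ∈ b.B, (x ∈ P ∧ x ∈ N) ↔ b.u x = 0)
    (h1 : (b.B ∩ (P \ N)).Nonempty) (h2 : (b.B ∩ (N \ P)).Nonempty) :
    ∃ ε : ℝ, (ε = 1 ∨ ε = -1) ∧ ∀ x ∈ b.B,
      (0 ≤ ε * b.u x ↔ x ∈ P) ∧ (ε * b.u x ≤ 0 ↔ x ∈ N) := by
  obtain ⟨-, hp, hm⟩ := hB.pre hb hW
  have sp := side hp hP hN (fun x hx => hsub hx.1)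
    (fun x hx a c => hx.2.ne' ((hz x hx.1).1 ⟨a, c⟩))
  have sm := side hm hP hN (fun x hx => hsub hx.1)
    (fun x hx a c => hx.2.ne ((hz x hx.1).1 ⟨a, c⟩))
  obtain ⟨y, hy, hyP, hyN⟩ := h1
  obtain ⟨z, hzB, hzN, hzP⟩ := h2
  rcases sp with sp | sp <;> rcases sm with sm | sm
  · exfalso
    rcases lt_trichotomy (b.u z) 0 with h | h | h
    · exact hzP (sm ⟨hzB, h⟩)
    · exact hzP ((hz z hzB).2 h).1
    · exact hzP (sp ⟨hzB, h⟩)
  · refine ⟨1, Or.inl rfl, fun x hx => ?_⟩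
    rw [one_mul]
    rcases lt_trichotomy (b.u x) 0 with h | h | h
    · have a := sm ⟨hx, h⟩
      exact ⟨⟨fun c => absurd c (not_le.2 h), fun c => absurd ((hz x hx).1 ⟨c, a⟩) h.ne⟩,
        ⟨fun _ => a, fun _ => h.le⟩⟩
    · have a := (hz x hx).2 h
      exact ⟨⟨fun _ => a.1, fun _ => h.ge⟩, ⟨fun _ => a.2, fun _ => h.le⟩⟩
    · have a := sp ⟨hx, h⟩
      exact ⟨⟨fun _ => a, fun _ => h.le⟩,
        ⟨fun c => absurd c (not_le.2 h), fun c => absurd ((hz x hx).1 ⟨a, c⟩) h.ne'⟩⟩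
  · refine ⟨-1, Or.inr rfl, fun x hx => ?_⟩
    rw [neg_one_mul, neg_nonneg, neg_nonpos]
    rcases lt_trichotomy (b.u x) 0 with h | h | h
    · have a := sm ⟨hx, h⟩
      exact ⟨⟨fun _ => a, fun _ => h.le⟩,
        ⟨fun c => absurd c (not_le.2 h), fun c => absurd ((hz x hx).1 ⟨a, c⟩) h.ne⟩⟩
    · have a := (hz x hx).2 h
      exact ⟨⟨fun _ => a.1, fun _ => h.le⟩, ⟨fun _ => a.2, fun _ => h.ge⟩⟩
    · have a := sp ⟨hx, h⟩
      exact ⟨⟨fun c => absurd c (not_le.2 h), fun c => absurd ((hz x hx).1 ⟨c, a⟩) h.ne'⟩,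
        ⟨fun _ => a, fun _ => h.le⟩⟩
  · exfalso
    rcases lt_trichotomy (b.u y) 0 with h | h | h
    · exact hyN (sm ⟨hy, h⟩)
    · exact hyN ((hz y hy).2 h).2
    · exact hyN (sp ⟨hy, h⟩)

omit [NormedAddCommGroup E] [NormedSpace ℝ E] in
theorem match_abs {b b' : Band E} (h : Match b b') {x : E} (hx : x ∈ b.B) (hx' : x ∈ b'.B) :
    |b'.u x| = |b.u x| := by
  obtain ⟨ε, hε, h1, -⟩ := h x hx hx'
  rw [h1, sabs hε]

theorem eq_of_abs {a c : ℝ} (h : |a| = |c|) (h1 : 0 ≤ a ↔ 0 ≤ c) : a = c := by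
  by_cases ha : 0 ≤ a
  · rwa [abs_of_nonneg ha, abs_of_nonneg (h1.1 ha)] at h
  · have hc : ¬ 0 ≤ c := fun hc => ha (h1.2 hc)
    rw [abs_of_neg (not_le.1 ha), abs_of_neg (not_le.1 hc)] at h
    linarith

open Classical in
/-- the glued band -/
noncomputable def glued {κ : Type} (b : κ → Band E) (ε : κ → ℝ) (P : Set E) : Band E where
  B := ⋃ k, (b k).B
  u := fun x => if h : ∃ k, x ∈ (b k).B then ε h.choose * (b h.choose).u x
    else if x ∈ P then 1 else -1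
  M := fun q => if h : ∃ k, q.1 ∈ (b k).B then (b h.choose).M (q.1, ε h.choose * q.2) else q.1

end Glue

open Glue

theorem gcomm : GCOMM := by
  intro E _ _ κ κ' b b' g g' hb hb' hg hgB hg'B hs hs' H
  have key : ∀ x ∈ g.B, x ∈ g'.B → ∀ s ∈ I, g.M (x, s) ∈ g'.B ∧
      g'.u (g.M (x, s)) = g'.u x ∧ ∀ t ∈ I, g'.M (g.M (x, s), t) = g.M (g'.M (x, t), s) := by
    intro x hx hx' s hsI
    obtain ⟨k, l, hk, hl, c1, c2⟩ := H x hx hx'
    obtain ⟨ε, hε, e⟩ := sgn_M (hs k)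
    obtain ⟨ε', hε', e'⟩ := sgn_M (hs' l)
    obtain ⟨d1, d2⟩ := c1 x hk (ε * s) (smem hε hsI)
    obtain ⟨d2, d3⟩ := d2 hl
    have hy := d1.2 hl
    rw [(e x hk).2 s hsI]
    refine ⟨hg'B ▸ mem_iUnion.2 ⟨l, hy⟩, by rw [(e' _ hy).1, (e' _ hl).1, d2], fun t ht => ?_⟩
    have hw := ((c2 x hl (ε' * t) (smem hε' ht)).1).2 hk
    rw [(e' _ hy).2 t ht, (e' _ hl).2 t ht, (e _ hw).2 s hsI, d3 _ (smem hε' ht)]
  intro x hx s hsI
  refine ⟨⟨fun hy => ?_, fun hx' => (key x hx hx' s hsI).1⟩, fun hx' => (key x hx hx' s hsI).2⟩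
  have := (key _ (hg.Mmem x hx s hsI).1 hy _ (hg.urange x hx)).1
  rwa [hg.MM x hx s hsI _ (hg.urange x hx), hg.Mid x hx] at this

theorem glue_of (hB : BAS) : GLUE := by
  intro E _ _ _ π κ _ _ X home b P N hX hb hm hsat hP hPc hN hNc hU hW hk
  classical
  have hok := fun k => (hb k).1
  have hBU : ∀ k, (b k).B ⊆ ⋃ a, X a := fun k => (hb k).2.1.trans (subset_iUnion X _)
  have hz : ∀ k, ∀ x ∈ (b k).B, (x ∈ P ∧ x ∈ N) ↔ (b k).u x = 0 := by
    intro k x hx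
    constructor
    · intro h
      have h' : x ∈ P ∩ N := h
      rw [hW] at h'
      obtain ⟨l, hl⟩ := mem_iUnion.1 h'
      have := match_abs (hm l k) hl.1 hx
      rwa [hl.2, abs_zero, abs_eq_zero] at this
    · intro h
      have h' : x ∈ P ∩ N := hW ▸ mem_iUnion.2 ⟨k, hx, h⟩
      exact h'
  have hex : ∀ k, ∃ ε : ℝ, (ε = 1 ∨ ε = -1) ∧ ∀ x ∈ (b k).B,
      (0 ≤ ε * (b k).u x ↔ x ∈ P) ∧ (ε * (b k).u x ≤ 0 ↔ x ∈ N) := by
    intro k
    obtain ⟨hpre, x, hx, hn, c1, c2⟩ := hk k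
    have hn' : (b k).B ∈ 𝓝[⋃ a, X a] x := by
      have h1 := (hb k).2.2 x hx.1 (by rw [hx.2]; simp)
      exact nhdsWithin_le_iff.2 hn h1
    have hne : ∀ Z ⊆ ⋃ a, X a, x ∈ closure Z → ((b k).B ∩ Z).Nonempty := by
      intro Z hZ hc
      have : NeBot (𝓝[Z] x) := mem_closure_iff_nhdsWithin_neBot.1 hc
      exact Filter.nonempty_of_mem
        (inter_mem (nhdsWithin_mono x hZ hn') (self_mem_nhdsWithin (a := x) (s := Z)))
    refine exists_sign (hB E) (hok k) hpre hP.isClosed hN.isClosed (hU ▸ hBU k) (hz k)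
      (hne _ (fun y hy => hU ▸ Or.inl hy.1) c1) (hne _ (fun y hy => hU ▸ Or.inr hy.1) c2)
  choose ε hε hs using hex
  have cu : ∀ k l, ∀ x ∈ (b k).B, x ∈ (b l).B → ε k * (b k).u x = ε l * (b l).u x := by
    intro k l x hx hx'
    refine eq_of_abs ?_ ((hs k x hx).1.trans (hs l x hx').1.symm)
    rw [sabs (hε k), sabs (hε l), match_abs (hm k l) hx hx']
  have cM : ∀ k l, ∀ x ∈ (b k).B, x ∈ (b l).B → ∀ s ∈ I,
      (b k).M (x, ε k * s) = (b l).M (x, ε l * s) := by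
    intro k l x hx hx' s hsI
    obtain ⟨δ, hδ, -, h2⟩ := hm k l x hx hx'
    have o : (1:ℝ) ∈ I := ⟨by norm_num, le_rfl⟩
    have a1 := (hok k).Mmem x hx 1 o
    have a2 := (hok l).Mmem x hx' (δ * 1) (smem hδ o)
    rw [h2 1 o] at a2
    have a3 := cu k l _ a1.1 a2.1
    rw [a1.2, a2.2, mul_one, mul_one] at a3
    rw [← h2 _ (smem (hε k) hsI), a3]
    have : δ * (ε l * δ * s) = ε l * s := by
      rcases hδ with rfl | rfl <;> ring
    rw [this]
  set g := glued b ε P with hg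
  have gB : g.B = ⋃ k, (b k).B := rfl
  have gu : ∀ k, ∀ x ∈ (b k).B, g.u x = ε k * (b k).u x := by
    intro k x hx
    have h : ∃ k, x ∈ (b k).B := ⟨k, hx⟩
    simp only [hg, glued, dif_pos h]
    exact cu _ _ x h.choose_spec hx
  have gM : ∀ k, ∀ x ∈ (b k).B, ∀ s ∈ I, g.M (x, s) = (b k).M (x, ε k * s) := by
    intro k x hx s hsI
    have h : ∃ k, x ∈ (b k).B := ⟨k, hx⟩
    simp only [hg, glued, dif_pos h]
    exact cM _ _ x h.choose_spec hx s hsI
  have gout : ∀ x, x ∉ g.B → g.u x = if x ∈ P then 1 else -1 := by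
    intro x hx
    have h : ¬ ∃ k, x ∈ (b k).B := fun h => hx (mem_iUnion.2 h)
    simp only [hg, glued, dif_neg h]
  have hcl := fun k => (hok k).cpt.isClosed
  have upl : ∀ k, PLOn g.u (b k).B := fun k =>
    A2.pl_congr (A2.pl_mul (ε k) (hok k).upl) fun x hx => gu k x hx
  have hgok : g.Ok :=
    { cpt := isCompact_iUnion fun k => (hok k).cpt
      loc := LocCone.iUnion_finite fun k => (hok k).loc
      upl := pl_iUnion hcl upl
      Mpl := by
        rw [gB, iUnion_prod_const]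
        refine pl_iUnion (fun k => (hcl k).prod isClosed_Icc) fun k => ?_
        have hc := A2.pl_set (hok k).Mpl
        refine A2.pl_congr (A2.pl_comp (hok k).Mpl
          (A2.pl_prodMk (A2.pl_fst hc) (A2.pl_mul (ε k) (A2.pl_snd hc)))
          fun q hq => ⟨hq.1, smem (hε k) hq.2⟩) fun q hq => gM k q.1 hq.1 q.2 hq.2
      urange := fun x hx => by
        obtain ⟨k, hx⟩ := mem_iUnion.1 hx
        rw [gu k x hx]
        exact smem (hε k) ((hok k).urange x hx)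
      Mmem := fun x hx s hsI => by
        obtain ⟨k, hx⟩ := mem_iUnion.1 hx
        obtain ⟨a1, a2⟩ := (hok k).Mmem x hx _ (smem (hε k) hsI)
        rw [gM k x hx s hsI]
        exact ⟨mem_iUnion.2 ⟨k, a1⟩, by rw [gu k _ a1, a2, smul2 (hε k)]⟩
      Mid := fun x hx => by
        obtain ⟨k, hx⟩ := mem_iUnion.1 hx
        rw [gu k x hx, gM k x hx _ (smem (hε k) ((hok k).urange x hx)), smul2 (hε k),
          (hok k).Mid x hx]
      MM := fun x hx s hsI t ht => by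
        obtain ⟨k, hx⟩ := mem_iUnion.1 hx
        rw [gM k x hx s hsI, gM k x hx t ht,
          gM k _ ((hok k).Mmem x hx _ (smem (hε k) hsI)).1 t ht,
          (hok k).MM x hx _ (smem (hε k) hsI) _ (smem (hε k) ht)] }
  have hside : ∀ x ∈ ⋃ a, X a, (0 ≤ g.u x ↔ x ∈ P) ∧ (g.u x ≤ 0 ↔ x ∈ N) := by
    intro x hx
    by_cases hxB : x ∈ g.B
    · obtain ⟨k, hx⟩ := mem_iUnion.1 hxB
      rw [gu k x hx]
      exact hs k x hx
    · have hn : ¬ (x ∈ P ∧ x ∈ N) := fun h => by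
        have h' : x ∈ P ∩ N := h
        rw [hW] at h'
        obtain ⟨l, hl⟩ := mem_iUnion.1 h'
        exact hxB (mem_iUnion.2 ⟨l, hl.1⟩)
      rw [gout x hxB]
      rw [← hU] at hx
      by_cases hxP : x ∈ P
      · rw [if_pos hxP]
        exact ⟨⟨fun _ => hxP, fun _ => zero_le_one⟩,
          ⟨fun h => absurd h (by norm_num), fun h => (hn ⟨hxP, h⟩).elim⟩⟩
      · rw [if_neg hxP]
        exact ⟨⟨fun h => absurd h (by norm_num), fun h => (hxP h).elim⟩,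
          ⟨fun _ => hx.resolve_left hxP, fun _ => by norm_num⟩⟩
  -- the part off the open bands
  set Y : Set E := ⋂ k, ((b k).Bᶜ ∪ (b k).B ∩ (b k).u ⁻¹' {t : ℝ | |t| = 1}) with hY
  have hYc : LocCone Y := LocCone.iInter_finite fun k => (hok k).loc.compl.union
    (locCone_pre (hcl k) (hok k).loc (hok k).upl
      (locCone_setOf_eq continuous_abs (A2.pl_abs (A2.pl_id A2.conicalSet_univ)).2 1))
  have hYm : ∀ x, x ∈ Y ↔ ∀ k, x ∈ (b k).B → |(b k).u x| = 1 := by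
    intro x
    rw [hY, mem_iInter]
    refine forall_congr' fun k => ⟨fun h hx => ?_, fun h => ?_⟩
    · exact (h.resolve_left fun h' => h' hx).2
    · by_cases hx : x ∈ (b k).B
      · exact Or.inr ⟨hx, h hx⟩
      · exact Or.inl hx
  have hYcl : ∀ Z, IsClosed Z → Z ⊆ ⋃ a, X a → IsClosed (Z ∩ Y) := by
    intro Z hZ hZU
    refine isClosed_of_closure_subset fun x hx => ?_
    have hxZ : x ∈ Z := hZ.closure_subset_iff.2 inter_subset_left hx
    refine ⟨hxZ, (hYm x).2 fun k hxk => ?_⟩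
    by_contra hne
    have hlt : |(b k).u x| < 1 :=
      lt_of_le_of_ne (abs_le.2 ((hok k).urange x hxk)) hne
    have hn : Yᶜ ∈ 𝓝[⋃ a, X a] x := by
      rw [nhdsWithin_iUnion, mem_iSup]
      intro a
      by_cases hxa : x ∈ X a
      · obtain ⟨l, rfl, hxl⟩ := hsat k a x hxk hxa
        have hlt' : |(b l).u x| < 1 := by rwa [match_abs (hm k l) hxk hxl]
        have h1 := (hb l).2.2 x hxl hlt'
        have h2 : ∀ᶠ y in 𝓝[(b l).B] x, |(b l).u y| < 1 :=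
          ((hok l).upl.1 x hxl).abs.eventually (gt_mem_nhds hlt')
        filter_upwards [h1, nhdsWithin_le_iff.2 h1 h2] with y hy hy'
        exact fun hyY => hy'.ne ((hYm y).1 hyY l hy)
      · rw [notMem_closure_iff_nhdsWithin_eq_bot.1 (by rwa [(hX a).1.isClosed.closure_eq])]
        exact mem_bot
    have : NeBot (𝓝[Z ∩ Y] x) := mem_closure_iff_nhdsWithin_neBot.1 hx
    obtain ⟨y, hy1, hy2⟩ := Filter.nonempty_of_mem (inter_mem
      (nhdsWithin_mono x (inter_subset_left.trans hZU) hn)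
      (self_mem_nhdsWithin (a := x) (s := Z ∩ Y)))
    exact hy1 hy2.2
  have hPU : P ⊆ ⋃ a, X a := hU ▸ subset_union_left
  have hNU : N ⊆ ⋃ a, X a := hU ▸ subset_union_right
  have habs : ∀ x ∈ Y, |g.u x| = 1 := by
    intro x hx
    by_cases hxB : x ∈ g.B
    · obtain ⟨k, hk⟩ := mem_iUnion.1 hxB
      rw [gu k x hk, sabs (hε k), (hYm x).1 hx k hk]
    · rw [gout x hxB]
      split_ifs <;> simp
  have hYP : ∀ x ∈ P ∩ Y, g.u x = 1 := fun x hx => by
    rw [← habs x hx.2, abs_of_nonneg ((hside x (hPU hx.1)).1.2 hx.1)]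
  have hYN : ∀ x ∈ N ∩ Y, g.u x = -1 := fun x hx => by
    rw [← habs x hx.2, abs_of_nonpos ((hside x (hNU hx.1)).2.2 hx.1), neg_neg]
  have hcov : ∀ x ∈ ⋃ a, X a, x ∈ g.B ∪ (P ∩ Y ∪ N ∩ Y) := by
    intro x hx
    by_cases hxB : x ∈ g.B
    · exact Or.inl hxB
    · have hxY : x ∈ Y := (hYm x).2 fun k hk => (hxB (mem_iUnion.2 ⟨k, hk⟩)).elim
      rw [← hU] at hx
      exact Or.inr (hx.imp (fun h => ⟨h, hxY⟩) fun h => ⟨h, hxY⟩)
  have hgU : g.B ⊆ ⋃ a, X a := iUnion_subset hBU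
  have c1 := hYcl P hP.isClosed hPU
  have c2 := hYcl N hN.isClosed hNU
  refine ⟨g, ⟨hgok, hgU, ?_, fun x _ hx => ?_⟩, rfl, fun k => ⟨ε k, hε k, fun x hx =>
    ⟨gu k x hx, fun s hsI => by rw [gM k x hx _ (smem (hε k) hsI), smul2 (hε k)]⟩⟩, hside,
    fun L Z hZ hZU hL => ?_⟩
  · have e : (⋃ a, X a) = g.B ∪ (P ∩ Y ∪ N ∩ Y) := Subset.antisymm hcov
      (union_subset hgU (union_subset (inter_subset_left.trans hPU)
        (inter_subset_left.trans hNU)))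
    rw [e]
    exact pl_union hgok.cpt.isClosed (c1.union c2) hgok.upl (pl_union c1 c2
      (A2.pl_congr (A2.pl_const (1:ℝ) (hPc.inter hYc).conicalSet) hYP)
      (A2.pl_congr (A2.pl_const (-1:ℝ) (hNc.inter hYc).conicalSet) hYN))
  · rw [gout x hx]
    split_ifs
    · exact Or.inl rfl
    · exact Or.inr rfl
  · have hfin : (range (fun k => (b k).B ∩ Z) ∪ {P ∩ Y ∩ Z, N ∩ Y ∩ Z}).Finite :=
      (finite_range _).union (toFinite _)
    have hconst : ∀ (T : Set E) (c : ℝ), (∀ x ∈ T, g.u x = c) → LipschitzOnWith L g.u T := by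
      intro T c h x hx y hy
      rw [h x hx, h y hy, edist_self]
      exact zero_le
    refine ⟨hfin.toFinset, fun T hT => ?_, fun x hx => ?_⟩
    · rw [Finite.mem_toFinset] at hT
      rcases hT with ⟨k, rfl⟩ | rfl | rfl
      · refine ⟨(hcl k).inter hZ, LipschitzOnWith.of_dist_le_mul fun x hx y hy => ?_⟩
        rw [gu k x hx.1, gu k y hy.1, Real.dist_eq, ← mul_sub, sabs (hε k), ← Real.dist_eq]
        exact (hL k).dist_le_mul x hx y hy
      · exact ⟨c1.inter hZ, hconst _ 1 fun x hx => hYP x hx.1⟩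
      · exact ⟨c2.inter hZ, hconst _ (-1) fun x hx => hYN x hx.1⟩
    · simp only [mem_iUnion, Finite.mem_toFinset, exists_prop]
      rcases hcov x (hZU hx) with h | h | h
      · obtain ⟨k, hk⟩ := mem_iUnion.1 h
        exact ⟨_, Or.inl ⟨k, rfl⟩, hk, hx⟩
      · exact ⟨_, Or.inr (Or.inl rfl), h, hx⟩
      · exact ⟨_, Or.inr (Or.inr rfl), h, hx⟩

end P073.Bd
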