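import Vale.Agent.P073Y.Bd.Sk
import Vale.Agent.P073Z.A12

/-!
# The circles of a connected trace bound discs which tile the wall
-/

open Set Metric Topology Filter

namespace P073.Bd

namespace Tile

open A12

theorem local_out {Δ N : Set (ℝ × ℝ)} {x : ℝ × ℝ} (hΔ : AmbDisc Δ) (hx : x ∈ frontier Δ)
    (hN : N ∈ 𝓝 x) : ∃ U, IsOpen U ∧ x ∈ U ∧ U ⊆ N ∧ IsPreconnected (U ∩ Δᶜ) := by
  have hJ := hΔ.frontier_isCircle
  obtain ⟨p, hp, hxp⟩ := circle_other_point hJ x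
  obtain ⟨A, A', hA, -, hu, -⟩ := circle_arcs hJ hx hp hxp
  obtain ⟨q, hq, hq'⟩ := arc_inner_nonempty hA
  rw [mem_insert_iff, mem_singleton_iff, not_or] at hq'
  obtain ⟨A₁, A₂, h₁, h₂, hu', hi⟩ := circle_arcs hJ hp (hu ▸ Or.inl hq) (Ne.symm hq'.2)
  have hx' : x ∉ ({p, q} : Set (ℝ × ℝ)) := by
    rw [mem_insert_iff, mem_singleton_iff, not_or]
    exact ⟨hxp, Ne.symm hq'.1⟩
  rcases (hu' ▸ hx : x ∈ A₁ ∪ A₂) with h | h
  · exact local_outside hΔ h₂ h₁ (by rw [inter_comm, hi]) (by rw [union_comm, hu']) ⟨h, hx'⟩ hN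
  · exact local_outside hΔ h₁ h₂ hi.le hu'.symm ⟨h, hx'⟩ hN

theorem local_in {Δ N : Set (ℝ × ℝ)} {x : ℝ × ℝ} (hΔ : AmbDisc Δ) (hN : N ∈ 𝓝 x) :
    ∃ U, IsOpen U ∧ x ∈ U ∧ U ⊆ N ∧ IsPreconnected (U ∩ interior Δ) := by
  obtain ⟨Φ, rfl⟩ := hΔ
  obtain ⟨a, rfl⟩ : ∃ a, Φ.toFun a = x := ⟨Φ.invFun x, Φ.right_inv (mem_univ x)⟩
  obtain ⟨r, hr, hrN⟩ := Metric.nhds_basis_ball.mem_iff.1
    (Φ.continuous.continuousAt.preimage_mem_nhds hN)
  refine ⟨Φ.toFun '' ball a r, Φ.toHomeomorph.isOpenMap _ isOpen_ball,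
    mem_image_of_mem _ (mem_ball_self hr), image_subset_iff.2 hrN, ?_⟩
  rw [← Φ.image_interior, interior_closedBall _ one_ne_zero, ← image_inter Φ.injective]
  exact ((convex_ball _ _).inter (convex_ball _ _)).isPreconnected.image _
    Φ.continuous.continuousOn

variable {T : Type} [TopologicalSpace T]

/-- one side of a curve lies near a point in the open set or off the closed set -/
theorem side_alt {S P P₀ J : Set T} {x : T} (hP : IsClosed P) (ho : IsOpen P₀) (h0 : P₀ ⊆ P)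
    (hS : Disjoint S J) (hl : ∀ N ∈ 𝓝 x, ∃ U, IsOpen U ∧ x ∈ U ∧ U ⊆ N ∧ IsPreconnected (U ∩ S))
    (hx : ∀ᶠ y in 𝓝 x, y ∈ P → y ∈ P₀ ∨ y ∈ J) :
    (∀ᶠ y in 𝓝 x, y ∈ S → y ∈ P₀) ∨ ∀ᶠ y in 𝓝 x, y ∈ S → y ∉ P := by
  obtain ⟨U, hU, hxU, hUN, hc⟩ := hl _ hx
  have hcov : U ∩ S ⊆ P₀ ∪ Pᶜ := fun y hy => by
    by_cases h : y ∈ P
    · exact Or.inl ((hUN hy.1 h).resolve_right (disjoint_left.1 hS hy.2))
    · exact Or.inr h
  rcases hc.subset_or_subset ho hP.isOpen_compl (disjoint_compl_right.mono_left h0) hcov with h | h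
  · exact Or.inl (eventually_of_mem (hU.mem_nhds hxU) fun y hy hS => h ⟨hy, hS⟩)
  · exact Or.inr (eventually_of_mem (hU.mem_nhds hxU) fun y hy hS => h ⟨hy, hS⟩)

/-- a connected set does not leave a locally closed alternative -/
theorem all_of {S : Set T} {p : T → Prop} (hS : IsPreconnected S) {a : T} (ha : a ∈ S) (hp : p a)
    (h1 : ∀ x ∈ S, p x → ∀ᶠ y in 𝓝 x, y ∈ S → p y)
    (h2 : ∀ x ∈ S, ¬ p x → ∀ᶠ y in 𝓝 x, y ∈ S → ¬ p y) : ∀ x ∈ S, p x := by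
  rcases isPreconnected_iff_subset_of_disjoint.1 hS {x | ∀ᶠ y in 𝓝 x, y ∈ S → p y}
    {x | ∀ᶠ y in 𝓝 x, y ∈ S → ¬ p y} isOpen_setOfPred_eventually_nhds
    isOpen_setOfPred_eventually_nhds
    (fun x hx => (em (p x)).imp (h1 x hx) (h2 x hx))
    (eq_empty_of_forall_notMem fun x hx =>
      Eventually.self_of_nhds hx.2.2 hx.1 (Eventually.self_of_nhds hx.2.1 hx.1)) with h | h
  · exact fun x hx => Eventually.self_of_nhds (h hx) hx
  · exact absurd hp (Eventually.self_of_nhds (h ha) ha)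

/-- one circle -/
theorem one {Q Γ Δ P P₀ : Set (ℝ × ℝ)} (hQ : AmbDisc Q) (hB : frontier Q ⊆ Γ) (hΓ : Γ ⊆ Q)
    (hc : IsPreconnected Γ) (hΔ : AmbDisc Δ) (hJ : frontier Δ ⊆ Γ) (hP : IsClosed P)
    (h0 : P₀ ⊆ P) (hPQ : P ⊆ Q) (ho : IsOpen P₀) (hd : Disjoint P₀ Γ)
    (hx : ∀ x ∈ frontier Δ, x ∈ closure P₀ ∧ ∀ᶠ y in 𝓝 x, y ∈ P → y ∈ P₀ ∨ y ∈ frontier Δ) :
    Δ ∩ Γ = frontier Δ ∧ ∀ x ∈ frontier Δ, (∀ᶠ y in 𝓝 x, y ∈ P → y ∈ Δ) ∧
      ∀ᶠ y in 𝓝 x, y ∈ interior Δ → y ∈ P₀ := by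
  have hΔQ : Δ ⊆ Q := ambDisc_subset hQ hΔ (hJ.trans hΓ)
  have hfΔ : frontier Δ ⊆ Δ := hΔ.isClosed.frontier_subset
  have hint : ∀ {y}, y ∈ Δ → y ∉ frontier Δ → y ∈ interior Δ := fun h1 h2 =>
    ambDisc_sdiff_frontier hΔ ▸ (⟨h1, h2⟩ : _ ∈ Δ \ frontier Δ)
  have hJc := circle_isConnected hΔ.frontier_isCircle
  obtain ⟨a, ha⟩ := hJc.nonempty
  have hout : ∀ x ∈ frontier Δ, (∀ᶠ y in 𝓝 x, y ∈ Δᶜ → y ∈ P₀) ∨ ∀ᶠ y in 𝓝 x, y ∈ Δᶜ → y ∉ P :=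
    fun x h => side_alt hP ho h0 (disjoint_compl_left.mono_right hfΔ)
      (fun N hN => local_out hΔ h hN) (hx x h).2
  have hin : ∀ x ∈ frontier Δ, (∀ᶠ y in 𝓝 x, y ∈ interior Δ → y ∈ P₀) ∨
      ∀ᶠ y in 𝓝 x, y ∈ interior Δ → y ∉ P :=
    fun x h => side_alt hP ho h0 disjoint_interior_frontier (fun N hN => local_in hΔ hN) (hx x h).2
  have hno : ¬ ∀ x ∈ frontier Δ, ∀ᶠ y in 𝓝 x, y ∈ Δᶜ → y ∈ P₀ := by
    intro h
    have h1 : ∀ x ∈ Γ, x ∈ Δ := by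
      refine all_of hc (hJ ha) (hfΔ ha) (fun x _ hxΔ => ?_) fun x _ hxΔ => ?_
      · by_cases hf : x ∈ frontier Δ
        · filter_upwards [h x hf] with y hy hyΓ
          by_contra hn
          exact disjoint_left.1 hd (hy hn) hyΓ
        · filter_upwards [mem_interior_iff_mem_nhds.1 (hint hxΔ hf)] with y hy _ using hy
      · filter_upwards [hΔ.isClosed.isOpen_compl.mem_nhds hxΔ] with y hy _ using hy
    obtain ⟨b, hb⟩ := (circle_isConnected hQ.frontier_isCircle).nonempty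
    have hb1 : b ∈ frontier Δ := by
      by_contra hn
      exact disjoint_left.1 disjoint_interior_frontier (interior_mono hΔQ (hint (h1 b (hB hb)) hn)) hb
    have hb2 : b ∈ closure Qᶜ := by
      rw [frontier_eq_closure_inter_closure] at hb
      exact hb.2
    obtain ⟨y, hy1, hy2⟩ := ((mem_closure_iff_frequently.1 hb2).and_eventually (h b hb1)).exists
    exact hy1 (hPQ (h0 (hy2 fun h' => hy1 (hΔQ h'))))
  have hexcl : ∀ x ∈ frontier Δ, (∀ᶠ y in 𝓝 x, y ∈ Δᶜ → y ∈ P₀) →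
      ¬ ∀ᶠ y in 𝓝 x, y ∈ Δᶜ → y ∉ P := by
    intro x h h1 h2
    rw [frontier_eq_closure_inter_closure] at h
    obtain ⟨y, hy1, hy2, hy3⟩ :=
      ((mem_closure_iff_frequently.1 h.2).and_eventually (h1.and h2)).exists
    exact hy3 hy1 (h0 (hy2 hy1))
  have hyes : ∀ x ∈ frontier Δ, ∀ᶠ y in 𝓝 x, y ∈ Δᶜ → y ∉ P := by
    push Not at hno
    obtain ⟨b, hb, hb'⟩ := hno
    refine all_of (p := fun x => ∀ᶠ y in 𝓝 x, y ∈ Δᶜ → y ∉ P) hJc.isPreconnected hb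
      ((hout b hb).resolve_left (by simpa using hb')) (fun x _ h => ?_) fun x hx' h => ?_
    · filter_upwards [h.eventually_nhds] with y hy _ using hy
    · filter_upwards [((hout x hx').resolve_right h).eventually_nhds] with y hy hyf
      exact hexcl y hyf hy
  have hins : ∀ x ∈ frontier Δ, ∀ᶠ y in 𝓝 x, y ∈ interior Δ → y ∈ P₀ := by
    intro x h
    refine (hin x h).resolve_right fun h1 => ?_
    obtain ⟨y, hy1, hy2, hy3⟩ :=
      ((mem_closure_iff_frequently.1 (hx x h).1).and_eventually (h1.and (hyes x h))).exists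
    by_cases hy : y ∈ Δ
    · exact hy2 (hint hy fun hf => disjoint_left.1 hd hy1 (hJ hf)) (h0 hy1)
    · exact hy3 hy (h0 hy1)
  refine ⟨Subset.antisymm (fun x hx' => ?_) (subset_inter hfΔ hJ), fun x h => ⟨?_, hins x h⟩⟩
  · have h1 : ∀ x ∈ Γ, x ∉ interior Δ := by
      refine all_of hc (hJ ha) (fun h => disjoint_left.1 disjoint_interior_frontier h ha)
        (fun x _ hxΔ => ?_) fun x _ hxΔ => ?_
      · by_cases hf : x ∈ frontier Δ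
        · filter_upwards [hins x hf] with y hy hyΓ hn
          exact disjoint_left.1 hd (hy hn) hyΓ
        · filter_upwards [hΔ.isClosed.isOpen_compl.mem_nhds fun h => hxΔ (hint h hf)] with y hy _ hn
          exact hy (interior_subset hn)
      · filter_upwards [isOpen_interior.mem_nhds (not_not.1 hxΔ)] with y hy _ hn using hn hy
    by_contra hn
    exact h1 x hx'.2 (hint hx'.1 hn)
  · filter_upwards [hyes x h] with y hy hyP
    by_contra hn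
    exact hy hn hyP

/-- the planar case -/
theorem plane {κ : Type} [Finite κ] {Q Γ : Set (ℝ × ℝ)} (J P P₀ : κ → Set (ℝ × ℝ))
    (hQ : AmbDisc Q) (hB : frontier Q ⊆ Γ) (hΓ : Γ ⊆ Q) (hc : IsPreconnected Γ)
    (hJ : ∀ k, IsCircle (J k) ∧ J k ⊆ Γ ∧ IsClosed (P k) ∧ P₀ k ⊆ P k ∧ P k ⊆ Q ∧
      (∀ x ∈ P₀ k, P₀ k ∈ 𝓝[Q] x ∧ x ∉ Γ) ∧
      ∀ x ∈ J k, x ∈ closure (P₀ k) ∧ ∀ᶠ y in 𝓝 x, y ∈ P k → y ∈ P₀ k ∨ y ∈ J k)
    (hcov : ∀ x ∈ Γ, ∀ᶠ y in 𝓝 x, y ∈ Q → ∃ k, x ∈ J k ∧ y ∈ P k)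
    (hd : ∀ k l, k ≠ l → J k = J l → Disjoint (P₀ k) (P₀ l)) :
    ∃ Δ : κ → Set (ℝ × ℝ), (∀ k, AmbDisc (Δ k) ∧ frontier (Δ k) = J k ∧ Δ k ⊆ Q ∧
      Δ k ∩ Γ = J k) ∧ ⋃ k, Δ k = Q ∧ ∀ k l, k ≠ l → Δ k ∩ Δ l ⊆ J k := by
  choose Δ hΔ hf using fun k => SCH.schoenflies (hJ k).1
  have hsub : ∀ k, Δ k ⊆ Q := fun k => ambDisc_subset hQ (hΔ k) (hf k ▸ (hJ k).2.1.trans hΓ)
  have key : ∀ k, Δ k ∩ Γ = J k ∧ ∀ x ∈ J k, (∀ᶠ y in 𝓝 x, y ∈ P k → y ∈ Δ k) ∧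
      ∀ᶠ y in 𝓝 x, y ∈ interior (Δ k) → y ∈ P₀ k := by
    intro k
    obtain ⟨-, h2, h3, h4, h5, h6, h7⟩ := hJ k
    rw [← hf k] at h2 h7 ⊢
    refine one hQ hB hΓ hc (hΔ k) h2 h3 h4 h5 (isOpen_iff_mem_nhds.2 fun x hx => ?_)
      (disjoint_left.2 fun x hx => (h6 x hx).2) h7
    have h8 : x ∈ interior Q := ambDisc_sdiff_frontier hQ ▸
      (⟨h5 (h4 hx), fun h => (h6 x hx).2 (hB h)⟩ : x ∈ Q \ frontier Q)
    have h9 := (h6 x hx).1
    rwa [nhdsWithin_eq_nhds.2 (mem_interior_iff_mem_nhds.1 h8)] at h9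
  have hint : ∀ k {y}, y ∈ Δ k → y ∉ J k → y ∈ interior (Δ k) := fun k _ h1 h2 =>
    ambDisc_sdiff_frontier (hΔ k) ▸ (⟨h1, hf k ▸ h2⟩ : _ ∈ Δ k \ frontier (Δ k))
  have hJΔ : ∀ k, J k ⊆ Δ k := fun k => hf k ▸ (hΔ k).isClosed.frontier_subset
  have hni : ∀ k, ∀ y ∈ interior (Δ k), y ∉ Γ := fun k y hy hyΓ =>
    disjoint_left.1 disjoint_interior_frontier hy
      (hf k ▸ (key k).1 ▸ (⟨interior_subset hy, hyΓ⟩ : y ∈ Δ k ∩ Γ))
  refine ⟨Δ, fun k => ⟨hΔ k, hf k, hsub k, (key k).1⟩,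
    Subset.antisymm (iUnion_subset hsub) ?_, fun k l hkl x hx => ?_⟩
  · obtain ⟨b, hb⟩ := (circle_isConnected hQ.frontier_isCircle).nonempty
    obtain ⟨k₀, hk₀, -⟩ := (hcov b (hB hb)).self_of_nhds (hΓ (hB hb))
    have hQc : IsPreconnected Q := hQ.closure_interior ▸ hQ.isConnected_interior.isPreconnected.closure
    refine all_of (p := fun x => x ∈ ⋃ k, Δ k) hQc (hΓ (hB hb)) (mem_iUnion.2 ⟨k₀, hJΔ k₀ hk₀⟩)
      (fun x _ hx => ?_) fun x _ hx => ?_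
    · obtain ⟨k, hk⟩ := mem_iUnion.1 hx
      by_cases hxJ : x ∈ J k
      · have h1 : ∀ᶠ y in 𝓝 x, ∀ l, x ∈ J l → y ∈ P l → y ∈ Δ l := eventually_all.2 fun l => by
          by_cases h : x ∈ J l
          · filter_upwards [((key l).2 x h).1] with y hy _ using hy
          · exact Eventually.of_forall fun y h' => absurd h' h
        filter_upwards [hcov x ((hJ k).2.1 hxJ), h1] with y hy1 hy2 hyQ
        obtain ⟨l, hl1, hl2⟩ := hy1 hyQ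
        exact mem_iUnion.2 ⟨l, hy2 l hl1 hl2⟩
      · filter_upwards [mem_interior_iff_mem_nhds.1 (hint k hk hxJ)] with y hy _
        exact mem_iUnion.2 ⟨k, hy⟩
    · filter_upwards [(isClosed_iUnion_of_finite fun k => (hΔ k).isClosed).isOpen_compl.mem_nhds hx]
        with y hy _ using hy
  · by_contra hn
    have h1 := hint k hx.1 hn
    rcases subset_interior_or_compl (D := Δ l) (hΔ k).isConnected_interior.isPreconnected
      (disjoint_left.2 fun y hy hy' => hni k y hy ((hJ l).2.1 (hf l ▸ hy'))) with h | h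
    · have h2 : Δ k ⊆ Δ l := by
        rw [← (hΔ k).closure_interior]
        exact closure_minimal (h.trans interior_subset) (hΔ l).isClosed
      have h3 : J k = J l := circle_eq_of_subset (hJ k).1 (hJ l).1 fun y hy =>
        (key l).1 ▸ (⟨h2 (hJΔ k hy), (hJ k).2.1 hy⟩ : y ∈ Δ l ∩ Γ)
      obtain ⟨a, ha⟩ := (circle_isConnected (hJ k).1).nonempty
      have h4 : a ∈ closure (interior (Δ k)) := (hΔ k).closure_interior.symm ▸ hJΔ k ha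
      obtain ⟨y, hy1, hy2, hy3⟩ := ((mem_closure_iff_frequently.1 h4).and_eventually
        (((key k).2 a ha).2.and ((key l).2 a (h3 ▸ ha)).2)).exists
      exact disjoint_left.1 (hd k l hkl h3) (hy2 hy1) (hy3 (h hy1))
    · exact h h1 (subset_closure hx.2)

end Tile

open A12 in
theorem tile : TILE := by
  intro E _ _ κ _ D B Γ J X X₀ hD hB hΓ hc hJ hcov hd
  obtain ⟨hBD, φ, hφ⟩ := conBall_two_iff.1 hD
  have hJD : ∀ k, J k ⊆ D := fun k => (hJ k).2.1.trans hΓ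
  have ev : ∀ {p : E → Prop}, ∀ x ∈ D, (∀ᶠ y in 𝓝 x, p y) →
      ∀ᶠ z in 𝓝 (φ.toFun x), z ∈ closedBall (0 : ℝ × ℝ) 1 → p (φ.invFun z) := by
    intro p x hx h
    have h1 := φ.cont_inv _ (φ.mapsTo hx)
    rw [ContinuousWithinAt, φ.left_inv hx] at h1
    exact eventually_nhdsWithin_iff.1 (h1.eventually h)
  obtain ⟨Δ, h1, h2, h3⟩ := Tile.plane (Γ := φ.toFun '' Γ) (fun k => φ.toFun '' J k)
    (fun k => φ.toFun '' (D ∩ X k)) (fun k => φ.toFun '' (D ∩ X₀ k)) ambDisc_square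
    (by rw [frontier_square, ← hφ]; exact image_mono hB) (φ.imgSubD hΓ)
    (hc.image _ (φ.cont.mono hΓ))
    (fun k => by
      obtain ⟨a1, a2, a3, a4, a5, a6⟩ := hJ k
      refine ⟨circle_image a1 φ (hJD k), image_mono a2,
        ((hD.isCompact.inter_right a3).image_of_continuousOn
          (φ.cont.mono inter_subset_left)).isClosed,
        image_mono (inter_subset_inter_right _ a4), φ.imgSubD inter_subset_left, ?_, ?_⟩
      · rintro _ ⟨x, hx, rfl⟩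
        refine ⟨?_, fun h => (a5 x hx).2 ((φ.memImgD hΓ hx.1).1 h)⟩
        have b1 := ev x hx.1 (eventually_nhdsWithin_iff.1 (a5 x hx).1)
        refine eventually_nhdsWithin_iff.2 (b1.mono fun z hz hzQ => ?_)
        exact ⟨_, ⟨φ.mapsTo_inv hzQ, hz hzQ (φ.mapsTo_inv hzQ)⟩, φ.right_inv hzQ⟩
      · rintro _ ⟨x, hx, rfl⟩
        refine ⟨((φ.cont x (hJD k hx)).mono inter_subset_left).mem_closure_image (a6 x hx).1, ?_⟩
        filter_upwards [ev x (hJD k hx) (a6 x hx).2]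
        rintro _ hz ⟨y, hy, rfl⟩
        have b1 := hz (φ.mapsTo hy.1)
        rw [φ.left_inv hy.1] at b1
        exact (b1 hy.1 hy.2).imp (fun h => mem_image_of_mem _ ⟨hy.1, h⟩) (mem_image_of_mem _))
    (by
      rintro _ ⟨x, hx, rfl⟩
      filter_upwards [ev x (hΓ hx) (hcov x hx)] with z hz hzQ
      obtain ⟨k, hk1, hk2⟩ := hz hzQ (φ.mapsTo_inv hzQ)
      exact ⟨k, mem_image_of_mem _ hk1, _, ⟨φ.mapsTo_inv hzQ, hk2⟩, φ.right_inv hzQ⟩)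
    (fun k l hkl h => by
      have b1 : J k = J l := by rw [← φ.invImgD (hJD k), ← φ.invImgD (hJD l), h]
      refine disjoint_left.2 ?_
      rintro _ ⟨x, hx, rfl⟩ h'
      exact disjoint_left.1 (hd k l hkl b1) hx.2 ((φ.memImgD inter_subset_left hx.1).1 h').2)
  refine ⟨fun k => φ.invFun '' Δ k, fun k => ⟨?_, ?_⟩, ?_, fun k l hkl x hx => ?_⟩
  · have := (h1 k).1.conBallD.image φ.symm (h1 k).2.2.1
    rwa [(h1 k).2.1, ConHomeo.symm_toFun, φ.invImgD (hJD k)] at this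
  · ext x
    rw [mem_inter_iff, φ.memInvD (h1 k).2.2.1]
    constructor
    · rintro ⟨⟨hx, hx'⟩, hxΓ⟩
      exact (φ.memImgD (hJD k) hx).1 ((h1 k).2.2.2 ▸
        (⟨hx', mem_image_of_mem _ hxΓ⟩ : φ.toFun x ∈ Δ k ∩ φ.toFun '' Γ))
    · intro hx
      have : φ.toFun x ∈ Δ k ∩ φ.toFun '' Γ := (h1 k).2.2.2.symm ▸ mem_image_of_mem _ hx
      exact ⟨⟨hJD k hx, this.1⟩, (hJ k).2.1 hx⟩
  · rw [← image_iUnion, h2]
    exact φ.symm.image_eq
  · have b1 := (φ.memInvD (h1 k).2.2.1).1 hx.1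
    have b2 := (φ.memInvD (h1 l).2.2.1).1 hx.2
    exact (φ.memImgD (hJD k) b1.1).1 (h3 k l hkl ⟨b1.2, b2.2⟩)

end P073.Bd
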