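import Vale.Agent.P073Y.Bd.Sk
import Vale.Agent.P073Z.A14
import Vale.Agent.P073Z.TriU

/-!
# Generic levels of a PL function on a cell complex
-/

open Set Metric Topology Filter

namespace P073.Bd

namespace Gn

variable {E : Type} [NormedAddCommGroup E] [NormedSpace ℝ E]

theorem icc_fin {g : ℝ → ℝ} (hg : PLOn g (Icc 0 1)) :
    ∀ᶠ t in cofinite, {x ∈ Icc (0 : ℝ) 1 | g x = t}.Finite := by
  obtain ⟨𝒮, -, h2, h3⟩ := stm isCompact_Icc (locCone_Icc 0 1) hg
  choose! A hA using h3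
  filter_upwards [(𝒮.finite_toSet.image fun s => A s 0).compl_mem_cofinite] with t ht
  refine (𝒮.finite_toSet.biUnion (t := fun s => {x | A s x = t}) fun s hs => ?_).subset ?_
  · have e : ∀ x : ℝ, A s x = A s 0 + x * (A s).linear 1 := fun x => by
      simpa using A14.aff_line (A s) 0 1 x
    refine Set.Subsingleton.finite fun x hx y hy => by_contra fun hn => ht ⟨s, hs, ?_⟩
    have h0 : (x - y) * (A s).linear 1 = 0 := by
      linarith [e x, e y, show A s x = t from hx, show A s y = t from hy]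
    have h1 := e x
    rw [(mul_eq_zero.1 h0).resolve_left (sub_ne_zero.2 hn), mul_zero, add_zero] at h1
    exact h1.symm.trans hx
  · rintro x ⟨hx, hxt⟩
    obtain ⟨s, hs, hxs⟩ := mem_iUnion₂.1 (h2.subset hx)
    exact mem_biUnion hs ((hA s hs hxs).symm.trans hxt)

theorem arc_fin {X A : Set E} {p q : E} {f : E → ℝ} (hf : PLOn f X) (h : IsArc A p q)
    (hA : A ⊆ X) : ∀ᶠ t in cofinite, {x ∈ A | f x = t}.Finite := by
  obtain ⟨φ, -⟩ := h
  have hm : MapsTo φ.toFun (Icc 0 1) X := φ.mapsTo.mono_right hA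
  filter_upwards [icc_fin ⟨hf.1.comp φ.cont hm, hf.2.comp φ.conical hm φ.cont⟩] with t ht
  refine (ht.image φ.toFun).subset fun x hx => ⟨φ.invFun x, ⟨φ.mapsTo_inv hx.1, ?_⟩,
    φ.right_inv hx.1⟩
  rw [Function.comp, φ.right_inv hx.1, hx.2]

theorem lev_fin {X T S : Set E} {f : E → ℝ} (hf : PLOn f X) (h : Lev T S) (hT : T ⊆ X) :
    ∀ᶠ t in cofinite, {x ∈ T | f x = t}.Finite := by
  obtain ⟨𝒞, h1, -, h2⟩ := h
  have key : ∀ c ∈ 𝒞, ∀ᶠ t in cofinite, {x ∈ c | f x = t}.Finite := fun c hc => by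
    have hc' : c ⊆ X := (subset_biUnion_of_mem (u := fun c => c) hc).trans (h1.superset.trans hT)
    rcases h2 c hc with ⟨a, -⟩ | ⟨p, q, a, -⟩
    · obtain ⟨A, B, p, q, a1, a2, -, rfl⟩ := a.exists_arcs
      filter_upwards [arc_fin hf a1 (subset_union_left.trans hc'),
        arc_fin hf a2 (subset_union_right.trans hc')] with t b1 b2
      exact (b1.union b2).subset fun x hx => hx.1.imp (⟨·, hx.2⟩) (⟨·, hx.2⟩)
    · exact arc_fin hf a hc'
  filter_upwards [(eventually_all_finset 𝒞).2 key] with t ht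
  refine (𝒞.finite_toSet.biUnion ht).subset fun x hx => ?_
  obtain ⟨c, a1, a2⟩ := mem_iUnion₂.1 (h1.subset hx.1)
  exact mem_biUnion a1 ⟨a2, hx.2⟩

theorem ball_two {n : ℕ} {C B : Set E} {f : E → ℝ} (h : ConBall n C B) (hf : PLOn f C) :
    ∀ᶠ t in cofinite, ∀ x ∈ C, f x = t → x ∈ closure {y ∈ C \ B | f y = t} := by
  obtain ⟨hB, φ, hφ⟩ := h
  have hg : PLOn (f ∘ φ.invFun) (closedBall 0 1) :=
    ⟨hf.1.comp φ.cont_inv φ.mapsTo_inv, hf.2.comp φ.conical_inv φ.mapsTo_inv φ.cont_inv⟩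
  obtain ⟨K, h1, T, h2, h3⟩ := A14.exists_gen tri (isCompact_closedBall _ _)
    (locCone_closedBall_pi n 1) isClosed_closedBall (locCone_closedBall_pi n 1) Subset.rfl hg
  filter_upwards [h2.compl_mem_cofinite] with t ht x hx hxt
  have hz := φ.mapsTo hx
  obtain ⟨a1, a2⟩ := (h3 t ht).closure h1 Subset.rfl hz
    (by rw [Function.comp, φ.left_inv hx, hxt])
  have a3 : φ.toFun x ∈ closure {y ∈ ball 0 1 | (f ∘ φ.invFun) y = t} := by
    refine Metric.mem_closure_iff.2 fun ε hε => ?_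
    have key : ∀ J : Set ℝ, IsOpen J →
        φ.toFun x ∈ closure {y ∈ closedBall 0 1 | (f ∘ φ.invFun) y ∈ J} →
        ∃ y ∈ ball (φ.toFun x) ε ∩ ball 0 1, (f ∘ φ.invFun) y ∈ J := fun J hJ hc => by
      obtain ⟨y, ⟨b1, b2⟩, b3⟩ := Metric.mem_closure_iff.1 hc ε hε
      have : (𝓝[ball 0 1] y).NeBot :=
        mem_closure_iff_nhdsWithin_neBot.1 (by rwa [closure_ball _ one_ne_zero])
      obtain ⟨w, c1, c2, c3⟩ := (Eventually.and
        (((hg.1 y b1).mono ball_subset_closedBall).eventually (hJ.mem_nhds b2))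
        (Eventually.and (mem_nhdsWithin_of_mem_nhds (isOpen_ball.mem_nhds (mem_ball'.2 b3)))
          self_mem_nhdsWithin)).exists
      exact ⟨w, ⟨c2, c3⟩, c1⟩
    obtain ⟨y, b1, b2⟩ := key _ isOpen_Ioi a1
    obtain ⟨y', b3, b4⟩ := key _ isOpen_Iio a2
    obtain ⟨w, c1, c2⟩ := IsPreconnected.intermediate_value
      ((convex_ball _ _).inter (convex_ball _ _)).isPreconnected b3 b1
      (hg.1.mono (inter_subset_right.trans ball_subset_closedBall)) ⟨le_of_lt b4, le_of_lt b2⟩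
    exact ⟨w, ⟨c1.2, c2⟩, mem_ball'.1 c1.1⟩
  rw [← φ.left_inv hx]
  refine closure_mono ?_ (((φ.cont_inv _ hz).mono
    fun y hy => ball_subset_closedBall hy.1).mem_closure_image a3)
  rintro _ ⟨y, ⟨b1, b2⟩, rfl⟩
  refine ⟨⟨φ.mapsTo_inv (ball_subset_closedBall b1), fun hb => ?_⟩, b2⟩
  have := hφ.subset (mem_image_of_mem _ hb)
  rw [φ.right_inv (ball_subset_closedBall b1)] at this
  exact (mem_ball.1 b1).ne this

theorem skel_succ (K : RCx E) (k : ℕ) :
    K.skel (k + 1) ⊆ K.skel k ∪ ⋃ c, ⋃ (_ : K.dim c = k + 1), K.cell c := fun x hx => by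
  obtain ⟨c, h1, h2⟩ := K.mem_skel.1 hx
  rcases h1.eq_or_lt with h | h
  · exact Or.inr (mem_iUnion₂.2 ⟨c, h, h2⟩)
  · exact Or.inl (K.mem_skel.2 ⟨c, Nat.lt_succ_iff.1 h, h2⟩)

omit [NormedAddCommGroup E] [NormedSpace ℝ E] in
theorem disj_of {Z Y W : Set E} {f : E → ℝ} (h : W.Finite) (hW : Z ∩ Y ⊆ W) :
    ∀ᶠ t in cofinite, Disjoint {x ∈ Z | f x = t} Y := by
  filter_upwards [(h.image f).compl_mem_cofinite] with t ht
  exact disjoint_left.2 fun x hx hy => ht ⟨x, hW ⟨hx.1, hy⟩, hx.2⟩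

theorem fin_succ (K : RCx E) [Finite K.ι] {k : ℕ} {T : Set E} (h1 : Disjoint T (K.skel k))
    (h2 : ∀ c, K.dim c = k + 1 → (T ∩ K.cell c).Finite) : (T ∩ K.skel (k + 1)).Finite := by
  refine (finite_iUnion fun c => finite_iUnion (h2 c)).subset fun x hx => ?_
  obtain ⟨c, a1, a2⟩ := mem_iUnion₂.1
    ((skel_succ K k hx.2).resolve_left (disjoint_left.1 h1 hx.1))
  exact mem_iUnion₂.2 ⟨c, a1, hx.1, a2⟩

end Gn

open Gn in
theorem gen : GEN := by
  intro K _ f hf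
  have hc : ∀ c, PLOn f (K.cell c) := fun c => ⟨hf.1.mono (K.cell_subset_carrier c),
    hf.2.mono (K.ball c).conicalSet (K.cell_subset_carrier c)⟩
  have key : ∀ {P : ℝ → Prop}, (∀ᶠ t in cofinite, P t) → ∃ T : Set ℝ, T.Finite ∧ ∀ t, t ∉ T → P t :=
    fun h => ⟨_, h, fun _ ht => not_not.1 ht⟩
  have e : ∀ c t, {x ∈ K.carrier | f x = t} ∩ K.cell c = {x ∈ K.cell c | f x = t} := fun c t =>
    Set.ext fun x => ⟨fun h => ⟨h.2, h.1.2⟩, fun h => ⟨⟨K.cell_subset_carrier c h.1, h.2⟩, h.1⟩⟩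
  refine ⟨key ?_, fun Z hZ => key ?_⟩
  · have h0 : (K.skel 0).Finite := finite_iUnion fun c => finite_iUnion fun h => by
      obtain ⟨a, ha⟩ := K.exists_vertex (Nat.le_zero.1 h)
      rw [ha]
      exact finite_singleton a
    have h1 : ∀ c, ∀ᶠ t in cofinite, K.dim c = 0 + 1 →
        ({x ∈ K.carrier | f x = t} ∩ K.cell c).Finite := fun c => eventually_imp_distrib_left.2
      fun h => by
        obtain ⟨p, q, -, -, a, -⟩ := K.exists_edge h
        simpa only [e] using arc_fin (hc c) a Subset.rfl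
    have h2 : ∀ c, ∀ᶠ t in cofinite, K.dim c = 2 →
        Lev ({x ∈ K.carrier | f x = t} ∩ K.cell c) (K.bd c) := fun c =>
      eventually_imp_distrib_left.2 fun h => by
        obtain ⟨T, a1, a2⟩ := p4 (h ▸ K.ball c) (hc c)
        filter_upwards [a1.compl_mem_cofinite] with t ht
        rw [e]
        exact (a2 t ht).1
    filter_upwards [disj_of (Z := K.carrier) (f := f) h0 inter_subset_right, eventually_all.2 h1,
      eventually_all.2 h2, eventually_all.2 fun c => ball_two (K.ball c) (hc c)] with t a0 a1 a2 a3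
    refine ⟨a0, fin_succ K a0 a1, a2, fun c _ x hx => closure_mono ?_ (a3 c x hx.2 hx.1.2)⟩
    exact fun y hy => ⟨⟨K.cell_subset_carrier c hy.1.1, hy.2⟩, hy.1⟩
  · have h1 : ∀ c, ∀ᶠ t in cofinite, K.dim c = 1 + 1 →
        ({x ∈ Z | f x = t} ∩ K.cell c).Finite := fun c => eventually_imp_distrib_left.2 fun h =>
      (lev_fin (hc c) (hZ.lev c h) inter_subset_right).mono fun t ht =>
        ht.subset fun x hx => ⟨⟨hx.1.1, hx.2⟩, hx.1.2⟩
    filter_upwards [disj_of (f := f) hZ.fin Subset.rfl, eventually_all.2 h1] with t a0 a1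
    exact ⟨a0, fin_succ K a0 a1⟩

end P073.Bd
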