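import Vale.Agent.P073Y.Bd.Sk
import Vale.Agent.P073Z.A1
import Vale.Agent.P073Z.A2.PL

/-!
# Bands: elementary facts, first part
-/

open Set Metric Topology Filter

namespace P073.Bd

namespace Bas1

open A2

/-! ### the clamp -/

theorem cl_mem (t : ℝ) : cl t ∈ I :=
  ⟨le_max_left _ _, max_le (by norm_num) (min_le_right _ _)⟩

theorem cl_of_mem {t : ℝ} (h : t ∈ I) : cl t = t := by
  rw [cl, min_eq_left h.2, max_eq_right h.1]

theorem cl_of_ge {t : ℝ} (h : 1 ≤ t) : cl t = 1 := by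
  rw [cl, min_eq_right h, max_eq_right (by norm_num)]

theorem cl_of_le {t : ℝ} (h : t ≤ -1) : cl t = -1 := by
  rw [cl, max_eq_left ((min_le_left _ _).trans h)]

theorem cl_neg (t : ℝ) : cl (-t) = -cl t := by
  rcases le_total t (-1) with h | h
  · rw [cl_of_le h, cl_of_ge (by linarith), neg_neg]
  rcases le_total 1 t with h' | h'
  · rw [cl_of_ge h', cl_of_le (by linarith)]
  · rw [cl_of_mem ⟨h, h'⟩, cl_of_mem ⟨by linarith, by linarith⟩]

theorem cl_sgn {ε : ℝ} (h : ε = 1 ∨ ε = -1) (t : ℝ) : cl (ε * t) = ε * cl t := by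
  rcases h with rfl | rfl
  · rw [one_mul, one_mul]
  · rw [neg_one_mul, neg_one_mul, cl_neg]

theorem abs_cl_lt {t : ℝ} : |cl t| < 1 ↔ |t| < 1 := by
  rcases le_total t (-1) with h | h
  · rw [cl_of_le h, abs_lt, abs_lt]
    exact ⟨fun h' => absurd h'.1 (lt_irrefl _), fun h' => absurd h'.1 (not_lt.2 h)⟩
  rcases le_total 1 t with h' | h'
  · rw [cl_of_ge h', abs_lt, abs_lt]
    exact ⟨fun h' => absurd h'.2 (lt_irrefl _), fun h'' => absurd h''.2 (not_lt.2 h')⟩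
  · rw [cl_of_mem ⟨h, h'⟩]

theorem cl_eq_zero {t : ℝ} : cl t = 0 ↔ t = 0 := by
  refine ⟨fun h => ?_, fun h => by rw [h, cl_of_mem ⟨by norm_num, by norm_num⟩]⟩
  have h1 : |t| < 1 := abs_cl_lt.1 (by rw [h, abs_zero]; exact one_pos)
  rwa [cl_of_mem ⟨(abs_lt.1 h1).1.le, (abs_lt.1 h1).2.le⟩] at h

theorem half_mem {s : ℝ} (h : s ∈ I) : s / 2 ∈ I := ⟨by linarith [h.1], by linarith [h.2]⟩

theorem sgn_mem {ε s : ℝ} (h : ε = 1 ∨ ε = -1) (hs : s ∈ I) : ε * s ∈ I := by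
  rcases h with rfl | rfl
  · rwa [one_mul]
  · exact ⟨by linarith [hs.2], by linarith [hs.1]⟩

theorem sgn_sq {ε : ℝ} (h : ε = 1 ∨ ε = -1) (s : ℝ) : ε * (ε * s) = s := by
  rcases h with rfl | rfl <;> ring

variable {E : Type} [NormedAddCommGroup E] [NormedSpace ℝ E]

theorem pl_cl {X : Set E} {a : E → ℝ} (h : PLOn a X) : PLOn (fun x => cl (a x)) X :=
  pl_max (pl_const _ (pl_set h)) (pl_min h (pl_const _ (pl_set h)))

/-- preimages of closed polyhedra -/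
theorem cpt_pre {F : Type} [NormedAddCommGroup F] [NormedSpace ℝ F] {X : Set E} {Y : Set F}
    {h : E → F} (hX : IsCompact X) (hc : LocCone X) (hh : PLOn h X) (hY : IsClosed Y)
    (hY' : LocCone Y) : IsCompact (X ∩ h ⁻¹' Y) ∧ LocCone (X ∩ h ⁻¹' Y) := by
  have h1 : IsClosed (X ∩ h ⁻¹' Y) := hh.1.preimage_isClosed_of_isClosed hX.isClosed hY
  refine ⟨hX.of_isClosed_subset h1 inter_subset_left, fun x => ?_⟩
  by_cases hx : x ∈ X
  · exact pre hx (hc x) (hh.1 x hx) (hh.2 x hx) (hY' _)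
  · exact locConeAt_of_compl_mem_nhds (h1.isOpen_compl.mem_nhds fun h' => hx h'.1)

/-- the part of `X` between two levels -/
theorem cpt_Icc {X : Set E} {u : E → ℝ} (hX : IsCompact X) (hc : LocCone X) (hu : PLOn u X)
    (a b : ℝ) : IsCompact {x ∈ X | u x ∈ Icc a b} ∧ LocCone {x ∈ X | u x ∈ Icc a b} :=
  cpt_pre hX hc hu isClosed_Icc (locCone_Icc a b)

/-! ### the fields -/

omit [NormedAddCommGroup E] [NormedSpace ℝ E] in
theorem half_W : ∀ b : Band E, b.half.W = b.W := by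
  intro b
  ext x
  constructor
  · rintro ⟨h1, h2⟩
    exact ⟨h1.1, by linarith [cl_eq_zero.1 h2]⟩
  · rintro ⟨h1, h2⟩
    exact ⟨⟨h1, by rw [h2]; norm_num⟩, cl_eq_zero.2 (by rw [h2, mul_zero])⟩

omit [NormedAddCommGroup E] [NormedSpace ℝ E] in
theorem half_u {b : Band E} {x : E} (hx : x ∈ b.half.B) : b.half.u x = 2 * b.u x :=
  cl_of_mem ⟨by linarith [(abs_le.1 hx.2).1], by linarith [(abs_le.1 hx.2).2]⟩

theorem half_ok : ∀ {b : Band E}, b.Ok → b.half.Ok := by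
  intro b h
  have e : b.half.B = {x ∈ b.B | b.u x ∈ Icc (-(1 / 2)) (1 / 2)} :=
    Set.ext fun x => and_congr_right fun _ => abs_le
  have hc := cpt_Icc h.cpt h.loc h.upl (-(1 / 2)) (1 / 2)
  rw [← e] at hc
  have hs : ConicalSet (b.half.B ×ˢ I) :=
    conicalSet_prod hc.2.conicalSet (locCone_Icc _ _).conicalSet
  refine ⟨hc.1, hc.2, pl_mono (pl_cl (pl_mul 2 h.upl)) hc.2.conicalSet fun x hx => hx.1, ?_,
    fun x _ => cl_mem _, fun x hx s hs => ?_, fun x hx => ?_, fun x hx s hs t ht => ?_⟩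
  · have h1 : PLOn (fun q : E × ℝ => (q.1, q.2 / 2)) (b.half.B ×ˢ I) :=
      pl_prodMk (pl_fst hs) (pl_congr (pl_mul (1 / 2) (pl_snd hs)) fun q _ => by ring)
    exact pl_comp (g := b.M) h.Mpl h1 fun q hq => ⟨hq.1.1, half_mem hq.2⟩
  · obtain ⟨h1, h2⟩ := h.Mmem x hx.1 (s / 2) (half_mem hs)
    refine ⟨⟨h1, ?_⟩, ?_⟩
    · change |b.u (b.M (x, s / 2))| ≤ 1 / 2
      rw [h2, abs_le]
      constructor <;> linarith [hs.1, hs.2]
    · change cl (2 * b.u (b.M (x, s / 2))) = s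
      rw [h2, mul_div_cancel₀ _ two_ne_zero, cl_of_mem hs]
  · change b.M (x, b.half.u x / 2) = x
    rw [half_u hx, mul_div_cancel_left₀ _ two_ne_zero, h.Mid x hx.1]
  · exact h.MM x hx.1 _ (half_mem hs) _ (half_mem ht)

theorem half_in : ∀ {b : Band E} {X : Set E}, b.Ok → b.In X → b.half.In X := by
  intro b X h hi
  refine ⟨fun x hx => hi.1 hx.1, fun x hx hu => ?_⟩
  have h1 : |2 * b.u x| < 1 := abs_cl_lt.1 hu
  rw [abs_mul, abs_two] at h1
  have h2 : ∀ᶠ y in 𝓝[b.B] x, |b.u y| < 1 / 2 :=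
    Filter.Tendsto.eventually_lt_const (by linarith) (h.upl.1 x hx.1).abs
  refine nhdsWithin_le_of_mem (hi.2 x hx.1 (by linarith)) ?_
  filter_upwards [h2, self_mem_nhdsWithin] with y h3 h4 using ⟨h4, h3.le⟩

theorem half_on : ∀ {b : Band E} {X : Set E}, b.On X → b.half.On X := by
  intro b X h
  refine ⟨half_ok h.ok, fun x hx => h.sub hx.1, pl_cl (pl_mul 2 h.upl), fun x hx hn => ?_⟩
  by_cases hb : x ∈ b.B
  · rcases lt_abs.1 (not_le.1 fun h' => hn ⟨hb, h'⟩) with h1 | h1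
    exacts [Or.inl (cl_of_ge (by linarith)), Or.inr (cl_of_le (by linarith))]
  · rcases h.out x hx hb with h1 | h1
    exacts [Or.inl (cl_of_ge (by linarith)), Or.inr (cl_of_le (by linarith))]

theorem half_comm : ∀ {b b' : Band E}, b.Ok → b'.Ok → Comm b b' → Comm b.half b'.half := by
  intro b b' _ _ hc x hx s hs
  obtain ⟨h1, h2⟩ := hc x hx.1 (s / 2) (half_mem hs)
  refine ⟨⟨fun h => ⟨h1.1 h.1, ?_⟩, fun h => ⟨h1.2 h.1, ?_⟩⟩, fun h => ⟨?_, fun t ht => ?_⟩⟩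
  · rw [← (h2 (h1.1 h.1)).1]
    exact h.2
  · exact (congrArg abs (h2 h.1).1).trans_le h.2
  · exact congrArg (fun t => cl (2 * t)) (h2 h.1).1
  · exact (h2 h.1).2 _ (half_mem ht)

omit [NormedAddCommGroup E] [NormedSpace ℝ E] in
theorem half_match : ∀ {b b' : Band E}, Match b b' → Match b.half b'.half := by
  intro b b' h x hx hx'
  obtain ⟨ε, hε, h1, h2⟩ := h x hx.1 hx'.1
  refine ⟨ε, hε, ?_, fun s hs => ?_⟩
  · change cl (2 * b'.u x) = ε * cl (2 * b.u x)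
    rw [h1, mul_left_comm, cl_sgn hε]
  · change b'.M (x, ε * s / 2) = b.M (x, s / 2)
    rw [mul_div_assoc, h2 _ (half_mem hs)]

theorem on_in : ∀ {b : Band E} {X : Set E}, b.On X → b.In X := by
  intro b X h
  refine ⟨h.sub, fun x hx hu => ?_⟩
  have h2 : ∀ᶠ y in 𝓝[X] x, |b.u y| < 1 :=
    Filter.Tendsto.eventually_lt_const hu (h.upl.1 x (h.sub hx)).abs
  filter_upwards [h2, self_mem_nhdsWithin] with y h3 h4
  by_contra hn
  rcases h.out y h4 hn with h5 | h5 <;> rw [h5] at h3 <;> norm_num at h3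

theorem on_W : ∀ {b : Band E} {X : Set E}, b.On X → b.W = {x ∈ X | b.u x = 0} := by
  intro b X h
  ext x
  refine ⟨fun hx => ⟨h.sub hx.1, hx.2⟩, fun hx => ⟨?_, hx.2⟩⟩
  by_contra hn
  rcases h.out x hx.1 hn with h5 | h5 <;> rw [hx.2] at h5 <;> norm_num at h5

theorem W_cpt : ∀ {b : Band E}, b.Ok → IsCompact b.W ∧ LocCone b.W := by
  intro b h
  have hc := cpt_Icc h.cpt h.loc h.upl 0 0
  rw [Icc_self] at hc
  exact hc

theorem keeps_iff : ∀ {b : Band E} {Y : Set E}, b.Ok → b.Keeps Y → ∀ x ∈ b.B, ∀ s ∈ I,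
    (b.M (x, s) ∈ Y ↔ x ∈ Y) := by
  intro b Y h hk x hx s hs
  refine ⟨fun hy => ?_, hk x hx s hs⟩
  have := hk _ (h.Mmem x hx s hs).1 _ (h.urange x hx) hy
  rwa [h.MM x hx s hs _ (h.urange x hx), h.Mid x hx] at this

omit [NormedAddCommGroup E] [NormedSpace ℝ E] in
theorem match_refl : ∀ b : Band E, Match b b :=
  fun _ _ _ _ => ⟨1, Or.inl rfl, (one_mul _).symm, fun s _ => by rw [one_mul]⟩

omit [NormedAddCommGroup E] [NormedSpace ℝ E] in
theorem match_symm : ∀ {b b' : Band E}, Match b b' → Match b' b := by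
  intro b b' h x hx hx'
  obtain ⟨ε, hε, h1, h2⟩ := h x hx' hx
  exact ⟨ε, hε, by rw [h1, sgn_sq hε], fun s hs => by rw [← h2 _ (sgn_mem hε hs), sgn_sq hε]⟩

omit [NormedAddCommGroup E] [NormedSpace ℝ E] in
theorem sgn_half : ∀ {b g : Band E}, Sgn b g → Sgn b.half g.half := by
  rintro b g ⟨ε, hε, h⟩
  refine ⟨ε, hε, fun x hx => ⟨?_, fun s hs => ?_⟩⟩
  · change cl (2 * g.u x) = ε * cl (2 * b.u x)
    rw [(h x hx.1).1, mul_left_comm, cl_sgn hε]
  · change g.M (x, ε * s / 2) = b.M (x, s / 2)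
    rw [mul_div_assoc, (h x hx.1).2 _ (half_mem hs)]

theorem comm_of_disjoint : ∀ {b b' : Band E}, b.Ok → Disjoint b.B b'.B → Comm b b' := by
  intro b b' h hd x hx s hs
  have h1 := disjoint_left.1 hd hx
  have h2 := disjoint_left.1 hd (h.Mmem x hx s hs).1
  exact ⟨⟨fun h' => absurd h' h2, fun h' => absurd h' h1⟩, fun h' => absurd h' h1⟩

/-- the fibres are continuous paths -/
theorem cont_fibre {b : Band E} (h : b.Ok) {x : E} (hx : x ∈ b.B) :
    ContinuousOn (fun s : ℝ => b.M (x, s)) I :=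
  h.Mpl.1.comp (Continuous.prodMk_right x).continuousOn fun _ hs => ⟨hx, hs⟩

theorem comm_u : ∀ {b b' : Band E} {X : Set E}, b.Ok → b.B ⊆ X → b'.On X → Comm b b' →
    ∀ x ∈ b.B, ∀ s ∈ I, b'.u (b.M (x, s)) = b'.u x := by
  intro b b' X h hX h' hc x hx s hs
  by_cases hb : x ∈ b'.B
  · exact ((hc x hx s hs).2 hb).1
  have h1 : ContinuousOn (fun s : ℝ => b'.u (b.M (x, s))) I :=
    h'.upl.1.comp (cont_fibre h hx) fun t ht => hX (h.Mmem x hx t ht).1
  have h2 : ∀ t ∈ I, b'.u (b.M (x, t)) = 1 ∨ b'.u (b.M (x, t)) = -1 := fun t ht =>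
    h'.out _ (hX (h.Mmem x hx t ht).1) fun h3 => hb ((hc x hx t ht).1.1 h3)
  have h3 : ∀ s ∈ I, ∀ t ∈ I, b'.u (b.M (x, s)) = -1 → b'.u (b.M (x, t)) = 1 → False := by
    intro s hs t ht e1 e2
    obtain ⟨r, hr, e⟩ := isPreconnected_Icc.intermediate_value hs ht h1
      (show (0:ℝ) ∈ _ from ⟨by rw [e1]; norm_num, by rw [e2]; norm_num⟩)
    rcases h2 r hr with h5 | h5 <;> rw [show b'.u (b.M (x, r)) = 0 from e] at h5 <;> norm_num at h5
  have h4 := h.urange x hx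
  rw [← congrArg b'.u (h.Mid x hx)]
  rcases h2 s hs with e1 | e1 <;> rcases h2 _ h4 with e2 | e2
  · rw [e1, e2]
  · exact (h3 _ h4 _ hs e2 e1).elim
  · exact (h3 _ hs _ h4 e1 e2).elim
  · rw [e1, e2]

end Bas1

end P073.Bd
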