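import Vale.Agent.P073Y.Bd.Defs

/-!
# The two family engine: statements of the blocks
-/

open Set Metric Topology Filter
open scoped NNReal

namespace P073.Bd

/-! ### basic facts on bands -/

/-- elementary facts -/
structure Bas (E : Type) [NormedAddCommGroup E] [NormedSpace ℝ E] : Prop where
  half_W : ∀ b : Band E, b.half.W = b.W
  half_ok : ∀ {b : Band E}, b.Ok → b.half.Ok
  half_in : ∀ {b : Band E} {X : Set E}, b.Ok → b.In X → b.half.In X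
  half_on : ∀ {b : Band E} {X : Set E}, b.On X → b.half.On X
  half_comm : ∀ {b b' : Band E}, b.Ok → b'.Ok → Comm b b' → Comm b.half b'.half
  half_match : ∀ {b b' : Band E}, Match b b' → Match b.half b'.half
  on_in : ∀ {b : Band E} {X : Set E}, b.On X → b.In X
  on_W : ∀ {b : Band E} {X : Set E}, b.On X → b.W = {x ∈ X | b.u x = 0}
  W_cpt : ∀ {b : Band E}, b.Ok → IsCompact b.W ∧ LocCone b.W
  keeps_iff : ∀ {b : Band E} {Y : Set E}, b.Ok → b.Keeps Y → ∀ x ∈ b.B, ∀ s ∈ I,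
    (b.M (x, s) ∈ Y ↔ x ∈ Y)
  match_refl : ∀ b : Band E, Match b b
  match_symm : ∀ {b b' : Band E}, Match b b' → Match b' b
  sgn_half : ∀ {b g : Band E}, Sgn b g → Sgn b.half g.half
  comm_of_disjoint : ∀ {b b' : Band E}, b.Ok → Disjoint b.B b'.B → Comm b b'
  comm_u : ∀ {b b' : Band E} {X : Set E}, b.Ok → b.B ⊆ X → b'.On X → Comm b b' →
    ∀ x ∈ b.B, ∀ s ∈ I, b'.u (b.M (x, s)) = b'.u x
  chart : ∀ {b : Band E}, b.Ok → ∃ Φ : ConHomeo (b.W ×ˢ I) b.B,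
    (∀ q, Φ.toFun q = b.M q) ∧ ∀ x, Φ.invFun x = (b.M (x, 0), b.u x)
  zone : ∀ {b b' : Band E}, b.Ok → b'.Ok → Comm b b' → Comm b' b →
    ∃ Φ : ConHomeo ((b.W ∩ b'.W) ×ˢ (I ×ˢ I)) (b.B ∩ b'.B),
      (∀ q, Φ.toFun q = b'.M (b.M (q.1, q.2.1), q.2.2)) ∧
      ∀ x, Φ.invFun x = (b'.M (b.M (x, 0), 0), (b.u x, b'.u x))
  level : ∀ {b : Band E} {Y : Set E}, b.Ok → b.Keeps Y → IsCompact Y → LocCone Y → ∀ s ∈ I,
    ∃ Φ : ConHomeo (b.W ∩ Y) {x ∈ b.B ∩ Y | b.u x = s},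
      (∀ x, Φ.toFun x = b.M (x, s)) ∧ ∀ x, Φ.invFun x = b.M (x, 0)
  restr : ∀ {b : Band E} {X Y V : Set E}, b.Ok → b.In X → Y ⊆ X → IsCompact Y → LocCone Y →
    b.Keeps Y → V ⊆ b.W ∩ Y → IsCompact V → LocCone V → IsClosed ((b.W ∩ Y) \ V) →
    (b.restr Y V).Ok ∧ (b.restr Y V).In Y ∧ (b.restr Y V).W = V
  cut : ∀ {b : Band E} {X Y : Set E}, b.On X → Y ⊆ X → IsCompact Y → LocCone Y → b.Keeps Y →
    (b.cut Y).On Y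
  pre : ∀ {b : Band E}, b.Ok → IsPreconnected b.W → IsPreconnected b.B ∧
    IsPreconnected {x ∈ b.B | 0 < b.u x} ∧ IsPreconnected {x ∈ b.B | b.u x < 0}
  two : ∀ {b : Band E} {X Y : Set E}, b.Ok → b.In X → Y ⊆ X → b.Keeps Y →
    b.W ∩ closure Y ⊆ closure (b.W ∩ Y)
  lev : ∀ {b : Band E} {X D S : Set E}, b.On X → D ⊆ X → ConBall 2 D S → b.Keeps D → b.Keeps S →
    Lev (b.W ∩ D) S

def BAS : Prop := ∀ (E : Type) [NormedAddCommGroup E] [NormedSpace ℝ E] [FiniteDimensional ℝ E],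
  Bas E

/-- transport of bands -/
def MAP : Prop := ∀ {E F : Type} [NormedAddCommGroup E] [NormedSpace ℝ E] [FiniteDimensional ℝ E]
  [NormedAddCommGroup F] [NormedSpace ℝ F] [FiniteDimensional ℝ F] {X : Set E} {Y : Set F}
  (φ : ConHomeo X Y),
  (∀ {b : Band E}, b.Ok → b.B ⊆ X → (b.map φ).Ok ∧ (b.map φ).W = φ.toFun '' b.W ∧
    (b.In X → (b.map φ).In Y) ∧ ∀ Z ⊆ X, b.Keeps Z → (b.map φ).Keeps (φ.toFun '' Z)) ∧
  (∀ {b : Band E}, b.On X → (b.map φ).On Y) ∧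
  ∀ {b b' : Band E}, b.Ok → b'.Ok → b.B ⊆ X → b'.B ⊆ X → Comm b b' → Comm (b.map φ) (b'.map φ)

/-- piecewise Lipschitz functions -/
def LIPG : Prop := ∀ {E : Type} [NormedAddCommGroup E] [NormedSpace ℝ E],
  (∀ {X : Set E} {L : ℝ≥0} {f : E → ℝ}, Convex ℝ X → PwLip L f X → LipschitzOnWith L f X) ∧
  ∀ {X : Set E} {L : ℝ≥0} {ι : Type} (s : Finset ι) (b : ι → Band E), IsClosed X →
    (∀ i ∈ s, ContinuousOn (b i).u X ∧ IsClosed (b i).B ∧ PwLip L (b i).u X ∧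
      ∀ x ∈ X, x ∉ (b i).B → (b i).u x = 1 ∨ (b i).u x = -1) →
    (∀ i ∈ s, ∀ j ∈ s, i ≠ j → Disjoint (b i).B (b j).B) →
    PwLip L (fun x => ∑ i ∈ s, (b i).u x) X

/-- gluing local bands; the orientation is read off from the two sides -/
def GLUE : Prop := ∀ {E : Type} [NormedAddCommGroup E] [NormedSpace ℝ E] [FiniteDimensional ℝ E]
  {π κ : Type} [Finite π] [Finite κ] (X : π → Set E) (home : κ → π) (b : κ → Band E)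
  {P N : Set E}, (∀ a, IsCompact (X a) ∧ LocCone (X a)) →
  (∀ k, (b k).Ok ∧ (b k).In (X (home k))) → (∀ k l, Match (b k) (b l)) →
  (∀ k a, ∀ x ∈ (b k).B, x ∈ X a → ∃ l, home l = a ∧ x ∈ (b l).B) →
  IsCompact P → LocCone P → IsCompact N → LocCone N → P ∪ N = ⋃ a, X a → P ∩ N = ⋃ k, (b k).W →
  (∀ k, IsPreconnected (b k).W ∧ ∃ x ∈ (b k).W, X (home k) ∈ 𝓝[⋃ a, X a] x ∧
    x ∈ closure (P \ N) ∧ x ∈ closure (N \ P)) →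
  ∃ g : Band E, g.On (⋃ a, X a) ∧ g.B = ⋃ k, (b k).B ∧
    (∀ k, Sgn (b k) g) ∧
    (∀ x ∈ ⋃ a, X a, (0 ≤ g.u x ↔ x ∈ P) ∧ (g.u x ≤ 0 ↔ x ∈ N)) ∧
    ∀ (L : ℝ≥0) (Y : Set E), IsClosed Y → Y ⊆ ⋃ a, X a →
      (∀ k, LipschitzOnWith L (b k).u ((b k).B ∩ Y)) → PwLip L g.u Y

/-- commutation of glued bands -/
def GCOMM : Prop := ∀ {E : Type} [NormedAddCommGroup E] [NormedSpace ℝ E] {κ κ' : Type}
  (b : κ → Band E) (b' : κ' → Band E) (g g' : Band E), (∀ k, (b k).Ok) → (∀ l, (b' l).Ok) →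
  g.Ok → g.B = ⋃ k, (b k).B → g'.B = ⋃ l, (b' l).B → (∀ k, Sgn (b k) g) → (∀ l, Sgn (b' l) g') →
  (∀ x ∈ g.B, x ∈ g'.B → ∃ k l, x ∈ (b k).B ∧ x ∈ (b' l).B ∧ Comm (b k) (b' l) ∧
    Comm (b' l) (b k)) → Comm g g'

/-! ### cups -/

/-- the cup construction in collar coordinates -/
def COLLAR0 : Prop := ∀ {E : Type} [NormedAddCommGroup E] [NormedSpace ℝ E]
  [FiniteDimensional ℝ E] {κ : Type} {S : Set E} (b : κ → Band E) (d : κ → ℝ) {w : ℝ},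
  IsCompact S → LocCone S → 0 < w → (∀ k, (b k).On S) → (∀ k l, k ≠ l → Comm (b k) (b l)) →
  (∀ k, 2 * w ≤ d k ∧ d k + 2 * w ≤ 1) → (∀ k l, k ≠ l → 4 * w ≤ |d k - d l|) →
  ∃ a : κ → Band (E × ℝ), (∀ k, (a k).On (S ×ˢ Icc 0 1) ∧
    (∀ q, (a k).u q = cl (min (2 * (b k).u q.1) ((d k - q.2) / w))) ∧
    (∀ q, q ∈ (a k).B ↔ q ∈ S ×ˢ Icc (0:ℝ) 1 ∧ |min (2 * (b k).u q.1) ((d k - q.2) / w)| ≤ 1) ∧
    ∀ x ∈ (b k).half.B, ∀ s ∈ I, (a k).M ((x, 0), s) = ((b k).half.M (x, s), 0)) ∧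
    ∀ k l, k ≠ l → Comm (a k) (a l)

/-- the cup construction in a ball with a chart -/
def COLLAR (n : ℕ) (c₀ : ℝ≥0) : Prop := ∀ {E : Type} [NormedAddCommGroup E] [NormedSpace ℝ E]
  [FiniteDimensional ℝ E] {κ : Type} {C S : Set E} {M₁ M₂ L : ℝ≥0} (b : κ → Band E)
  (rk : κ → ℕ) (N : ℕ), Chart (n + 1) C S M₁ M₂ → (∀ k, (b k).On S ∧ PwLip L (b k).u S) →
  (∀ k l, k ≠ l → Comm (b k) (b l)) → Function.Injective rk → (∀ k, rk k < N) →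
  ∃ (a : κ → Band E) (Y : Set E) (ν : ConHomeo (S ×ˢ Icc (0:ℝ) 1) Y) (d : κ → ℝ),
    Y ⊆ C ∧ (∀ x ∈ S, ν.toFun (x, 0) = x) ∧ (∀ k, 0 < d k ∧ d k < 1) ∧
    (∀ k l, rk k < rk l → d k < d l) ∧
    (∀ k, (a k).On C ∧ Ext (a k) (b k).half S ∧
      LipschitzOnWith (c₀ * M₁ * (M₂ * L + N)) (a k).u C ∧
      (a k).W = ν.toFun '' ((b k).W ×ˢ Icc 0 (d k) ∪ {x ∈ S | 0 ≤ (b k).u x} ×ˢ {d k})) ∧
    (∀ k l, k ≠ l → Comm (a k) (a l)) ∧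
    ∀ k l, rk k < rk l → (∀ x ∈ (b l).B, (b k).u x = -1) → Disjoint (a k).B (a l).B

/-- cups with depths adapted to the nesting -/
def CUPS (n : ℕ) (c₀ : ℝ≥0) : Prop := ∀ {E : Type} [NormedAddCommGroup E] [NormedSpace ℝ E]
  [FiniteDimensional ℝ E] {κ : Type} [Finite κ] {C S : Set E} {M₁ M₂ L : ℝ≥0} (b : κ → Band E)
  {x₀ : E}, Chart (n + 2) C S M₁ M₂ → (∀ k, (b k).On S ∧ PwLip L (b k).u S) →
  (∀ k l, k ≠ l → Comm (b k) (b l)) → x₀ ∈ S → (∀ k, (b k).u x₀ < 0) →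
  (∀ k, ConBall (n + 1) {x ∈ S | 0 ≤ (b k).u x} (b k).W ∧
    ConBall (n + 1) {x ∈ S | (b k).u x ≤ 0} (b k).W) →
  ∃ a : κ → Band E,
    (∀ k, (a k).On C ∧ Ext (a k) (b k).half S ∧
      LipschitzOnWith (c₀ * M₁ * (M₂ * L + (Nat.card κ : ℕ))) (a k).u C ∧
      ConBall (n + 1) (a k).W (b k).W) ∧
    (∀ k l, k ≠ l → Comm (a k) (a l)) ∧
    (∀ k l, k ≠ l → ((∀ x ∈ (b l).B, (b k).u x = 1) ∨ ∀ x ∈ (b l).B, (b k).u x = -1) →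
      ((∀ x ∈ (b k).B, (b l).u x = 1) ∨ ∀ x ∈ (b k).B, (b l).u x = -1) →
      Disjoint (a k).B (a l).B) ∧
    (∀ k l p q, k ≠ l → (b l).W = {p, q} → (∃ p' q', (b k).W = {p', q'}) →
      Disjoint (b k).W (b l).W → ((a k).W ∩ (a l).W).Subsingleton) ∧
    ∀ k l, k ≠ l → IsCircle (b k).W → IsCircle (b l).W → ∀ x ∈ (a k).W ∩ (a l).W,
      ∃ Z, Z ⊆ (a k).W ∩ (a l).W ∧ IsPreconnected Z ∧ x ∈ Z ∧ (Z ∩ S).Nonempty

/-- the model in a face -/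
def FACEM (c₀ : ℝ≥0) : Prop := ∀ {E : Type} [NormedAddCommGroup E] [NormedSpace ℝ E]
  [FiniteDimensional ℝ E] {κ : Type} [Finite κ] {C S : Set E} {M₁ M₂ L : ℝ≥0} (A : κ → Set E)
  (p q : κ → E) (z : E → Band E) {x₀ : E}, Chart 2 C S M₁ M₂ →
  (∀ k, IsArc (A k) (p k) (q k) ∧ A k ⊆ C ∧ A k ∩ S = {p k, q k}) →
  (∀ k l, k ≠ l → Disjoint ({p k, q k} : Set E) {p l, q l}) →
  (∀ k, ∀ y ∈ ({p k, q k} : Set E), (z y).Ok ∧ (z y).In S ∧ (z y).W = {y} ∧ x₀ ∉ (z y).B ∧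
    LipschitzOnWith L (z y).u (z y).B) →
  (∀ k l, ∀ y ∈ ({p k, q k} : Set E), ∀ y' ∈ ({p l, q l} : Set E), y ≠ y' →
    Disjoint (z y).B (z y').B) → x₀ ∈ S →
  ∃ β : κ → Band E,
    (∀ k, (β k).On C ∧ IsArc (β k).W (p k) (q k) ∧
      (β k).B ∩ S = (z (p k)).half.B ∪ (z (q k)).half.B ∧
      Match (z (p k)).half (β k) ∧ Match (z (q k)).half (β k) ∧
      LipschitzOnWith (c₀ * M₁ * (M₂ * L + (Nat.card κ : ℕ))) (β k).u C) ∧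
    ∀ k l, k ≠ l → Comm (β k) (β l) ∧ (Disjoint (A k) (A l) → Disjoint (β k).B (β l).B) ∧
      ((β k).W ∩ (β l).W).Subsingleton

/-- the model in a cell -/
def CELLM (c₀ : ℝ≥0) : Prop := ∀ {E : Type} [NormedAddCommGroup E] [NormedSpace ℝ E]
  [FiniteDimensional ℝ E] {π α κ : Type} [Finite π] [Finite α] [Finite κ] {C S : Set E}
  {M₁ M₂ L : ℝ≥0} (X : π → Set E) (home : α → π) (cir : α → κ) (β : α → Band E) {x₀ : E},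
  Chart 3 C S M₁ M₂ → (∀ a, IsCompact (X a) ∧ LocCone (X a)) → ⋃ a, X a = S →
  (∀ a, (β a).Ok ∧ (β a).In (X (home a)) ∧ IsPreconnected (β a).W ∧ x₀ ∉ (β a).B ∧
    LipschitzOnWith L (β a).u (β a).B ∧ ∃ x ∈ (β a).W, X (home a) ∈ 𝓝[S] x) →
  (∀ k, IsCircle (⋃ a, ⋃ (_ : cir a = k), (β a).W)) →
  (∀ a a', cir a = cir a' → Match (β a) (β a')) →
  (∀ a φ, ∀ x ∈ (β a).B, x ∈ X φ → ∃ a', cir a' = cir a ∧ home a' = φ ∧ x ∈ (β a').B) →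
  (∀ a a', cir a ≠ cir a' → Comm (β a) (β a')) → x₀ ∈ S →
  ∃ γ : κ → Band E,
    (∀ k, (γ k).On C ∧ ConBall 2 (γ k).W (⋃ a, ⋃ (_ : cir a = k), (β a).W) ∧
      (γ k).B ∩ S = ⋃ a, ⋃ (_ : cir a = k), (β a).half.B ∧
      LipschitzOnWith (c₀ * M₁ * (M₂ * L + (Nat.card κ : ℕ))) (γ k).u C) ∧
    (∀ a, Match (β a).half (γ (cir a))) ∧
    ∀ k l, k ≠ l → Comm (γ k) (γ l) ∧
      ((∀ a a', cir a = k → cir a' = l → Disjoint (β a).B (β a').B) →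
        Disjoint (γ k).B (γ l).B) ∧
      ∀ x ∈ (γ k).W ∩ (γ l).W,
        ∃ Z, Z ⊆ (γ k).W ∩ (γ l).W ∧ IsPreconnected Z ∧ x ∈ Z ∧ (Z ∩ S).Nonempty

/-! ### plane topology -/

/-- the circles of a connected trace bound discs which tile the wall -/
def TILE : Prop := ∀ {E : Type} [NormedAddCommGroup E] [NormedSpace ℝ E] {κ : Type} [Finite κ]
  {D B Γ : Set E} (J X X₀ : κ → Set E), ConBall 2 D B → B ⊆ Γ → Γ ⊆ D → IsPreconnected Γ →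
  (∀ k, IsCircle (J k) ∧ J k ⊆ Γ ∧ IsClosed (X k) ∧ X₀ k ⊆ X k ∧
    (∀ x ∈ D ∩ X₀ k, X₀ k ∈ 𝓝[D] x ∧ x ∉ Γ) ∧
    ∀ x ∈ J k, x ∈ closure (D ∩ X₀ k) ∧ ∀ᶠ y in 𝓝 x, y ∈ D → y ∈ X k → y ∈ X₀ k ∨ y ∈ J k) →
  (∀ x ∈ Γ, ∀ᶠ y in 𝓝 x, y ∈ D → ∃ k, x ∈ J k ∧ y ∈ X k) →
  (∀ k l, k ≠ l → J k = J l → Disjoint (X₀ k) (X₀ l)) →
  ∃ Δ : κ → Set E, (∀ k, ConBall 2 (Δ k) (J k) ∧ Δ k ∩ Γ = J k) ∧ ⋃ k, Δ k = D ∧
    ∀ k l, k ≠ l → Δ k ∩ Δ l ⊆ J k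

/-- two families of arcs with the same ends -/
def ARCISO : Prop := ∀ {E : Type} [NormedAddCommGroup E] [NormedSpace ℝ E] {α : Type} [Finite α]
  (A A' : α → Set E) (p q : α → E), (∀ a, IsArc (A a) (p a) (q a) ∧ IsArc (A' a) (p a) (q a)) →
  (∀ a a', a ≠ a' → A a ∩ A a' ⊆ {p a, q a} ∧ A' a ∩ A' a' ⊆ {p a, q a}) →
  ∃ φ : ConHomeo (⋃ a, A a) (⋃ a, A' a), ∀ a, φ.toFun '' A a = A' a

/-- two tilings with the same pattern -/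
def RETILE : Prop := ∀ {E : Type} [NormedAddCommGroup E] [NormedSpace ℝ E] {κ : Type} [Finite κ]
  {D B Γ Γ' : Set E} (φ : ConHomeo Γ Γ') (Δ J Δ' : κ → Set E), ConBall 2 D B → B ⊆ Γ → Γ ⊆ D →
  ⋃ k, Δ k = D →
  (∀ k, ConBall 2 (Δ k) (J k) ∧ Δ k ∩ Γ = J k ∧ ConBall 2 (Δ' k) (φ.toFun '' J k) ∧
    Δ' k ∩ Γ' ⊆ φ.toFun '' J k) →
  (∀ k l, k ≠ l → Δ k ∩ Δ l ⊆ Γ ∧ Δ' k ∩ Δ' l ⊆ Γ') →
  ConBall 2 (⋃ k, Δ' k) (φ.toFun '' B)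

/-- near `x` the set `T` is an arc inside `U` -/
def LocArc {E : Type} [NormedAddCommGroup E] [NormedSpace ℝ E] (T S U : Set E) (x : E) : Prop :=
  ∃ A p q, IsArc A p q ∧ A ⊆ T ∩ U ∧ A ∈ 𝓝[T] x ∧ (x ∈ S → x = p) ∧ (x ∉ S → x ≠ p ∧ x ≠ q)

/-- compact one-manifolds -/
def CLS1 : Prop := ∀ {E : Type} [NormedAddCommGroup E] [NormedSpace ℝ E] [FiniteDimensional ℝ E]
  {T S : Set E}, (Lev T S → ∀ x ∈ T, ∀ U ∈ 𝓝 x, LocArc T S U x) ∧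
  (IsCompact T → LocCone T → (∀ x ∈ T, LocArc T S univ x) → Lev T S)

/-- the piece of a node -/
def piece {E 𝒩 : Type} (par : 𝒩 → Option 𝒩) (D G J : 𝒩 → Set E) (n : 𝒩) : Set E :=
  D n \ ⋃ m, ⋃ (_ : par m = some n), (G m \ J m)

/-- a tree of planar pieces is a disc -/
def TREE : Prop := ∀ {E : Type} [NormedAddCommGroup E] [NormedSpace ℝ E] {𝒩 : Type} [Finite 𝒩]
  (par : 𝒩 → Option 𝒩) (D G J : 𝒩 → Set E), (∀ n, ConBall 2 (D n) (J n)) →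
  (∀ m n, par m = some n → ConBall 2 (G m) (J m) ∧ G m ⊆ D n \ J n) →
  (∀ m m' n, m ≠ m' → par m = some n → par m' = some n → Disjoint (G m) (G m')) →
  (∀ n n', n ≠ n' → (par n ≠ none ∨ par n' ≠ none) → ∀ x ∈ piece par D G J n,
    x ∈ piece par D G J n' → (par n = some n' ∧ x ∈ J n) ∨ (par n' = some n ∧ x ∈ J n')) →
  ∀ r, par r = none → ConBall 2
    (⋃ n, ⋃ (_ : Relation.ReflTransGen (fun a b => par b = some a) r n), piece par D G J n) (J r)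

/-- thick circles in a disc: `G k` is the disc with the annulus, `H k` the disc inside it -/
def LAMIN : Prop := ∀ {E : Type} [NormedAddCommGroup E] [NormedSpace ℝ E] {κ : Type} [Finite κ]
  {D B : Set E} (G JG H JH : κ → Set E), ConBall 2 D B →
  (∀ k, ConBall 2 (G k) (JG k) ∧ ConBall 2 (H k) (JH k) ∧ G k ⊆ D \ B ∧ H k ⊆ G k \ JG k ∧
    IsPreconnected (G k \ (H k \ JH k))) →
  (∀ k l, k ≠ l → Disjoint (G k \ (H k \ JH k)) (G l \ (H l \ JH l))) →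
  ∃ par : κ → Option κ, (∀ k l, par k = some l → G k ⊆ H l \ JH l) ∧
    (∀ k l, k ≠ l → par k = par l → Disjoint (G k) (G l)) ∧
    ∀ Pc : Option κ → Set E,
      (∀ o, Pc o = o.elim D H \ ⋃ k, ⋃ (_ : par k = o), (G k \ JG k)) →
      (∀ o o', o ≠ o' → Disjoint (Pc o) (Pc o')) ∧
      (∀ o k, ∀ x ∈ Pc o, x ∈ G k \ (H k \ JH k) →
        (o = some k ∧ x ∈ JH k) ∨ (o = par k ∧ x ∈ JG k)) ∧
      ∀ Z ⊆ D, IsPreconnected Z → (Z ∩ B).Nonempty →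
        (∀ k, Disjoint Z (G k \ (H k \ JH k))) → Z ⊆ Pc none

/-- amalgamation: the balls `C m` replace the cells which meet their open parts -/
def AMAL : Prop := ∀ {E : Type} [NormedAddCommGroup E] [NormedSpace ℝ E] (K : RCx E) [Finite K.ι]
  {μ : Type} [Finite μ] (C S : μ → Set E) (n : μ → ℕ),
  (∀ m, ConBall (n m) (C m) (S m) ∧ K.Sub (C m) ∧ K.Sub (S m)) →
  (∀ m m', m ≠ m' → Disjoint (C m \ S m) (C m') ∨ (C m ⊆ S m' ∧ n m < n m')) →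
  (∀ m i, K.cell i ⊆ S m → K.dim i < n m) →
  (∀ m i, (K.cell i ∩ (C m \ S m)).Nonempty → K.cell i ⊆ C m ∨ ∃ m', K.ocell i ⊆ C m' \ S m') →
  ∃ (K' : RCx E) (e : μ → K'.ι) (f : {i // ∀ m, Disjoint (K.ocell i) (C m \ S m)} → K'.ι),
    Finite K'.ι ∧ K'.carrier = K.carrier ∧
    (∀ m, K'.cell (e m) = C m ∧ K'.bd (e m) = S m ∧ K'.dim (e m) = n m) ∧
    (∀ i, K'.cell (f i) = K.cell i ∧ K'.bd (f i) = K.bd i ∧ K'.dim (f i) = K.dim i) ∧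
    ∀ j, (∃ m, j = e m) ∨ ∃ i, j = f i

/-! ### normalisation -/

def TRACE : Prop := ∀ {X : Base} {c₀ : ℝ≥0} {Fr : Frame X c₀} {D : X.ι → Set E3},
  State Fr D → Nonempty (Trace Fr D)

def FACES (c₀ : ℝ≥0) : Prop := ∀ {X : Base} {Fr : Frame X c₀} {D : X.ι → Set E3},
  State Fr D → ∀ T : Trace Fr D, ∃ β, Faces T β

def CELLS (c₀ : ℝ≥0) : Prop := ∀ {X : Base} {Fr : Frame X c₀} {D : X.ι → Set E3},
  State Fr D → ∀ (T : Trace Fr D) (β : T.α → Band E3), Faces T β → ∃ γ, Cells T β γ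

/-- the glued walls -/
structure Walls {X : Base} {c₀ : ℝ≥0} {Fr : Frame X c₀} {D : X.ι → Set E3} (T : Trace Fr D)
    (γ : T.κ → Band E3) (b : X.ι → Band E3) : Prop where
  on : ∀ i, (b i).On X.K.carrier
  B_eq : ∀ i, (b i).B = ⋃ k, ⋃ (_ : T.clab k = i), (γ k).B
  sgn : ∀ k, Sgn (γ k) (b (T.clab k))
  disc : ∀ i, ConBall 2 (b i).W (Fr.nb i).W
  ext : ∀ i, Ext (b i) (Fr.nb i).half X.bd

def WALLS : Prop := ∀ {X : Base} {c₀ : ℝ≥0} {Fr : Frame X c₀} {D : X.ι → Set E3},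
  State Fr D → ∀ (T : Trace Fr D) (β : T.α → Band E3) (γ : T.κ → Band E3), Faces T β →
  Cells T β γ → ∃ b, Walls T γ b

def MODEL : Prop := ∀ {X : Base} {c₀ : ℝ≥0} {Fr : Frame X c₀} {D : X.ι → Set E3},
  State Fr D → ∀ (T : Trace Fr D) (β : T.α → Band E3) (γ : T.κ → Band E3) (b : X.ι → Band E3),
  Faces T β → Cells T β γ → Walls T γ b → Model Fr b

def NORMLE : Prop := ∀ {X : Base} {c₀ : ℝ≥0} {Fr : Frame X c₀} {D : X.ι → Set E3},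
  State Fr D → ∀ (T : Trace Fr D) (β : T.α → Band E3) (γ : T.κ → Band E3) (b : X.ι → Band E3),
  Faces T β → Cells T β γ → Walls T γ b → Le X (fun i => (b i).W) D ∧
    ∀ i, ∀ p ∈ (b i).W ∩ X.K.skel 1, Att X D {φ | X.K.dim φ = 2} i p

/-- normalisation -/
def NORM (c₀ : ℝ≥0) : Prop := ∀ {X : Base} {Fr : Frame X c₀} {D : X.ι → Set E3}, State Fr D →
  ∃ b, Model Fr b ∧ Le X (fun i => (b i).W) D ∧
    ∀ i, ∀ p ∈ (b i).W ∩ X.K.skel 1, Att X D {φ | X.K.dim φ = 2} i p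

/-! ### exchange -/

def SWAP1 : Prop := ∀ {X : Base} {c₀ : ℝ≥0} {Fr : Frame X c₀} {b : X.ι → Band E3},
  Model Fr b → ∃ D, Swapped Fr b D

def SWAP2 : Prop := ∀ {X : Base} {c₀ : ℝ≥0} {Fr : Frame X c₀} {b : X.ι → Band E3}
  {D : X.ι → Set E3}, Model Fr b → Swapped Fr b D → State Fr D ∧ Le X D (fun i => (b i).W) ∧
  ((extra b).Nonempty → ∃ φ, X.K.dim φ = 2 ∧
    (cross X D φ).encard < (cross X (fun i => (b i).W) φ).encard)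

/-- without extra circles two walls meet in one arc -/
def ARC1 : Prop := ∀ {X : Base} {c₀ : ℝ≥0} {Fr : Frame X c₀} {b : X.ι → Band E3},
  Model Fr b → extra b = ∅ → ∀ i j, X.fam i ≠ X.fam j →
  ∃ p ∈ X.bd, ∃ q ∈ X.bd, IsArc ((b i).W ∩ (b j).W) p q

def ENGINE (c₀ : ℝ≥0) : Prop := ∀ {X : Base} {Fr : Frame X c₀} {D : X.ι → Set E3}, State Fr D →
  ∃ b, Model Fr b ∧ extra b = ∅ ∧ Le X (fun i => (b i).W) D ∧
    ∀ i, ∀ p ∈ (b i).W ∩ X.K.skel 1, ∃ j, Att X D {φ | X.K.dim φ = 2} j p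

/-! ### flattening -/

/-- straightening of one family of bands -/
def FLAT1 (n : ℕ) : Prop := ∀ {E F : Type} [NormedAddCommGroup E] [NormedSpace ℝ E]
  [FiniteDimensional ℝ E] [NormedAddCommGroup F] [NormedSpace ℝ F] [FiniteDimensional ℝ F]
  {ι : Type} [Finite ι] {C S : Set E} {Y Y₀ : Set F} {lo hi lam : ℝ} (b : ι → Band E) (t : ι → ℝ)
  (φ : ConHomeo S (Y₀ ×ˢ Icc lo hi ∪ Y ×ˢ {lo, hi})), ConBall (n + 1) C S → ConBall n Y Y₀ →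
  lo < hi → 0 < lam → (∀ i, lo < t i - lam ∧ t i + lam < hi) →
  (∀ i j, i ≠ j → Disjoint (b i).B (b j).B ∧ 2 * lam < |t i - t j|) →
  (∀ i, (b i).On C ∧ ConBall n (b i).W ((b i).W ∩ S) ∧ ∀ x ∈ S,
    (x ∈ (b i).B ↔ |(φ.toFun x).2 - t i| ≤ lam) ∧ (b i).u x = cl (((φ.toFun x).2 - t i) / lam) ∧
    (x ∈ (b i).B → ∀ s ∈ I, (b i).M (x, s) ∈ S ∧
      φ.toFun ((b i).M (x, s)) = ((φ.toFun x).1, t i + lam * s))) →
  ∃ G : ConHomeo C (Y ×ˢ Icc lo hi), EqOn G.toFun φ.toFun S ∧ ∀ i, ∀ x ∈ C,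
    (x ∈ (b i).B ↔ |(G.toFun x).2 - t i| ≤ lam) ∧ (b i).u x = cl (((G.toFun x).2 - t i) / lam) ∧
    (x ∈ (b i).B → ∀ s ∈ I, G.toFun ((b i).M (x, s)) = ((G.toFun x).1, t i + lam * s))

/-- straightening of both families -/
def FLAT2 : Prop := ∀ {E : Type} [NormedAddCommGroup E] [NormedSpace ℝ E] [FiniteDimensional ℝ E]
  {ι : Type} [Finite ι] {C S : Set E} {lo hi : E3} {lam : ℝ} (b : ι → Band E) (t : ι → ℝ)
  (co : ι → Fin 3) (φ : ConHomeo S (frontier (Icc lo hi))), ConBall 3 C S → (∀ k, lo k < hi k) →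
  0 < lam → (∀ i, co i ≠ 2 ∧ lo (co i) < t i - lam ∧ t i + lam < hi (co i)) →
  (∀ i j, i ≠ j → Comm (b i) (b j) ∧
    (co i = co j → Disjoint (b i).B (b j).B ∧ 2 * lam < |t i - t j|) ∧
    (co i ≠ co j → ∃ p ∈ S, ∃ q ∈ S, IsArc ((b i).W ∩ (b j).W) p q)) →
  (∀ i, (b i).On C ∧ ConBall 2 (b i).W ((b i).W ∩ S) ∧ ∀ x ∈ S,
    (x ∈ (b i).B ↔ |φ.toFun x (co i) - t i| ≤ lam) ∧
    (b i).u x = cl ((φ.toFun x (co i) - t i) / lam) ∧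
    (x ∈ (b i).B → ∀ s ∈ I, (b i).M (x, s) ∈ S ∧ φ.toFun ((b i).M (x, s)) =
      Function.update (φ.toFun x) (co i) (t i + lam * s))) →
  ∃ G : ConHomeo C (Icc lo hi), EqOn G.toFun φ.toFun S ∧ ∀ i, ∀ x ∈ C,
    (x ∈ (b i).B ↔ |G.toFun x (co i) - t i| ≤ lam) ∧
    (b i).u x = cl ((G.toFun x (co i) - t i) / lam) ∧
    (x ∈ (b i).B → ∀ s ∈ I, G.toFun ((b i).M (x, s)) =
      Function.update (G.toFun x) (co i) (t i + lam * s))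

/-! ### the first state, the drift -/

/-- generic levels -/
def GEN : Prop := ∀ (K : RCx E3) [Finite K.ι] {f : E3 → ℝ}, PLOn f K.carrier →
  (∃ T : Set ℝ, T.Finite ∧ ∀ t, t ∉ T → Gen1 K {x ∈ K.carrier | f x = t}) ∧
  ∀ Z : Set E3, Gen1 K Z → ∃ T : Set ℝ, T.Finite ∧ ∀ t, t ∉ T →
    Disjoint {x ∈ Z | f x = t} (K.skel 1) ∧ ({x ∈ Z | f x = t} ∩ K.skel 2).Finite

/-- extension of homeomorphisms of the wires -/
def EVEN : Prop := ∀ (X : Base) (θ : X.K.ι → E3 → E3),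
  (∀ e, X.K.dim e = 1 → (∃ Φ : ConHomeo (X.K.cell e) (X.K.cell e),
    EqOn Φ.toFun (θ e) (X.K.cell e)) ∧ EqOn (θ e) id (X.K.bd e) ∧
    (X.K.cell e ⊆ X.bd → EqOn (θ e) id (X.K.cell e))) →
  ∃ Θ : ConHomeo X.K.carrier X.K.carrier, EqOn Θ.toFun id X.bd ∧
    (∀ c, Θ.toFun '' X.K.cell c = X.K.cell c) ∧
    ∀ e, X.K.dim e = 1 → EqOn Θ.toFun (θ e) (X.K.cell e)

def INIT1 : Prop := ∀ {X : Base} {c₀ : ℝ≥0} {lo hi : E3} (g : ConHomeo X.K.carrier (Icc lo hi))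
  (t : X.ι → ℝ) {lam : ℝ≥0}, Raw X c₀ g t lam → Seg X (⋃ i, lvl g t i) →
  ∃ g' : ConHomeo X.K.carrier (Icc lo hi),
  EqOn g'.toFun g.toFun X.bd ∧ (∀ c, g'.toFun '' X.K.cell c = g.toFun '' X.K.cell c) ∧
  Raw X c₀ g' t lam ∧ Zoned X (⋃ i, lvl g' t i)

def INIT2 : Prop := ∀ {X : Base} {c₀ : ℝ≥0} {lo hi : E3} (g : ConHomeo X.K.carrier (Icc lo hi))
  (t : X.ι → ℝ) {lam : ℝ≥0}, Raw X c₀ g t lam → Zoned X (⋃ i, lvl g t i) →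
  ∃ Fr : Frame X c₀, Flat Fr g t lam ∧ State Fr (lvl g t)

/-- points of the trace are attached through faces near a vertical segment -/
def LOCATT : Prop := ∀ {X : Base} {c₀ : ℝ≥0} {Fr : Frame X c₀} {lo hi : E3}
  (g : ConHomeo X.K.carrier (Icc lo hi)) (t : X.ι → ℝ) {lam o : ℝ} (k : Fin 3), k ≠ 2 →
  Flat Fr g t lam → State Fr (lvl g t) →
  (∀ c, ∀ x ∈ X.K.cell c, ∀ y ∈ X.K.cell c, |g.toFun x k - g.toFun y k| ≤ o) →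
  ∀ j p, Att X (lvl g t) {φ | X.K.dim φ = 2} j p → Att X (lvl g t)
    {φ | X.K.dim φ = 2 ∧ ∀ x ∈ X.K.cell φ, |g.toFun x k - g.toFun p k| ≤ o} j p

def DRIFT : Prop := ∀ {X : Base} {c₀ : ℝ≥0} {Fr : Frame X c₀} {b : X.ι → Band E3} {lo hi : E3}
  (g : ConHomeo X.K.carrier (Icc lo hi)) (t : X.ι → ℝ) {lam o κ : ℝ} (i : X.ι),
  Flat Fr g t lam → State Fr (lvl g t) → Model Fr b → Le X (fun i => (b i).W) (lvl g t) →
  (∀ i, ∀ p ∈ (b i).W ∩ X.K.skel 1, ∃ j, Att X (lvl g t) {φ | X.K.dim φ = 2} j p) →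
  (∀ c, ∀ x ∈ X.K.cell c, ∀ y ∈ X.K.cell c, |g.toFun x (X.co i) - g.toFun y (X.co i)| ≤ o) →
  (∀ j, X.fam j = X.fam i → 2 * o < |t j - κ|) → ∀ x ∈ X.K.carrier,
    (t i < κ → κ ≤ g.toFun x (X.co i) → (b i).u x = 1) ∧
    (κ < t i → g.toFun x (X.co i) ≤ κ → (b i).u x = -1)

/-- the two family engine -/
def W2Z (c₀ : ℝ≥0) : Prop := ∀ (X : Base) {lo hi : E3} (g : ConHomeo X.K.carrier (Icc lo hi))
  (t : X.ι → ℝ) (lam : ℝ≥0), Raw X c₀ g t lam → Zoned X (⋃ i, lvl g t i) →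
  ∃ G : ConHomeo X.K.carrier (Icc lo hi), EqOn G.toFun g.toFun X.bd ∧
    Le X (lvl G t) (lvl g t) ∧ (∀ i, Gen1 X.K (lvl G t i)) ∧
    (∀ i c, (lvl G t i ∩ X.K.cell c).Nonempty →
      (lvl G t i ∩ X.K.cell c ∩ X.K.skel 1).Nonempty) ∧
    (∀ i c, ∀ x ∈ X.K.cell c, |G.toFun x (X.co i) - t i| ≤ lam → ∀ s ∈ I,
      G.invFun (Function.update (G.toFun x) (X.co i) (t i + lam * s)) ∈ X.K.cell c) ∧
    (∀ c (s : Finset X.ι), (∀ i ∈ s, ∀ j ∈ s, X.fam i = X.fam j) → PwLip (4 * X.L c)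
      (fun x => ∑ i ∈ s, cl ((G.toFun x (X.co i) - t i) / lam)) (X.K.cell c)) ∧
    ∀ (i : X.ι) (o κ : ℝ),
      (∀ c, ∀ x ∈ X.K.cell c, ∀ y ∈ X.K.cell c, |g.toFun x (X.co i) - g.toFun y (X.co i)| ≤ o) →
      (∀ j, X.fam j = X.fam i → 2 * o < |t j - κ|) → ∀ x ∈ X.K.carrier,
        (t i < κ → κ ≤ g.toFun x (X.co i) → t i + lam ≤ G.toFun x (X.co i)) ∧
        (κ < t i → g.toFun x (X.co i) ≤ κ → G.toFun x (X.co i) ≤ t i - lam)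

end P073.Bd
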