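import Vale.Agent.P073Y.Bd.Sk
import Vale.Agent.P073Z.CosFin

/-!
# The model in a cell
-/

open Set Metric Topology Filter
open scoped NNReal

namespace P073.Bd

namespace Cellm

variable {E : Type} [NormedAddCommGroup E] [NormedSpace ℝ E]

omit [NormedSpace ℝ E] in
/-- a continuous function with values `1`, `-1` is constant on a connected set -/
theorem const_sign {T : Set E} {u : E → ℝ} (hT : IsPreconnected T) (hu : ContinuousOn u T)
    (h : ∀ x ∈ T, u x = 1 ∨ u x = -1) : (∀ x ∈ T, u x = 1) ∨ ∀ x ∈ T, u x = -1 := by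
  by_contra hne
  rw [not_or] at hne
  obtain ⟨h1, h2⟩ := hne
  push Not at h1 h2
  obtain ⟨x, hx, hx1⟩ := h1
  obtain ⟨y, hy, hy1⟩ := h2
  have hx2 : u x = -1 := (h x hx).resolve_left hx1
  have hy2 : u y = 1 := (h y hy).resolve_right hy1
  have h0 : (0:ℝ) ∈ Icc (u x) (u y) := by
    rw [hx2, hy2]; constructor <;> norm_num
  obtain ⟨z, hz, hz0⟩ := hT.intermediate_value hx hy hu h0
  rcases h z hz with h3 | h3 <;> rw [h3] at hz0 <;> norm_num at hz0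

/-- the two sides of a circle on a sphere, the second one containing a given point -/
theorem sides {S J : Set E} {x₀ : E} (hS : ConSphere 2 S) (hJ : IsCircle J) (hJS : J ⊆ S)
    (hx : x₀ ∈ S) : ∃ P N, ConBall 2 P J ∧ ConBall 2 N J ∧ P ∪ N = S ∧ P ∩ N = J ∧ x₀ ∈ N := by
  obtain ⟨Δ₁, Δ₂, h1, h2, hu, hi, -⟩ := cos_thm.1 hS hJ hJS
  rw [← hu] at hx
  rcases hx with hx | hx
  · exact ⟨Δ₂, Δ₁, h2, h1, by rw [union_comm, hu], by rw [inter_comm, hi], hx⟩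
  · exact ⟨Δ₁, Δ₂, h1, h2, hu, hi, hx⟩

theorem sign_mem {ε s : ℝ} (hε : ε = 1 ∨ ε = -1) (hs : s ∈ I) : ε * s ∈ I := by
  rcases hε with h | h <;> subst h
  · simpa using hs
  · constructor <;> linarith [hs.1, hs.2]

/-- the glued band of one circle -/
theorem glue_one [FiniteDimensional ℝ E] (hB : BAS) (hG : GLUE) {π α κ : Type} [Finite π]
    [Finite α] {S : Set E} {L : ℝ≥0} (X : π → Set E) (home : α → π) (cir : α → κ)
    (β : α → Band E) {x₀ : E} (hS : ConSphere 2 S) (hSc : IsClosed S)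
    (hX : ∀ a, IsCompact (X a) ∧ LocCone (X a)) (hU : ⋃ a, X a = S)
    (hβ : ∀ a, (β a).Ok ∧ (β a).In (X (home a)) ∧ IsPreconnected (β a).W ∧ x₀ ∉ (β a).B ∧
      LipschitzOnWith L (β a).u (β a).B ∧ ∃ x ∈ (β a).W, X (home a) ∈ 𝓝[S] x)
    (hm : ∀ a a', cir a = cir a' → Match (β a) (β a'))
    (hsat : ∀ a φ, ∀ x ∈ (β a).B, x ∈ X φ → ∃ a', cir a' = cir a ∧ home a' = φ ∧ x ∈ (β a').B)
    (hx : x₀ ∈ S) (k : κ) (hJ : IsCircle (⋃ a, ⋃ (_ : cir a = k), (β a).W)) :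
    ∃ g : Band E, g.On S ∧ PwLip L g.u S ∧ g.u x₀ < 0 ∧
      g.W = (⋃ a, ⋃ (_ : cir a = k), (β a).W) ∧
      ConBall 2 {x ∈ S | 0 ≤ g.u x} g.W ∧ ConBall 2 {x ∈ S | g.u x ≤ 0} g.W ∧
      g.B = (⋃ a : {a // cir a = k}, (β a.1).B) ∧ ∀ a : {a // cir a = k}, Sgn (β a.1) g := by
  set J := ⋃ a, ⋃ (_ : cir a = k), (β a).W with hJdef
  have hBS : ∀ a, (β a).B ⊆ S := fun a x hx' => by
    rw [← hU]; exact mem_iUnion.2 ⟨home a, (hβ a).2.1.1 hx'⟩
  have hJS : J ⊆ S := by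
    intro x hx'
    obtain ⟨a, ha⟩ := mem_iUnion.1 hx'
    obtain ⟨_, ha⟩ := mem_iUnion.1 ha
    exact hBS a ha.1
  have hxJ : x₀ ∉ J := by
    intro hx'
    obtain ⟨a, ha⟩ := mem_iUnion.1 hx'
    obtain ⟨_, ha⟩ := mem_iUnion.1 ha
    exact (hβ a).2.2.2.1 ha.1
  obtain ⟨P, N, hP, hN, hPN, hI, hxN⟩ := sides hS hJ hJS hx
  have hJ' : J = ⋃ a : {a // cir a = k}, (β a.1).W := by
    ext x
    simp only [hJdef, mem_iUnion]
    constructor
    · rintro ⟨a, ha, hx'⟩; exact ⟨⟨a, ha⟩, hx'⟩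
    · rintro ⟨a, hx'⟩; exact ⟨a.1, a.2, hx'⟩
  have hPd : P \ J = P \ N := by
    rw [← hI]; ext x; simp only [Set.mem_sdiff, mem_inter_iff]; tauto
  have hNd : N \ J = N \ P := by
    rw [← hI]; ext x; simp only [Set.mem_sdiff, mem_inter_iff]; tauto
  obtain ⟨g, hon, hgB, hsg, hside, hlip⟩ := hG X (fun a : {a // cir a = k} => home a.1)
    (fun a => β a.1) (P := P) (N := N) hX (fun a => ⟨(hβ a.1).1, (hβ a.1).2.1⟩)
    (fun a a' => hm a.1 a'.1 (a.2.trans a'.2.symm))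
    (fun a φ x hx1 hx2 => by
      obtain ⟨a', h1, h2, h3⟩ := hsat a.1 φ x hx1 hx2
      exact ⟨⟨a', h1.trans a.2⟩, h2, h3⟩)
    hP.isCompact hP.locCone hN.isCompact hN.locCone (hPN.trans hU.symm) (hI.trans hJ')
    (fun a => by
      obtain ⟨x, hxW, hxn⟩ := (hβ a.1).2.2.2.2.2
      have hxJ' : x ∈ J := by rw [hJ']; exact mem_iUnion.2 ⟨a, hxW⟩
      refine ⟨(hβ a.1).2.2.1, x, hxW, by rw [hU]; exact hxn, ?_, ?_⟩
      · rw [← hPd]; exact (cos_thm.2.2 hP).2 (hP.1 hxJ')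
      · rw [← hNd]; exact (cos_thm.2.2 hN).2 (hN.1 hxJ'))
  rw [hU] at hon hside hlip
  have hPS : P ⊆ S := by rw [← hPN]; exact subset_union_left
  have hNS : N ⊆ S := by rw [← hPN]; exact subset_union_right
  have hPe : {x ∈ S | 0 ≤ g.u x} = P := by
    ext x
    exact ⟨fun h => ((hside x h.1).1).1 h.2, fun h => ⟨hPS h, ((hside x (hPS h)).1).2 h⟩⟩
  have hNe : {x ∈ S | g.u x ≤ 0} = N := by
    ext x
    exact ⟨fun h => ((hside x h.1).2).1 h.2, fun h => ⟨hNS h, ((hside x (hNS h)).2).2 h⟩⟩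
  have hW : g.W = J := by
    rw [(hB E).on_W hon, ← hI, ← hPe, ← hNe]
    ext x
    simp only [mem_ofPred_eq, mem_inter_iff]
    constructor
    · rintro ⟨h1, h2⟩; exact ⟨⟨h1, h2.ge⟩, h1, h2.le⟩
    · rintro ⟨⟨h1, h2⟩, -, h3⟩; exact ⟨h1, le_antisymm h3 h2⟩
  refine ⟨g, hon, hlip L S hSc Subset.rfl
    (fun a => (hβ a.1).2.2.2.2.1.mono inter_subset_left), ?_, hW, ?_, ?_, hgB, hsg⟩
  · by_contra h0
    have : x₀ ∈ P := ((hside x₀ hx).1).1 (not_lt.1 h0)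
    exact hxJ (hI ▸ ⟨this, hxN⟩)
  · rw [hPe, hW]; exact hP
  · rw [hNe, hW]; exact hN

end Cellm

open Cellm in
theorem cellm_of (hB : BAS) (hG : GLUE) (hC : GCOMM) {c : ℝ≥0} (h : CUPS 1 c) : CELLM c := by
  intro E _ _ _ π α κ _ _ _ C S M₁ M₂ L X home cir β x₀ hch hX hU hβ hJ hm hsat hcomm hx
  have hball : ConBall 3 C S := by
    obtain ⟨h1, φ, h2, -⟩ := hch
    exact ⟨h1, φ, h2⟩
  have hS : ConSphere 2 S := hball.conSphere
  have hSc : IsClosed S := hball.isCompact_bdry.isClosed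
  choose g hon hlip hneg hW hP hN hgB hsg using
    fun k => glue_one hB hG X home cir β hS hSc hX hU hβ hm hsat hx k (hJ k)
  have hgc : ∀ k l, k ≠ l → Comm (g k) (g l) := by
    intro k l hkl
    refine hC (fun a : {a // cir a = k} => β a.1) (fun a : {a // cir a = l} => β a.1) (g k) (g l)
      (fun a => (hβ a.1).1) (fun a => (hβ a.1).1) (hon k).ok (hgB k) (hgB l) (hsg k) (hsg l) ?_
    intro x h1 h2
    rw [hgB k] at h1
    rw [hgB l] at h2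
    obtain ⟨a, ha⟩ := mem_iUnion.1 h1
    obtain ⟨a', ha'⟩ := mem_iUnion.1 h2
    have hne : cir a.1 ≠ cir a'.1 := by rw [a.2, a'.2]; exact hkl
    exact ⟨a, a', ha, ha', hcomm _ _ hne, hcomm _ _ hne.symm⟩
  obtain ⟨γ, h1, h2, h3, -, h5⟩ := h g (x₀ := x₀) (L := L) hch (fun k => ⟨hon k, hlip k⟩) hgc hx
    hneg (fun k => ⟨hP k, hN k⟩)
  have hcirc : ∀ k, IsCircle (g k).W := fun k => by rw [hW k]; exact hJ k
  have hhalf : ∀ k, (g k).half.B = ⋃ a, ⋃ (_ : cir a = k), (β a).half.B := by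
    intro k
    ext x
    simp only [mem_iUnion, Band.half, mem_ofPred_eq]
    constructor
    · rintro ⟨hxB, hxu⟩
      rw [hgB k] at hxB
      obtain ⟨a, ha⟩ := mem_iUnion.1 hxB
      obtain ⟨ε, hε, hs⟩ := hsg k a
      refine ⟨a.1, a.2, ha, ?_⟩
      rw [(hs x ha).1, abs_mul] at hxu
      rcases hε with h0 | h0 <;> simpa [h0] using hxu
    · rintro ⟨a, hak, ha, hxu⟩
      obtain ⟨ε, hε, hs⟩ := hsg k ⟨a, hak⟩
      refine ⟨by rw [hgB k]; exact mem_iUnion.2 ⟨⟨a, hak⟩, ha⟩, ?_⟩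
      rw [(hs x ha).1, abs_mul]
      rcases hε with h0 | h0 <;> simpa [h0] using hxu
  have hconst : ∀ k l, Disjoint (g k).B (g l).B →
      (∀ x ∈ (g l).B, (g k).u x = 1) ∨ ∀ x ∈ (g l).B, (g k).u x = -1 := by
    intro k l hd
    refine const_sign ((hB E).pre (hon l).ok (A12.circle_isConnected (hcirc l)).isPreconnected).1
      ((hon k).upl.1.mono (hon l).sub) ?_
    intro x hxl
    exact (hon k).out x ((hon l).sub hxl) (fun hxk => disjoint_left.1 hd hxk hxl)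
  refine ⟨γ, fun k => ⟨(h1 k).1, ?_, ?_, (h1 k).2.2.1⟩, ?_, fun k l hkl => ⟨h2 k l hkl, ?_, ?_⟩⟩
  · rw [← hW k]; exact (h1 k).2.2.2
  · rw [← hhalf k]; exact (h1 k).2.1.1
  · intro a x hxa _
    obtain ⟨ε, hε, hs⟩ := (hB E).sgn_half (hsg (cir a) ⟨a, rfl⟩)
    have hxg : x ∈ (g (cir a)).half.B := by
      rw [hhalf]; exact mem_iUnion.2 ⟨a, mem_iUnion.2 ⟨rfl, hxa⟩⟩
    have hxS : x ∈ S := (hon (cir a)).sub hxg.1
    obtain ⟨-, e1, e2⟩ := (h1 (cir a)).2.1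
    refine ⟨ε, hε, ?_, fun s hs' => ?_⟩
    · rw [e1 x hxS]; exact (hs x hxa).1
    · rw [e2 x hxg _ (sign_mem hε hs')]; exact (hs x hxa).2 s hs'
  · intro hd
    have hd' : Disjoint (g k).B (g l).B := by
      rw [hgB k, hgB l, disjoint_iUnion_left]
      intro a
      rw [disjoint_iUnion_right]
      intro a'
      exact hd a.1 a'.1 a.2 a'.2
    exact h3 k l hkl (hconst k l hd') (hconst l k hd'.symm)
  · exact h5 k l hkl (hcirc k) (hcirc l)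

end P073.Bd
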