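import Vale.Agent.P073Y.Bd.Sk
import Vale.Agent.P073Z.RCX
import Vale.Agent.P073Z.A12
import Vale.Agent.P073Z.DISC2.Path

/-!
# The model in a face
-/

open Set Metric Topology Filter
open scoped NNReal

namespace P073.Bd

namespace Facem

variable {E : Type}

theorem mem_B {b : Band E} {y : E} (h : b.W = {y}) : y ∈ b.B :=
  (h.ge (mem_singleton y)).1

theorem abs_sgn {b g : Band E} (h : Sgn b g) {x : E} (hx : x ∈ b.B) : |g.u x| = |b.u x| := by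
  obtain ⟨ε, rfl | rfl, h⟩ := h <;> simp [(h x hx).1]

theorem match_of {b g a : Band E} {S : Set E} (h : Sgn b g) (he : Ext a g S) (hs : b.B ⊆ g.B) :
    Match b a := by
  obtain ⟨ε, h0, h⟩ := h
  refine fun x hx _ => ⟨ε, h0, (he.2.1 x (he.1.ge (hs hx)).2).trans (h x hx).1, fun s hs' => ?_⟩
  refine (he.2.2 x (hs hx) _ ?_).trans ((h x hx).2 s hs')
  rcases h0 with rfl | rfl
  · rwa [one_mul]
  · exact ⟨by linarith [hs'.2], by linarith [hs'.1]⟩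

theorem iUnion_bool (f : Bool → Set E) : ⋃ t, f t = f true ∪ f false := iSup_bool_eq

variable [NormedAddCommGroup E] [NormedSpace ℝ E]

/-- the band on the boundary circle which belongs to a pair of points -/
theorem exists_band [FiniteDimensional ℝ E] (hB : BAS) (hG : GLUE) {C S : Set E} {L : ℝ≥0}
    {p q x₀ : E} (z : E → Band E) (hC : ConBall 2 C S) (hp : p ∈ S) (hq : q ∈ S) (hpq : p ≠ q)
    (hz : ∀ y ∈ ({p, q} : Set E), (z y).Ok ∧ (z y).In S ∧ (z y).W = {y} ∧ x₀ ∉ (z y).B ∧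
      LipschitzOnWith L (z y).u (z y).B) (hd : Disjoint (z p).B (z q).B) (hx : x₀ ∈ S) :
    ∃ g : Band E, g.On S ∧ PwLip L g.u S ∧ g.B = (z p).B ∪ (z q).B ∧ Sgn (z p) g ∧ Sgn (z q) g ∧
      g.u x₀ < 0 ∧ g.W = {p, q} ∧ IsArc {x ∈ S | 0 ≤ g.u x} p q ∧ IsArc {x ∈ S | g.u x ≤ 0} p q := by
  have zp := hz p (Or.inl rfl)
  have zq := hz q (Or.inr rfl)
  obtain ⟨P, N, h1, h2, h3, h4, h5⟩ : ∃ P N, IsArc P p q ∧ IsArc N p q ∧ P ∪ N = S ∧
      P ∩ N = {p, q} ∧ x₀ ∉ P := by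
    obtain ⟨P, N, h1, h2, h3, h4, -⟩ := arcs.2.2.1 (mod_thm.2.2.1.2 hC.conSphere) hp hq hpq
    by_cases h : x₀ ∈ P
    · refine ⟨N, P, h2, h1, by rw [union_comm, h3], by rw [inter_comm, h4], fun h' => ?_⟩
      rcases h4.le ⟨h, h'⟩ with rfl | rfl
      exacts [zp.2.2.2.1 (mem_B zp.2.2.1), zq.2.2.2.1 (mem_B zq.2.2.1)]
    · exact ⟨P, N, h1, h2, h3, h4, h⟩
  have e0 : (⋃ _ : Unit, S) = S := iUnion_const S
  have e1 : ∀ y ∈ ({p, q} : Set E), y ∈ closure (P \ N) ∧ y ∈ closure (N \ P) := fun y hy =>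
    ⟨closure_mono (fun x a => And.intro a.1 fun b => a.2 (h4.le ⟨a.1, b⟩))
      (h1.conBall.subset_closure_int (h1.conBall.1 hy)),
    closure_mono (fun x a => And.intro a.1 fun b => a.2 (h4.le ⟨b, a.1⟩))
      (h2.conBall.subset_closure_int (h2.conBall.1 hy))⟩
  have e2 : ∀ t : Bool, cond t p q ∈ ({p, q} : Set E) := by
    rintro (_ | _)
    exacts [Or.inr rfl, Or.inl rfl]
  obtain ⟨g, g1, g2, g3, g4, g5⟩ := hG (fun _ : Unit => S) (fun _ : Bool => ())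
    (fun t => z (cond t p q)) (fun _ => ⟨hC.isCompact_bdry, hC.locCone_bdry⟩)
    (fun t => ⟨(hz _ (e2 t)).1, (hz _ (e2 t)).2.1⟩)
    (by
      rintro (_ | _) (_ | _)
      exacts [(hB E).match_refl _, fun x a b => absurd a (disjoint_left.1 hd b),
        fun x a b => absurd b (disjoint_left.1 hd a), (hB E).match_refl _])
    (fun k _ _ a _ => ⟨k, rfl, a⟩) h1.conBall.isCompact h1.locCone h2.conBall.isCompact h2.locCone
    (h3.trans e0.symm)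
    (by rw [h4, iUnion_bool, cond_true, cond_false, zp.2.2.1, zq.2.2.1]; rfl)
    (fun t => ⟨(hz _ (e2 t)).2.2.1 ▸ isPreconnected_singleton, _,
      (hz _ (e2 t)).2.2.1.ge (mem_singleton _), e0.symm ▸ self_mem_nhdsWithin, e1 _ (e2 t)⟩)
  rw [e0] at g1 g4 g5
  have e3 : {x ∈ S | 0 ≤ g.u x} = P :=
    Set.ext fun x => ⟨fun a => (g4 x a.1).1.1 a.2, fun a =>
      ⟨h3.le (Or.inl a), (g4 x (h3.le (Or.inl a))).1.2 a⟩⟩
  have e4 : {x ∈ S | g.u x ≤ 0} = N :=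
    Set.ext fun x => ⟨fun a => (g4 x a.1).2.1 a.2, fun a =>
      ⟨h3.le (Or.inr a), (g4 x (h3.le (Or.inr a))).2.2 a⟩⟩
  refine ⟨g, g1, g5 L S hC.isCompact_bdry.isClosed Subset.rfl fun t =>
    (hz _ (e2 t)).2.2.2.2.mono inter_subset_left, ?_, g3 true, g3 false,
    not_le.1 fun a => h5 ((g4 _ hx).1.1 a), ?_, e3 ▸ h1, e4 ▸ h2⟩
  · exact g2.trans (iUnion_bool _)
  · rw [(hB E).on_W g1, ← h4, ← e3, ← e4]
    exact Set.ext fun x => ⟨fun a => ⟨⟨a.1, a.2.ge⟩, a.1, a.2.le⟩,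
      fun a => ⟨a.1.1, le_antisymm a.2.2 a.1.2⟩⟩

end Facem

open Facem

theorem facem_of (hB : BAS) (hG : GLUE) {c : ℝ≥0} (h : CUPS 0 c) : FACEM c := by
  intro E _ _ _ κ _ C S M₁ M₂ L A p q z x₀ hC hA hpq hz hd hx
  have hC' : ConBall 2 C S := ⟨hC.1, hC.2.imp fun _ a => a.1⟩
  choose g g1 g2 g3 g4 g5 g6 g7 g8 g9 using fun k => exists_band hB hG z hC'
    ((hA k).2.2.ge (Or.inl rfl)).2 ((hA k).2.2.ge (Or.inr rfl)).2 (hA k).1.ne (hz k)
    (hd k k _ (Or.inl rfl) _ (Or.inr rfl) (hA k).1.ne) hx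
  have h1 : ∀ k l, k ≠ l → Disjoint (g k).B (g l).B := fun k l a => by
    have b : ∀ y ∈ ({p k, q k} : Set E), ∀ y' ∈ ({p l, q l} : Set E), Disjoint (z y).B (z y').B :=
      fun y c y' d => hd k l y c y' d fun e => disjoint_left.1 (hpq k l a) c (e ▸ d)
    rw [g3, g3, disjoint_union_left, disjoint_union_right, disjoint_union_right]
    exact ⟨⟨b _ (Or.inl rfl) _ (Or.inl rfl), b _ (Or.inl rfl) _ (Or.inr rfl)⟩,
      b _ (Or.inr rfl) _ (Or.inl rfl), b _ (Or.inr rfl) _ (Or.inr rfl)⟩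
  obtain ⟨a, a1, a2, a3, a4, -⟩ := h g hC (fun k => ⟨g1 k, g2 k⟩)
    (fun k l b => (hB E).comm_of_disjoint (g1 k).ok (h1 k l b)) hx g6
    fun k => g7 k ▸ ⟨(g8 k).conBall, (g9 k).conBall⟩
  have h2 : ∀ k l, k ≠ l → Disjoint (A k) (A l) →
      (∀ x ∈ (g l).B, (g k).u x = 1) ∨ ∀ x ∈ (g l).B, (g k).u x = -1 := by
    intro k l b1 b2
    obtain ⟨D₁, D₂, c1, c2, c3, c4, c5, c6⟩ := xc hC' (hA k).1 (hA k).2.1 (hA k).2.2 (g8 k) (g9 k)
      (Set.ext fun x => ⟨fun a => a.elim And.left And.left, fun a =>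
        (le_total 0 ((g k).u x)).imp (And.intro a) (And.intro a)⟩)
      (by
        rw [← g7, (hB E).on_W (g1 k)]
        exact Set.ext fun x => ⟨fun a => ⟨a.1.1, le_antisymm a.2.2 a.1.2⟩,
          fun a => ⟨⟨a.1, a.2.ge⟩, a.1, a.2.le⟩⟩)
    have d : ∀ y ∈ ({p l, q l} : Set E), IsPreconnected (z y).B := fun y hy =>
      ((hB E).pre (hz l y hy).1 ((hz l y hy).2.2.1 ▸ isPreconnected_singleton)).1
    have d1 : IsPreconnected (A l ∪ (g l).B) := by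
      rw [g3, ← union_assoc]
      exact (((hA l).1.conBall.isConnected.isPreconnected.union _ (hA l).1.left_mem
        (mem_B (hz l _ (Or.inl rfl)).2.2.1) (d _ (Or.inl rfl))).union _ (Or.inl (hA l).1.right_mem)
        (mem_B (hz l _ (Or.inr rfl)).2.2.1) (d _ (Or.inr rfl)))
    have d2 : ∀ x ∈ (g l).B, (g k).u x = 1 ∨ (g k).u x = -1 := fun x hx' =>
      (g1 k).out x ((g1 l).sub hx') (disjoint_right.1 (h1 k l b1) hx')
    refine (isPreconnected_iff_subset_of_disjoint_closed.1 d1 D₁ D₂ c1.isClosed c2.isClosed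
      (c3 ▸ union_subset (hA l).2.1 ((g1 l).sub.trans hC.1))
      (eq_empty_of_forall_notMem fun x hx' => ?_)).imp (fun e x hx' => ?_) fun e x hx' => ?_
    · rw [c4] at hx'
      rcases hx'.1 with e | e
      · exact disjoint_left.1 b2 hx'.2 e
      · exact disjoint_left.1 (h1 k l b1)
          ((g7 k).ge ((hA k).2.2.le ⟨hx'.2, (g1 l).sub e⟩)).1 e
    · have := (c5.le ⟨e (Or.inr hx'), (g1 l).sub hx'⟩).2
      exact (d2 x hx').resolve_right fun f => by linarith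
    · have := (c6.le ⟨e (Or.inr hx'), (g1 l).sub hx'⟩).2
      exact (d2 x hx').resolve_left fun f => by linarith
  have h3 : ∀ k {y}, Sgn (z y) (g k) → (z y).B ⊆ (g k).B → (z y).half.B ⊆ (g k).half.B :=
    fun k y b1 b2 x hx' => ⟨b2 hx'.1, (abs_sgn b1 hx'.1).trans_le hx'.2⟩
  refine ⟨a, fun k => ⟨(a1 k).1, ?_, (a1 k).2.1.1.trans (Subset.antisymm ?_ ?_), ?_, ?_,
    (a1 k).2.2.1⟩, fun k l b => ⟨a2 k l b, fun b' => a3 k l b (h2 k l b b') (h2 l k b.symm b'.symm),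
    a4 k l _ _ b (g7 l) ⟨_, _, g7 k⟩ (by rw [g7, g7]; exact hpq k l b)⟩⟩
  · obtain ⟨p', q', b1, b2⟩ := (a1 k).2.2.2.one_arc
    rcases pair_eq_pair_iff.1 ((g7 k).symm.trans b2) with ⟨e, e'⟩ | ⟨e, e'⟩ <;> rw [e, e']
    exacts [b1, b1.symm]
  · exact fun x hx' => ((g3 k).le hx'.1).imp (fun b => ⟨b, (abs_sgn (g4 k) b).symm.trans_le hx'.2⟩)
      fun b => ⟨b, (abs_sgn (g5 k) b).symm.trans_le hx'.2⟩
  · exact union_subset (h3 k (g4 k) (g3 k ▸ subset_union_left))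
      (h3 k (g5 k) (g3 k ▸ subset_union_right))
  · exact match_of ((hB E).sgn_half (g4 k)) (a1 k).2.1 (h3 k (g4 k) (g3 k ▸ subset_union_left))
  · exact match_of ((hB E).sgn_half (g5 k)) (a1 k).2.1 (h3 k (g5 k) (g3 k ▸ subset_union_right))

end P073.Bd
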