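import Vale.Agent.P073Y.Bd.Sk
import Vale.Agent.P073Y.Cut.One
import Vale.Agent.P073Z.A3

/-!
# Straightening of one family of bands
-/

open Set Metric Topology Filter

namespace P073.Bd

namespace Flat1

theorem cl_of_mem {s : ℝ} (hs : s ∈ I) : cl s = s := by
  unfold cl
  rw [min_eq_left hs.2, max_eq_right hs.1]

theorem cl_of_ge {s : ℝ} (h : 1 ≤ s) : cl s = 1 := by
  unfold cl
  rw [min_eq_right h, max_eq_right (by norm_num)]

theorem cl_of_le {s : ℝ} (h : s ≤ -1) : cl s = -1 := by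
  unfold cl
  rw [min_eq_left (by linarith), max_eq_left h]

theorem div_mem {a lam : ℝ} (hlam : 0 < lam) (h : |a| ≤ lam) : a / lam ∈ I := by
  rw [abs_le] at h
  exact ⟨by rw [le_div_iff₀ hlam]; linarith [h.1], by rw [div_le_iff₀ hlam]; linarith [h.2]⟩

theorem zero_mem : (0:ℝ) ∈ I := ⟨by norm_num, by norm_num⟩

theorem abs_le_of_mem {s lam : ℝ} (hlam : 0 < lam) (hs : s ∈ I) : |lam * s| ≤ lam := by
  rw [abs_le]
  constructor <;> nlinarith [hs.1, hs.2]

variable {E F : Type} [NormedAddCommGroup E] [NormedSpace ℝ E]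
  [NormedAddCommGroup F] [NormedSpace ℝ F]

/-- a level set of a conical map is conical -/
theorem conicalSet_level {G : Type} [NormedAddCommGroup G] [NormedSpace ℝ G] {X : Set E}
    {f : E → G} (hf : ConicalOn f X) (c : G) : ConicalSet {x ∈ X | f x = c} := by
  intro x hx
  obtain ⟨r, hr, H⟩ := hf x hx.1
  refine ⟨r, hr, fun v hv hxv s hs => ?_⟩
  obtain ⟨h1, h2⟩ := H v hv hxv.1 s hs
  refine ⟨h1, ?_⟩
  rw [h2, hxv.2, hx.2, sub_self, smul_zero, add_zero]

/-- the affine parametrisation of an interval -/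
noncomputable def aff (t : ℝ) {lam : ℝ} (hlam : 0 < lam) :
    ConHomeo I (Icc (t - lam) (t + lam)) where
  toFun s := t + lam * s
  invFun y := (y - t) / lam
  mapsTo := fun s hs => by
    have := abs_le.1 (abs_le_of_mem hlam hs)
    exact ⟨by linarith [this.1], by linarith [this.2]⟩
  mapsTo_inv := fun y hy => div_mem hlam (abs_le.2 ⟨by linarith [hy.1], by linarith [hy.2]⟩)
  left_inv := fun s _ => by field_simp; ring
  right_inv := fun y _ => by field_simp; ring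
  cont := by fun_prop
  cont_inv := by fun_prop
  conical := by
    have hI : ConicalSet I := Convex.conicalSet (convex_Icc _ _)
    exact (conicalOn_const t hI).add ((conicalOn_id hI).const_smul lam)

/-- a horizontal slice -/
def slice {Y : Set F} (hY : ConicalSet Y) (c : ℝ) : ConHomeo Y (Y ×ˢ ({c} : Set ℝ)) where
  toFun y := (y, c)
  invFun q := q.1
  mapsTo := fun _ hy => ⟨hy, rfl⟩
  mapsTo_inv := fun _ hq => hq.1
  left_inv := fun _ _ => rfl
  right_inv := fun _ hq => Prod.ext rfl (mem_singleton_iff.1 hq.2).symm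
  cont := by fun_prop
  cont_inv := by fun_prop
  conical := (conicalOn_id hY).prodMk (conicalOn_const c hY)

theorem ball_slice {n : ℕ} {Y Y₀ : Set F} (hY : ConBall n Y Y₀) (c : ℝ) :
    ConBall n (Y ×ˢ ({c} : Set ℝ)) (Y₀ ×ˢ ({c} : Set ℝ)) := by
  have h := hY.image (slice hY.conicalSet c) subset_rfl
  rw [ConHomeo.image_eq] at h
  have e : (slice hY.conicalSet c).toFun '' Y₀ = Y₀ ×ˢ ({c} : Set ℝ) := prod_singleton.symm
  rwa [e] at h

/-- the band is straight on `S` for the map `f` -/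
def Fit (b : Band E) (S : Set E) (f : E → F × ℝ) (t lam : ℝ) : Prop := ∀ x ∈ S,
  (x ∈ b.B ↔ |(f x).2 - t| ≤ lam) ∧ b.u x = cl (((f x).2 - t) / lam) ∧
    (x ∈ b.B → ∀ s ∈ I, b.M (x, s) ∈ S ∧ f (b.M (x, s)) = ((f x).1, t + lam * s))

omit [NormedAddCommGroup E] [NormedSpace ℝ E] [NormedAddCommGroup F] [NormedSpace ℝ F] in
theorem Fit.snd {b : Band E} {S : Set E} {f : E → F × ℝ} {t lam : ℝ} (h : Fit b S f t lam)
    (hlam : 0 < lam) {x : E} (hx : x ∈ S) (hxB : x ∈ b.B) : (f x).2 = t + lam * b.u x := by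
  obtain ⟨h1, h2, -⟩ := h x hx
  rw [h2, cl_of_mem (div_mem hlam (h1.1 hxB))]
  field_simp
  ring

section one

variable {n : ℕ} {C S : Set E} {Y Y₀ : Set F} {lo hi lam t : ℝ} {b : Band E}

omit [NormedAddCommGroup F] [NormedSpace ℝ F] in
theorem fst_mem {q : F × ℝ} (hq : q ∈ Y₀ ×ˢ Icc lo hi ∪ Y ×ˢ ({lo, hi} : Set ℝ))
    (h1 : lo < q.2) (h2 : q.2 < hi) : q.1 ∈ Y₀ := by
  rcases hq with hq | hq
  · exact hq.1
  · rcases hq.2 with h | h
    · exact absurd h h1.ne'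
    · exact absurd (mem_singleton_iff.1 h) h2.ne

/-- the wall is identified with `Y` -/
theorem exists_wall (φ : ConHomeo S (Y₀ ×ˢ Icc lo hi ∪ Y ×ˢ {lo, hi})) (hY : ConBall n Y Y₀)
    (hlam : 0 < lam) (h1 : lo < t - lam) (h2 : t + lam < hi) (hW : ConBall n b.W (b.W ∩ S))
    (hf : Fit b S φ.toFun t lam) :
    ∃ h : ConHomeo b.W Y, ∀ x ∈ b.W ∩ S, h.toFun x = (φ.toFun x).1 := by
  have hsnd : ∀ x ∈ b.W ∩ S, (φ.toFun x).2 = t := fun x hx => by
    rw [hf.snd hlam hx.2 hx.1.1, hx.1.2, mul_zero, add_zero]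
  obtain ⟨Q, hQ⟩ := Sh.exists_ofCompact (Y := Y₀) hW.isCompact_bdry (fun x => (φ.toFun x).1)
    (φ.cont.mono inter_subset_right).fst
    (fun x hx y hy hxy => φ.injOn hx.2 hy.2 (Prod.ext hxy ((hsnd x hx).trans (hsnd y hy).symm)))
    ((φ.conical.mono hW.conicalSet_bdry inter_subset_right).linear_comp (LinearMap.fst ℝ F ℝ))
    (by
      refine Subset.antisymm ?_ fun y hy => ?_
      · rintro _ ⟨x, hx, rfl⟩
        exact fst_mem (φ.mapsTo hx.2) (by rw [hsnd x hx]; linarith) (by rw [hsnd x hx]; linarith)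
      · have hq : (y, t) ∈ Y₀ ×ˢ Icc lo hi ∪ Y ×ˢ ({lo, hi} : Set ℝ) :=
          Or.inl ⟨hy, by constructor <;> linarith⟩
        have hx := φ.mapsTo_inv hq
        have e := φ.right_inv hq
        obtain ⟨a1, a2, -⟩ := hf _ hx
        rw [e] at a1 a2
        refine ⟨_, ⟨⟨a1.2 (by simpa using hlam.le), ?_⟩, hx⟩, by simp only [e]⟩
        rw [a2]
        simpa using cl_of_mem zero_mem)
  obtain ⟨h, hh, -⟩ := hW.exists_extend hY Q
  exact ⟨h, fun x hx => by rw [hh hx, hQ]⟩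

/-- the straight chart of a band -/
structure Str (b : Band E) (S : Set E) (Y : Set F) (T : Set (F × ℝ)) (f : E → F × ℝ) (t lam : ℝ)
    (g : ConHomeo b.B (Y ×ˢ Icc (t - lam) (t + lam))) : Prop where
  snd : ∀ x ∈ b.B, (g.toFun x).2 = t + lam * b.u x
  mov : ∀ x ∈ b.B, ∀ s ∈ I, g.toFun (b.M (x, s)) = ((g.toFun x).1, t + lam * s)
  eq : ∀ x ∈ b.B, x ∈ S → g.toFun x = f x
  bd : ∀ x ∈ b.B, g.toFun x ∈ T → x ∈ S

theorem exists_str (hB : Bas E) (φ : ConHomeo S (Y₀ ×ˢ Icc lo hi ∪ Y ×ˢ {lo, hi}))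
    (hY : ConBall n Y Y₀) (hlam : 0 < lam) (h1 : lo < t - lam) (h2 : t + lam < hi) (hb : b.Ok)
    (hW : ConBall n b.W (b.W ∩ S)) (hf : Fit b S φ.toFun t lam) :
    ∃ g, Str b S Y (Y₀ ×ˢ Icc lo hi ∪ Y ×ˢ {lo, hi}) φ.toFun t lam g := by
  obtain ⟨h, hh⟩ := exists_wall φ hY hlam h1 h2 hW hf
  obtain ⟨Φ, -, hΦ⟩ := hB.chart hb
  let g : ConHomeo b.B (Y ×ˢ Icc (t - lam) (t + lam)) := Φ.symm.trans (Sh.prod h (aff t hlam))
  have hg : ∀ x, g.toFun x = (h.toFun (b.M (x, 0)), t + lam * b.u x) := fun x => by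
    show (h.toFun (Φ.invFun x).1, t + lam * (Φ.invFun x).2) = _
    rw [hΦ]
  have heq : ∀ x ∈ b.B, x ∈ S → g.toFun x = φ.toFun x := fun x hx hxS => by
    obtain ⟨a1, a2⟩ := (hf x hxS).2.2 hx 0 zero_mem
    rw [hg, hh _ ⟨hb.Mmem x hx 0 zero_mem, a1⟩, a2, ← hf.snd hlam hxS hx]
  refine ⟨g, fun x _ => by rw [hg], fun x hx s hs => ?_, heq, fun x hx hq => ?_⟩
  · rw [hg, hg, hb.MM x hx s hs 0 zero_mem, (hb.Mmem x hx s hs).2]
  · have hx' := φ.mapsTo_inv hq
    have e := φ.right_inv hq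
    have hB' : φ.invFun (g.toFun x) ∈ b.B := by
      refine (hf _ hx').1.2 ?_
      rw [e, hg]
      simpa using abs_le_of_mem hlam (hb.urange x hx)
    have : φ.invFun (g.toFun x) = x := g.injOn hB' hx ((heq _ hB' hx').trans e)
    exact this ▸ hx'

variable {T : Set (F × ℝ)} {f : E → F × ℝ} {g : ConHomeo b.B (Y ×ˢ Icc (t - lam) (t + lam))}

theorem Str.img (hg : Str b S Y T f t lam g) (hlam : 0 < lam) {s : ℝ} (hs : s ∈ I) :
    g.toFun '' {x ∈ b.B | b.u x = s} = Y ×ˢ {t + lam * s} := by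
  refine Subset.antisymm ?_ fun q hq => ?_
  · rintro _ ⟨x, hx, rfl⟩
    exact ⟨(g.mapsTo hx.1).1, by rw [mem_singleton_iff, hg.snd x hx.1, hx.2]⟩
  · have e0 : q.2 = t + lam * s := hq.2
    have hq' : q ∈ Y ×ˢ Icc (t - lam) (t + lam) := ⟨hq.1, e0 ▸ (aff t hlam).mapsTo hs⟩
    have hx := g.mapsTo_inv hq'
    have e := g.right_inv hq'
    refine ⟨_, ⟨hx, ?_⟩, e⟩
    have := hg.snd _ hx
    rw [e, e0, add_right_inj] at this
    exact (mul_left_cancel₀ hlam.ne' this).symm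

/-- the levels of a band are walls -/
theorem Str.wall {φ : ConHomeo S (Y₀ ×ˢ Icc lo hi ∪ Y ×ˢ {lo, hi})}
    (hg : Str b S Y (Y₀ ×ˢ Icc lo hi ∪ Y ×ˢ {lo, hi}) φ.toFun t lam g) (hY : ConBall n Y Y₀)
    (hlam : 0 < lam) (h1 : lo < t - lam) (h2 : t + lam < hi) (hb : b.On C) {s : ℝ} (hs : s ∈ I) :
    {x ∈ b.B | b.u x = s} ⊆ C ∧ ConBall n {x ∈ b.B | b.u x = s} ({x ∈ b.B | b.u x = s} ∩ S) ∧
      Y ×ˢ {t + lam * s} ⊆ Y ×ˢ Icc lo hi ∧
      ConBall n (Y ×ˢ {t + lam * s})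
        (Y ×ˢ {t + lam * s} ∩ (Y₀ ×ˢ Icc lo hi ∪ Y ×ˢ {lo, hi})) ∧
      φ.toFun '' ({x ∈ b.B | b.u x = s} ∩ S) =
        Y ×ˢ {t + lam * s} ∩ (Y₀ ×ˢ Icc lo hi ∪ Y ×ˢ {lo, hi}) ∧
      EqOn g.toFun φ.toFun ({x ∈ b.B | b.u x = s} ∩ S) ∧
      ∃ χ : ConHomeo {x ∈ b.B | b.u x = s} (Y ×ˢ {t + lam * s}),
        EqOn χ.toFun g.toFun {x ∈ b.B | b.u x = s} := by
  have hc : t + lam * s ∈ Icc (t - lam) (t + lam) := (aff t hlam).mapsTo hs
  have hc1 : lo < t + lam * s := h1.trans_le hc.1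
  have hc2 : t + lam * s < hi := hc.2.trans_lt h2
  have e : Y ×ˢ ({t + lam * s} : Set ℝ) ∩ (Y₀ ×ˢ Icc lo hi ∪ Y ×ˢ {lo, hi}) =
      Y₀ ×ˢ {t + lam * s} := by
    refine Subset.antisymm (fun q hq => ⟨?_, hq.1.2⟩) fun q hq => ⟨⟨hY.1 hq.1, hq.2⟩, ?_⟩
    · have e0 : q.2 = t + lam * s := hq.1.2
      exact fst_mem hq.2 (e0 ▸ hc1) (e0 ▸ hc2)
    · have e0 : q.2 = t + lam * s := hq.2
      exact Or.inl ⟨hq.1, e0 ▸ hc1.le, e0 ▸ hc2.le⟩
  have hE : EqOn g.toFun φ.toFun ({x ∈ b.B | b.u x = s} ∩ S) := fun x hx => hg.eq x hx.1.1 hx.2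
  let χ : ConHomeo {x ∈ b.B | b.u x = s} (Y ×ˢ {t + lam * s}) :=
    (g.restr (conicalSet_level hb.ok.upl.2 s) fun _ hx => hx.1).cast rfl (hg.img hlam hs)
  have hχ : χ.toFun = g.toFun := rfl
  have himg : g.toFun '' ({x ∈ b.B | b.u x = s} ∩ S) =
      Y ×ˢ {t + lam * s} ∩ (Y₀ ×ˢ Icc lo hi ∪ Y ×ˢ {lo, hi}) := by
    refine Subset.antisymm ?_ fun q hq => ?_
    · rintro _ ⟨x, hx, rfl⟩
      exact ⟨χ.mapsTo hx.1, hE hx ▸ φ.mapsTo hx.2⟩
    · obtain ⟨x, hx, rfl⟩ : q ∈ g.toFun '' {x ∈ b.B | b.u x = s} := hg.img hlam hs ▸ hq.1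
      exact ⟨x, ⟨hx, hg.bd x hx.1 hq.2⟩, rfl⟩
  have hball : ConBall n (Y ×ˢ {t + lam * s})
      (Y ×ˢ {t + lam * s} ∩ (Y₀ ×ˢ Icc lo hi ∪ Y ×ˢ {lo, hi})) := by
    rw [e]
    exact ball_slice hY _
  refine ⟨fun x hx => hb.sub hx.1, ?_, prod_mono subset_rfl ?_, hball, hE.image_eq ▸ himg, hE,
    χ, fun _ _ => rfl⟩
  · have h3 := hball.image χ.symm subset_rfl
    rw [ConHomeo.image_eq, ← himg, image_image] at h3
    have : ∀ x ∈ {x ∈ b.B | b.u x = s} ∩ S, χ.symm.toFun (g.toFun x) = x :=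
      fun x hx => χ.left_inv hx.1
    rwa [image_congr this, image_id'] at h3
  · rw [singleton_subset_iff]
    exact ⟨hc1.le, hc2.le⟩

/-- position of the band and sign of the level function after the extension -/
theorem Str.sides {φ : ConHomeo S (Y₀ ×ˢ Icc lo hi ∪ Y ×ˢ {lo, hi})}
    (hg : Str b S Y (Y₀ ×ˢ Icc lo hi ∪ Y ×ˢ {lo, hi}) φ.toFun t lam g) (hY : ConBall (n + 1) Y Y₀)
    (hlam : 0 < lam) (h1 : lo < t - lam) (h2 : t + lam < hi) (hb : b.On C) (hC : IsClosed C)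
    (hSC : S ⊆ C) (hf : Fit b S φ.toFun t lam) (Φ : ConHomeo C (Y ×ˢ Icc lo hi))
    (hΦ : EqOn Φ.toFun φ.toFun S) (hΦg : ∀ x ∈ b.B, |b.u x| = 1 → Φ.toFun x = g.toFun x) :
    ∀ x ∈ C, (x ∈ b.B ↔ |(Φ.toFun x).2 - t| ≤ lam) ∧ (t + lam < (Φ.toFun x).2 → b.u x = 1) ∧
      ((Φ.toFun x).2 < t - lam → b.u x = -1) := by
  obtain ⟨y₀, hy₀⟩ := Cut.bdry_nonempty hY
  have hV : IsClosed {x ∈ C | |b.u x| = 1} :=
    hb.upl.1.abs.preimage_isClosed_of_isClosed hC (t := {1}) isClosed_singleton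
  have hcov : C ⊆ b.B ∪ {x ∈ C | |b.u x| = 1} := fun x hx => by
    by_cases hxB : x ∈ b.B
    · exact Or.inl hxB
    · refine Or.inr ⟨hx, ?_⟩
      rcases hb.out x hx hxB with h | h <;> rw [h] <;> norm_num
  have hwall : ∀ x ∈ b.B, |b.u x| = 1 → |(Φ.toFun x).2 - t| = lam := fun x hx h => by
    rw [hΦg x hx h, hg.snd x hx, add_sub_cancel_left, abs_mul, h, mul_one, abs_of_pos hlam]
  -- the preimage of a horizontal region
  have key : ∀ J : Set ℝ, J ⊆ Icc lo hi → IsPreconnected J → (∀ c ∈ J, |c - t| ≠ lam) →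
      ∀ c ∈ J, ∃ R : Set E, R ⊆ C ∧ IsPreconnected R ∧ (∀ x ∈ C, (Φ.toFun x).2 ∈ J → x ∈ R) ∧
        (R ⊆ b.B ∧ Disjoint R {x ∈ C | |b.u x| = 1} ∨
          R ⊆ {x ∈ C | |b.u x| = 1} ∧ Disjoint R b.B) ∧
        ∃ x₀ ∈ R, (x₀ ∈ b.B ↔ |c - t| ≤ lam) ∧ b.u x₀ = cl ((c - t) / lam) := by
    intro J hJ hJc hne c hc
    have hsub : Y ×ˢ J ⊆ Y ×ˢ Icc lo hi := prod_mono subset_rfl hJ
    have hRC : Φ.invFun '' (Y ×ˢ J) ⊆ C := by
      rintro _ ⟨q, hq, rfl⟩
      exact Φ.mapsTo_inv (hsub hq)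
    have hR : IsPreconnected (Φ.invFun '' (Y ×ˢ J)) :=
      (hY.isConnected.isPreconnected.prod hJc).image _ (Φ.cont_inv.mono hsub)
    have hd : ∀ x ∈ Φ.invFun '' (Y ×ˢ J), x ∉ b.B ∩ {x ∈ C | |b.u x| = 1} := by
      rintro _ ⟨q, hq, rfl⟩ hx
      have := hwall _ hx.1 hx.2.2
      rw [Φ.right_inv (hsub hq)] at this
      exact hne _ hq.2 this
    refine ⟨_, hRC, hR, fun x hx hxJ => ⟨Φ.toFun x, ⟨(Φ.mapsTo hx).1, hxJ⟩, Φ.left_inv hx⟩, ?_, ?_⟩
    · rcases Cut.sub_or hR hb.ok.cpt.isClosed hV (hRC.trans hcov) hd with h | h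
      · exact Or.inl ⟨h, disjoint_left.2 fun x hx hx' => hd x hx ⟨h hx, hx'⟩⟩
      · exact Or.inr ⟨h, disjoint_left.2 fun x hx hx' => hd x hx ⟨hx', h hx⟩⟩
    · have hq : (y₀, c) ∈ Y₀ ×ˢ Icc lo hi ∪ Y ×ˢ ({lo, hi} : Set ℝ) := Or.inl ⟨hy₀, hJ hc⟩
      have hx := φ.mapsTo_inv hq
      have e := φ.right_inv hq
      obtain ⟨a1, a2, -⟩ := hf _ hx
      rw [e] at a1 a2
      refine ⟨φ.invFun (y₀, c), ⟨(y₀, c), ⟨hY.1 hy₀, hc⟩, ?_⟩, a1, a2⟩
      have e2 := Φ.left_inv (hSC hx)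
      rwa [hΦ hx, e] at e2
  have hi' : ∀ x ∈ C, t + lam < (Φ.toFun x).2 → x ∉ b.B ∧ b.u x = 1 := by
    intro x hx hlt
    obtain ⟨R, hRC, hR, hin, halt, x₀, hx₀, a1, a2⟩ := key (Ioc (t + lam) hi)
      (fun c hc => ⟨by linarith [hc.1], hc.2⟩) isPreconnected_Ioc
      (fun c hc h => by rw [abs_of_pos (by linarith [hc.1])] at h; linarith [hc.1]) hi
      ⟨h2, le_rfl⟩
    have hxR := hin x hx ⟨hlt, (Φ.mapsTo hx).2.2⟩
    rw [cl_of_ge (by rw [le_div_iff₀ hlam]; linarith)] at a2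
    rcases halt with h | h
    · have := a1.1 (h.1 hx₀)
      rw [abs_of_pos (by linarith)] at this
      linarith
    · refine ⟨fun hxB => disjoint_left.1 h.2 hxR hxB, ?_⟩
      have habs := (h.1 hxR).2
      rcases (abs_eq zero_le_one).1 habs with h3 | h3
      · exact h3
      · have := Cut.sign_const (a := 0) hR (hb.upl.1.mono hRC)
          (fun z hz h0 => by have := (h.1 hz).2; rw [h0] at this; norm_num at this) hxR hx₀
          (by rw [h3]; norm_num)
        rw [a2] at this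
        norm_num at this
  have lo' : ∀ x ∈ C, (Φ.toFun x).2 < t - lam → x ∉ b.B ∧ b.u x = -1 := by
    intro x hx hlt
    obtain ⟨R, hRC, hR, hin, halt, x₀, hx₀, a1, a2⟩ := key (Ico lo (t - lam))
      (fun c hc => ⟨hc.1, by linarith [hc.2]⟩) isPreconnected_Ico
      (fun c hc h => by rw [abs_of_neg (by linarith [hc.2])] at h; linarith [hc.2]) lo
      ⟨le_rfl, h1⟩
    have hxR := hin x hx ⟨(Φ.mapsTo hx).2.1, hlt⟩
    rw [cl_of_le (by rw [div_le_iff₀ hlam]; linarith)] at a2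
    rcases halt with h | h
    · have := a1.1 (h.1 hx₀)
      rw [abs_of_neg (by linarith)] at this
      linarith
    · refine ⟨fun hxB => disjoint_left.1 h.2 hxR hxB, ?_⟩
      have habs := (h.1 hxR).2
      rcases (abs_eq zero_le_one).1 habs with h3 | h3
      · have := Cut.sign_const (a := 0) hR (hb.upl.1.mono hRC)
          (fun z hz h0 => by have := (h.1 hz).2; rw [h0] at this; norm_num at this) hx₀ hxR
          (by rw [a2]; norm_num)
        rw [h3] at this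
        norm_num at this
      · exact h3
  have mid : ∀ x ∈ C, |(Φ.toFun x).2 - t| < lam → x ∈ b.B := by
    intro x hx hlt
    obtain ⟨R, hRC, hR, hin, halt, x₀, hx₀, a1, a2⟩ := key (Ioo (t - lam) (t + lam))
      (fun c hc => ⟨by linarith [hc.1], by linarith [hc.2]⟩) isPreconnected_Ioo
      (fun c hc => (abs_lt.2 ⟨by linarith [hc.1], by linarith [hc.2]⟩).ne) t
      ⟨by linarith, by linarith⟩
    have hxR := hin x hx ⟨by linarith [(abs_lt.1 hlt).1], by linarith [(abs_lt.1 hlt).2]⟩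
    rcases halt with h | h
    · exact h.1 hxR
    · exact absurd (a1.2 (by simpa using hlam.le)) (disjoint_left.1 h.2 hx₀)
  have edge : ∀ x ∈ C, ∀ s : ℝ, |s| = 1 → (Φ.toFun x).2 = t + lam * s → x ∈ b.B := by
    intro x hx s hs e
    have hsI : s ∈ I := abs_le.1 hs.le
    obtain ⟨z, hz, hzx⟩ : Φ.toFun x ∈ g.toFun '' {x ∈ b.B | b.u x = s} :=
      hg.img hlam hsI ▸ ⟨(Φ.mapsTo hx).1, e⟩
    rw [← hΦg z hz.1 (hz.2 ▸ hs)] at hzx
    exact Φ.injOn (hb.sub hz.1) hx hzx ▸ hz.1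
  intro x hx
  refine ⟨⟨fun hxB => ?_, fun h => ?_⟩, fun h => (hi' x hx h).2, fun h => (lo' x hx h).2⟩
  · rw [abs_le]
    constructor
    · by_contra h
      exact (lo' x hx (by linarith [not_le.1 h])).1 hxB
    · by_contra h
      exact (hi' x hx (by linarith [not_le.1 h])).1 hxB
  · rcases h.lt_or_eq with h | h
    · exact mid x hx h
    · rcases (abs_eq hlam.le).1 h with h | h
      · exact edge x hx 1 (by norm_num) (by linarith)
      · exact edge x hx (-1) (by norm_num) (by linarith)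

end one

end Flat1

open Flat1 in
/-- straightening of one family of bands -/
theorem flat1_of (hB : BAS) {n : ℕ} (h : Cut.ONE (n + 1)) : FLAT1 (n + 1) := by
  classical
  intro E F _ _ _ _ _ _ ι _ C S Y Y₀ lo hi lam b t φ hC hY hlh hlam ht hdis hb
  have := Fintype.ofFinite ι
  have hf : ∀ i, Fit (b i) S φ.toFun (t i) lam := fun i => (hb i).2.2
  have hon : ∀ i, (b i).On C := fun i => (hb i).1
  choose g hg using fun i => exists_str (hB E) φ hY hlam (ht i).1 (ht i).2 (hon i).ok (hb i).2.1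
    (hf i)
  let σ : Bool → ℝ := fun e => if e then 1 else -1
  have hσ : ∀ e, σ e ∈ I := fun e => by cases e <;> simp [σ]
  have hσi : ∀ e e', σ e = σ e' → e = e' := fun e e' => by
    cases e <;> cases e' <;> simp [σ] <;> norm_num
  have far : ∀ i j, i ≠ j → ∀ c, |c - t i| ≤ lam → |c - t j| ≤ lam → False := by
    intro i j hij c a1 a2
    have a3 := (hdis i j hij).2
    have a4 : |t i - t j| ≤ |c - t j| + |c - t i| := by
      rw [show t i - t j = (c - t j) - (c - t i) by ring]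
      exact abs_sub _ _
    linarith
  obtain ⟨Φ, hΦ, hΦD⟩ := h (Finset.univ : Finset (ι × Bool)) φ
    (fun p => {x ∈ (b p.1).B | (b p.1).u x = σ p.2}) (fun p => Y ×ˢ {t p.1 + lam * σ p.2})
    (fun p => (g p.1).toFun) hC (prod_thm hY hlh)
    (fun p _ => (hg p.1).wall hY hlam (ht p.1).1 (ht p.1).2 (hon p.1) (hσ p.2))
    (by
      rintro ⟨i, e⟩ - ⟨j, e'⟩ - hne
      by_cases hij : i = j
      · subst hij
        have hee : σ e ≠ σ e' := fun h' => hne (by rw [hσi e e' h'])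
        refine ⟨disjoint_left.2 fun x hx hx' => hee (hx.2.symm.trans hx'.2),
          disjoint_left.2 fun q hq hq' => hee ?_⟩
        have e1 : q.2 = t i + lam * σ e := hq.2
        have e2 : q.2 = t i + lam * σ e' := hq'.2
        rw [e1, add_right_inj] at e2
        exact mul_left_cancel₀ hlam.ne' e2
      · refine ⟨(hdis i j hij).1.mono (fun _ hx => hx.1) fun _ hx => hx.1,
          disjoint_left.2 fun q hq hq' => far i j hij q.2 ?_ ?_⟩
        · have e1 : q.2 = t i + lam * σ e := hq.2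
          rw [e1, add_sub_cancel_left]
          exact abs_le_of_mem hlam (hσ e)
        · have e1 : q.2 = t j + lam * σ e' := hq'.2
          rw [e1, add_sub_cancel_left]
          exact abs_le_of_mem hlam (hσ e'))
  have hΦg : ∀ i, ∀ x ∈ (b i).B, |(b i).u x| = 1 → Φ.toFun x = (g i).toFun x := by
    intro i x hx hu
    rcases (abs_eq zero_le_one).1 hu with h1 | h1
    · exact hΦD (i, true) (Finset.mem_univ _) ⟨hx, h1⟩
    · exact hΦD (i, false) (Finset.mem_univ _) ⟨hx, h1⟩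
  have hs := fun i => (hg i).sides hY hlam (ht i).1 (ht i).2 (hon i) hC.isClosed hC.1 (hf i) Φ hΦ
    (hΦg i)
  -- the part outside the open bands
  let N : Set E := {x ∈ C | (fun i => |(b i).u x|) = fun _ => (1:ℝ)}
  have hNC : N ⊆ C := fun _ hx => hx.1
  have hNu : ∀ x ∈ N, ∀ i, |(b i).u x| = 1 := fun x hx i => congrFun hx.2 i
  have hNcon : ConicalSet N := conicalSet_level (f := fun x i => |(b i).u x|)
    (fun x hx => conicalWithinAt_pi (hC.conicalSet x hx) fun i =>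
      Sh.conicalOn_abs (hon i).upl.2 (hon i).upl.1 x hx) _
  have hNcl : IsClosed N :=
    (continuousOn_pi.2 fun i => (hon i).upl.1.abs).preimage_isClosed_of_isClosed hC.isClosed
      (t := {fun _ => (1:ℝ)}) isClosed_singleton
  have hcov : ∀ x ∈ C, x ∈ N ∨ ∃ i, x ∈ (b i).B := fun x hx => by
    by_cases hx' : ∃ i, x ∈ (b i).B
    · exact Or.inr hx'
    · refine Or.inl ⟨hx, funext fun i => ?_⟩
      rcases (hon i).out x hx (fun h' => hx' ⟨i, h'⟩) with h' | h' <;> rw [h'] <;> norm_num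
  have hslab : ∀ i (q : F × ℝ), q ∈ Y ×ˢ Icc (t i - lam) (t i + lam) → |q.2 - t i| ≤ lam :=
    fun i q hq => abs_le.2 ⟨by linarith [hq.2.1], by linarith [hq.2.2]⟩
  let X : Option ι → Set E := fun o => o.elim N fun i => (b i).B
  let X' : Option ι → Set (F × ℝ) := fun o =>
    o.elim (Φ.toFun '' N) fun i => Y ×ˢ Icc (t i - lam) (t i + lam)
  let k : ∀ o, ConHomeo (X o) (X' o) := fun o =>
    match o with
    | none => Φ.restr hNcon hNC
    | some i => g i
  have hX : RelLF X := RelLF.of_finite fun o => by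
    cases o with
    | none => exact hNcl
    | some i => exact (hon i).ok.cpt.isClosed
  have hX' : RelLF X' := RelLF.of_finite fun o => by
    cases o with
    | none =>
      exact ((hC.isCompact.of_isClosed_subset hNcl hNC).image_of_continuousOn
        (Φ.cont.mono hNC)).isClosed
    | some i => exact hY.isClosed.prod isClosed_Icc
  obtain ⟨Ψ, hΨ⟩ := ConHomeo.exists_glue_family hX hX' k
    (by
      intro o o' x hx
      cases o with
      | none =>
        cases o' with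
        | none => rfl
        | some j => exact hΦg j x hx.2 (hNu x hx.1 j)
      | some i =>
        cases o' with
        | none => exact (hΦg i x hx.1 (hNu x hx.2 i)).symm
        | some j =>
          by_cases hij : i = j
          · subst hij
            rfl
          · exact absurd hx.2 (disjoint_left.1 (hdis i j hij).1 hx.1))
    (by
      intro o o' q hq
      cases o with
      | none =>
        obtain ⟨⟨x, hx, rfl⟩, hq'⟩ := hq
        cases o' with
        | none => exact ⟨x, ⟨hx, hx⟩, rfl⟩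
        | some j => exact ⟨x, ⟨hx, (hs j x (hNC hx)).1.2 (hslab j _ hq')⟩, rfl⟩
      | some i =>
        cases o' with
        | none =>
          obtain ⟨hq', x, hx, rfl⟩ := hq
          have hxB := (hs i x (hNC hx)).1.2 (hslab i _ hq')
          exact ⟨x, ⟨hxB, hx⟩, (hΦg i x hxB (hNu x hx i)).symm⟩
        | some j =>
          by_cases hij : i = j
          · subst hij
            exact ⟨(g i).invFun q, ⟨(g i).mapsTo_inv hq.1, (g i).mapsTo_inv hq.1⟩,
              (g i).right_inv hq.1⟩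
          · exact (far i j hij q.2 (hslab i q hq.1) (hslab j q hq.2)).elim)
  have hU : ⋃ o, X o = C := by
    refine Subset.antisymm (iUnion_subset fun o => ?_) fun x hx => ?_
    · cases o with
      | none => exact hNC
      | some i => exact (hon i).sub
    · rcases hcov x hx with h' | ⟨i, h'⟩
      · exact mem_iUnion.2 ⟨none, h'⟩
      · exact mem_iUnion.2 ⟨some i, h'⟩
  have hU' : ⋃ o, X' o = Y ×ˢ Icc lo hi := by
    refine Subset.antisymm (iUnion_subset fun o => ?_) fun q hq => ?_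
    · cases o with
      | none => exact (image_mono hNC).trans Φ.mapsTo.image_subset
      | some i => exact prod_mono subset_rfl (Icc_subset_Icc (ht i).1.le (ht i).2.le)
    · have hx := Φ.mapsTo_inv hq
      have e := Φ.right_inv hq
      rcases hcov _ hx with h' | ⟨i, h'⟩
      · exact mem_iUnion.2 ⟨none, _, h', e⟩
      · have h1 := (hs i _ hx).1.1 h'
        rw [e, abs_le] at h1
        exact mem_iUnion.2 ⟨some i, hq.1, by linarith [h1.1], by linarith [h1.2]⟩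
  have hN : ∀ x ∈ N, Ψ.toFun x = Φ.toFun x := fun x hx => (hΨ none).1 hx
  have hBi : ∀ i, ∀ x ∈ (b i).B, Ψ.toFun x = (g i).toFun x := fun i x hx => (hΨ (some i)).1 hx
  refine ⟨Ψ.cast hU hU', fun x hx => ?_, fun i x hx => ?_⟩
  · show Ψ.toFun x = φ.toFun x
    rcases hcov x (hC.1 hx) with h' | ⟨i, h'⟩
    · rw [hN x h', hΦ hx]
    · rw [hBi i x h', (hg i).eq x h' hx]
  · show (x ∈ (b i).B ↔ |(Ψ.toFun x).2 - t i| ≤ lam) ∧
      (b i).u x = cl (((Ψ.toFun x).2 - t i) / lam) ∧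
      (x ∈ (b i).B → ∀ s ∈ I, Ψ.toFun ((b i).M (x, s)) = ((Ψ.toFun x).1, t i + lam * s))
    by_cases hxB : x ∈ (b i).B
    · have hu := (hon i).ok.urange x hxB
      rw [hBi i x hxB, (hg i).snd x hxB, add_sub_cancel_left, mul_div_cancel_left₀ _ hlam.ne',
        cl_of_mem hu]
      refine ⟨iff_of_true hxB (abs_le_of_mem hlam hu), rfl, fun _ s hs' => ?_⟩
      rw [hBi i _ ((hon i).ok.Mmem x hxB s hs').1, (hg i).mov x hxB s hs']
    · obtain ⟨a1, a2, a3⟩ := hs i x hx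
      have a4 : lam < |(Φ.toFun x).2 - t i| := not_le.1 fun h' => hxB (a1.2 h')
      have alt : (t i + lam < (Φ.toFun x).2 ∧ t i + lam < (Ψ.toFun x).2) ∨
          ((Φ.toFun x).2 < t i - lam ∧ (Ψ.toFun x).2 < t i - lam) := by
        rcases hcov x hx with h' | ⟨j, h'⟩
        · rw [hN x h']
          rcases lt_abs.1 a4 with h1 | h1
          · exact Or.inl ⟨by linarith, by linarith⟩
          · exact Or.inr ⟨by linarith, by linarith⟩
        · have hij : i ≠ j := fun e => hxB (e ▸ h')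
          have c1 := abs_le.1 ((hs j x hx).1.1 h')
          have c2 := abs_le.1 (hslab j _ ((g j).mapsTo h'))
          rw [hBi j x h']
          rcases lt_abs.1 (hdis i j hij).2 with h1 | h1
          · exact Or.inr ⟨by linarith [c1.2], by linarith [c2.2]⟩
          · exact Or.inl ⟨by linarith [c1.1], by linarith [c2.1]⟩
      refine ⟨iff_of_false hxB ?_, ?_, fun h' => absurd h' hxB⟩
      · rw [abs_le]
        rintro ⟨c1, c2⟩
        rcases alt with h' | h' <;> linarith [h'.2]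
      · rcases alt with h' | h'
        · rw [a2 h'.1, cl_of_ge (by rw [le_div_iff₀ hlam]; linarith [h'.2])]
        · rw [a3 h'.1, cl_of_le (by rw [div_le_iff₀ hlam]; linarith [h'.2])]

end P073.Bd
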