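import Vale.Agent.P073Y.Bd.Flat2C

/-!
# Straightening of both families of bands
-/

open Set Metric Topology Filter

namespace P073.Bd

namespace F2

variable {E : Type} [NormedAddCommGroup E] [NormedSpace ℝ E] [FiniteDimensional ℝ E] {ι : Type}
  {t : ι → ℝ} {co : ι → Fin 3} {lam : ℝ}

/-- the conclusion for the set `s` of bands -/
def Con (E : Type) [NormedAddCommGroup E] [NormedSpace ℝ E] (t : ι → ℝ) (co : ι → Fin 3) (lam : ℝ)
    (s : Finset ι) : Prop :=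
  ∀ (C S : Set E) (lo hi : E3) (b : ι → Band E) (φ : ConHomeo S (frontier (Icc lo hi))),
    Hyp s t co lam C S lo hi b φ → ∃ G : ConHomeo C (Icc lo hi), EqOn G.toFun φ.toFun S ∧
      ∀ i ∈ s, ∀ x ∈ C, Std G.toFun (b i) (co i) (t i) lam x

variable {s : Finset ι} {C S : Set E} {lo hi : E3} {b : ι → Band E}
  {φ : ConHomeo S (frontier (Icc lo hi))}

omit [FiniteDimensional ℝ E] in
theorem Hyp.keeps (hB : Bas E) (H : Hyp s t co lam C S lo hi b φ) {i j : ι} (hi' : i ∈ s)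
    (hj : j ∈ s) (hji : j ≠ i) (ε : ℝ) : (b j).Keeps {x ∈ C | (b i).u x = ε} := fun x hx r hr a =>
  ⟨(H.on j hj).sub ((H.on j hj).ok.Mmem x hx r hr).1, (hB.comm_u (H.on j hj).ok (H.on j hj).sub
    (H.on i hi') (H.comm j hj i hi' hji) x hx r hr).trans a.2⟩

/-- one side of a slab -/
theorem Hyp.side (hB : Bas E) (H : Hyp s t co lam C S lo hi b φ) {i : ι} (hi' : i ∈ s)
    (h0 : co i = 0) (ih : ∀ s' ⊂ s, Con E t co lam s') (G₁ : ConHomeo C (Icc lo hi))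
    (ge : EqOn G₁.toFun φ.toFun S)
    (hg : ∀ j ∈ s, co j = 0 → ∀ x ∈ C, Std G₁.toFun (b j) 0 (t j) lam x)
    (Θ : ConHomeo ((b i).B ∪ S) ({y ∈ Icc lo hi | |y 0 - t i| ≤ lam} ∪ frontier (Icc lo hi)))
    (hΘ : ∀ j ∈ s, ∀ x ∈ (b i).B ∪ S, Std Θ.toFun (b j) (co j) (t j) lam x)
    {ε : ℝ} (hε : ε = 1 ∨ ε = -1) :
    ∃ G : ConHomeo {x ∈ C | (b i).u x = ε} {y ∈ Icc lo hi | lam ≤ ε * (y 0 - t i)},
      EqOn G.toFun Θ.toFun {x ∈ (b i).B ∪ S | (b i).u x = ε} ∧ ∀ j ∈ s, j ≠ i →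
        ∀ x ∈ {x ∈ C | (b i).u x = ε}, Std G.toFun (b j) (co j) (t j) lam x := by
  classical
  have hin := (H.ins i hi').2
  rw [h0] at hin
  obtain ⟨lo', hi₁, p0, p1, p2, p3, p4⟩ := exists_box H.lt H.pos hin.1 hin.2 hε
  have sg : ∀ x ∈ C, (b i).u x = ε ↔ lam ≤ ε * (G₁.toFun x 0 - t i) := fun x hx =>
    (hg i hi' h0 x hx).sgn H.pos hε
  have BS : (b i).B ∪ S ⊆ C := union_subset (H.on i hi').sub H.ball.1
  have mS : ∀ x ∈ C, x ∈ S ↔ G₁.toFun x ∈ frontier (Icc lo hi) := fun x hx =>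
    ⟨fun a => by rw [ge a]; exact φ.mapsTo a, fun a => by
      have e : G₁.toFun (φ.invFun (G₁.toFun x)) = G₁.toFun x := by
        rw [ge (φ.mapsTo_inv a), φ.right_inv a]
      rw [← G₁.injOn (H.ball.1 (φ.mapsTo_inv a)) hx e]
      exact φ.mapsTo_inv a⟩
  have ball : ConBall 3 {x ∈ C | (b i).u x = ε} {x ∈ (b i).B ∪ S | (b i).u x = ε} := by
    have k := (ball_box p0).image G₁.symm fun y hy => ((p1 y).1 hy).1
    rwa [pull G₁ (X := {x ∈ C | (b i).u x = ε}) (sep_subset _ _) (fun y hy => ((p1 y).1 hy).1)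
        (fun x hx => by
          rw [p1, ← sg x hx]
          exact ⟨fun a => ⟨G₁.mapsTo hx, a.2⟩, fun a => ⟨hx, a.2⟩⟩),
      pull G₁ (X := {x ∈ (b i).B ∪ S | (b i).u x = ε}) (fun x hx => BS hx.1)
        (fun y hy => ((p1 y).1 ((ball_box p0).1 hy)).1) (fun x hx => by
          rw [p2, ← sg x hx]
          refine and_congr_left fun _ => or_congr ?_ (mS x hx)
          rw [(hg i hi' h0 x hx).1]
          exact ⟨fun a => ⟨G₁.mapsTo hx, a⟩, fun a => a.2⟩)] at k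
  have im : Θ.toFun '' {x ∈ (b i).B ∪ S | (b i).u x = ε} = frontier (Icc lo' hi₁) := by
    rw [show frontier (Icc lo' hi₁) = _ from Set.ext p2]
    refine Eq.trans ?_ (Cut.Grid.image_sep Θ fun y => lam ≤ ε * (y 0 - t i))
    congr 1
    refine Set.ext fun x => and_congr_right fun hx => ?_
    have a := hΘ i hi' x hx
    rw [h0] at a
    exact a.sgn H.pos hε
  let s' := s.filter fun j => j ≠ i ∧ (co j = 0 → 0 < ε * (t j - t i))
  have ms : ∀ j ∈ s', j ∈ s ∧ j ≠ i ∧ (co j = 0 → 0 < ε * (t j - t i)) := fun j hj =>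
    Finset.mem_filter.1 hj
  have fa : ∀ j ∈ s', co j = 0 → 2 * lam < ε * (t j - t i) := fun j hj c =>
    far hε (H.disj j (ms j hj).1 i hi' (ms j hj).2.1 (c.trans h0.symm)).2 ((ms j hj).2.2 c)
  have wA : ∀ j ∈ s', co j = 0 → ∀ x ∈ (b j).W, (b i).u x = ε := fun j hj c x hx => by
    have hxC := (H.on j (ms j hj).1).sub hx.1
    rw [sg x hxC, ((hg j (ms j hj).1 c x hxC).wall H.pos).1 hx]
    linarith [fa j hj c, H.pos]
  have eW : ∀ j ∈ s, ((b j).cut {x ∈ C | (b i).u x = ε}).W = {x ∈ (b j).W | (b i).u x = ε} :=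
    fun j hj => Set.ext fun x => ⟨fun a => ⟨⟨a.1.1, a.2⟩, a.1.2.2⟩,
      fun a => ⟨⟨a.1.1, (H.on j hj).sub a.1.1, a.2⟩, a.1.2⟩⟩
  have kp := fun j (hj : j ∈ s') => H.keeps hB hi' (ms j hj).1 (ms j hj).2.1 ε
  obtain ⟨G, e1, e2⟩ := ih s' (Finset.filter_ssubset.2 ⟨i, hi', fun a => a.1 rfl⟩) _ _ lo' hi₁
    (fun j => (b j).cut {x ∈ C | (b i).u x = ε})
    ((Θ.restr ball.conicalSet_bdry (sep_subset _ _)).cast rfl im)
    { ball := ball
      lt := p0
      pos := H.pos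
      ins := fun j hj => by
        obtain ⟨a1, a2⟩ := H.ins j (ms j hj).1
        refine ⟨a1, ?_⟩
        by_cases c : co j = 0
        · rw [c] at a2 ⊢
          exact p4 _ a2.1 a2.2 (fa j hj c)
        · rw [co_one a1 c] at a2 ⊢
          rwa [p3.1, p3.2]
      comm := fun j hj k hk hjk => comm_cut (H.comm j (ms j hj).1 k (ms k hk).1 hjk) (kp j hj)
      disj := fun j hj k hk hjk c => ⟨(H.disj j (ms j hj).1 k (ms k hk).1 hjk c).1.mono
        inter_subset_left inter_subset_left, (H.disj j (ms j hj).1 k (ms k hk).1 hjk c).2⟩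
      arc := fun j hj k hk c => by
        obtain ⟨p, hp, q, hq, harc⟩ := H.arc j (ms j hj).1 k (ms k hk).1 c
        have all : ∀ x ∈ (b j).W ∩ (b k).W, (b i).u x = ε := fun x hx => by
          by_cases cj : co j = 0
          · exact wA j hj cj x hx.1
          by_cases ck : co k = 0
          · exact wA k hk ck x hx.2
          exact (c ((co_one (H.ins j (ms j hj).1).1 cj).trans
            (co_one (H.ins k (ms k hk).1).1 ck).symm)).elim
        refine ⟨p, ⟨Or.inr hp, all p harc.left_mem⟩, q, ⟨Or.inr hq, all q harc.right_mem⟩, ?_⟩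
        rw [eW j (ms j hj).1, eW k (ms k hk).1]
        convert harc using 1
        exact Set.ext fun x => ⟨fun a => ⟨a.1.1, a.2.1⟩, fun a => ⟨⟨a.1, all x a⟩, a.2, all x a⟩⟩
      on := fun j hj => hB.cut (H.on j (ms j hj).1) (sep_subset _ _) ball.isCompact ball.locCone
        (kp j hj)
      wall := fun j hj => by
        rw [eW j (ms j hj).1]
        by_cases c : co j = 0
        · convert H.wall j (ms j hj).1 using 1
          · exact Set.ext fun x => ⟨fun a => a.1, fun a => ⟨a, wA j hj c x a⟩⟩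
          · refine Set.ext fun x => ⟨fun a => ⟨a.1.1, a.2.1.resolve_left fun a' => ?_⟩,
              fun a => ⟨⟨a.1, wA j hj c x a.1⟩, Or.inr a.2, wA j hj c x a.1⟩⟩
            exact disjoint_left.1 (H.disj j (ms j hj).1 i hi' (ms j hj).2.1 (c.trans h0.symm)).1
              a.1.1.1 a'
        · convert H.half_wall hB hi' h0 (ms j hj).1 (co_one (H.ins j (ms j hj).1).1 c) G₁.cont ge
            (hg i hi' h0) hε using 1
          exact Set.ext fun x => ⟨fun a => ⟨a.1, a.2.1⟩, fun a => ⟨a.1, a.2, a.1.2⟩⟩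
      std := fun j hj x hx => by
        obtain ⟨a1, a2, a3⟩ := hΘ j (ms j hj).1 x hx.1
        exact ⟨⟨fun a => a1.1 a.1, fun a => ⟨a1.2 a, BS hx.1, hx.2⟩⟩, a2, fun a => a3 a.1⟩
      keep := fun j hj x hx a r hr => ⟨hx.1.imp
        (keeps_B (H.comm j (ms j hj).1 i hi' (ms j hj).2.1) x a.1 r hr)
        fun a' => H.keep j (ms j hj).1 x a' a.1 r hr, (kp j hj x a.1 r hr a.2).2⟩ }
  refine ⟨G.cast rfl (Set.ext p1), e1, fun j hj hji x hx => ?_⟩
  by_cases hj' : j ∈ s'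
  · obtain ⟨a1, a2, a3⟩ := e2 j hj' x hx
    exact ⟨⟨fun a => a1.1 ⟨a, hx⟩, fun a => (a1.2 a).1⟩, a2, fun a => a3 ⟨a, hx⟩⟩
  have c : co j = 0 := by
    by_contra c
    exact hj' (Finset.mem_filter.2 ⟨hj, hji, fun a => (c a).elim⟩)
  have fb := far' hε (H.disj j hj i hi' hji (c.trans h0.symm)).2
    fun a => hj' (Finset.mem_filter.2 ⟨hj, hji, fun _ => a⟩)
  have out : ∀ a : ℝ, lam ≤ ε * (a - t i) → lam < ε * (a - t j) := fun a ha => by
    have : ε * (a - t j) = ε * (a - t i) + ε * (t i - t j) := by ring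
    linarith [H.pos]
  have o1 := out _ ((sg x hx.1).1 hx.2)
  have o2 := out _ ((p1 _).1 (G.mapsTo hx)).2
  have a := hg j hj c x hx.1
  have nB : x ∉ (b j).B := fun a' => (o1.trans_le (abs_sgn hε _)).not_ge (a.1.1 a')
  rw [c]
  refine ⟨iff_of_false nB (o2.trans_le (abs_sgn hε _)).not_ge, ?_, fun a' => (nB a').elim⟩
  rw [(a.sgn H.pos hε).2 o1.le]
  refine ((cl_sgn hε).2 ?_).symm
  rw [← mul_div_assoc, le_div_iff₀ H.pos, one_mul]
  exact o2.le

theorem con (hB : Bas E) (h1 : FLAT1 1) (h2 : FLAT1 2) (s : Finset ι) : Con E t co lam s := by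
  classical
  induction s using Finset.strongInduction with
  | H s ih =>
  intro C S lo hi b φ H
  have one : ∀ k : Fin 3, ∃ G : ConHomeo C (Icc lo hi), EqOn G.toFun φ.toFun S ∧
      ∀ j ∈ s, co j = k → ∀ x ∈ C, Std G.toFun (b j) k (t j) lam x := fun k => by
    obtain ⟨G, e1, e2⟩ := flatBox h2 (s.filter fun j => co j = k) b t k φ H.ball H.lt H.pos
      (fun j hj => by
        obtain ⟨hj, c⟩ := Finset.mem_filter.1 hj
        exact c ▸ (H.ins j hj).2)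
      (fun j hj l hl hjl => H.disj j (Finset.mem_filter.1 hj).1 l (Finset.mem_filter.1 hl).1 hjl
        ((Finset.mem_filter.1 hj).2.trans (Finset.mem_filter.1 hl).2.symm))
      (fun j hj => by
        obtain ⟨hj, c⟩ := Finset.mem_filter.1 hj
        exact ⟨H.on j hj, H.wall j hj, fun x hx => ⟨c ▸ H.std j hj x hx, H.keep j hj x hx⟩⟩)
    exact ⟨G, e1, fun j hj c => e2 j (Finset.mem_filter.2 ⟨hj, c⟩)⟩
  by_cases hex : ∃ i ∈ s, co i = 0
  swap
  · obtain ⟨G, e1, e2⟩ := one 1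
    refine ⟨G, e1, fun j hj x hx => ?_⟩
    have c := co_one (H.ins j hj).1 fun c => hex ⟨j, hj, c⟩
    rw [c]
    exact e2 j hj c x hx
  obtain ⟨i, hi', h0⟩ := hex
  obtain ⟨G₁, ge, hg⟩ := one 0
  obtain ⟨ψ, e1, e2⟩ := H.slab hB h1 hi' h0 hg
  have ok := (H.on i hi').ok
  have kB : ∀ j ∈ s, ∀ x ∈ (b i).B, x ∈ (b j).B → ∀ r ∈ I, (b j).M (x, r) ∈ (b i).B := by
    intro j hj x hx hx' r hr
    by_cases hji : j = i
    · subst hji
      exact (ok.Mmem x hx r hr).1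
    · exact keeps_B (H.comm j hj i hi' hji) x hx' r hr hx
  have sb := H.std i hi'
  rw [h0] at sb
  have c1 : IsClosed (b i).B := ok.cpt.isClosed
  have c2 : IsClosed {y ∈ Icc lo hi | |y 0 - t i| ≤ lam} := (ψ.isCompact_right ok.cpt).isClosed
  have c3 : IsClosed S := H.ball.isCompact_bdry.isClosed
  have im : {y ∈ Icc lo hi | |y 0 - t i| ≤ lam} ∩ frontier (Icc lo hi) ⊆
      ψ.toFun '' ((b i).B ∩ S) := fun y hy => by
    have a : φ.invFun y ∈ (b i).B ∩ S := ⟨(sb _ (φ.mapsTo_inv hy.2)).1.2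
      (by rw [φ.right_inv hy.2]; exact hy.1.2), φ.mapsTo_inv hy.2⟩
    exact ⟨_, a, (e1 a).trans (φ.right_inv hy.2)⟩
  have gl := ConHomeo.glue_left ψ φ c1 c3 c2 isClosed_frontier e1 im
  have gr := ConHomeo.glue_right ψ φ c1 c3 c2 isClosed_frontier e1 im
  have hΘ : ∀ j ∈ s, ∀ x ∈ (b i).B ∪ S,
      Std (ψ.glue φ c1 c3 c2 isClosed_frontier e1 im).toFun (b j) (co j) (t j) lam x := by
    rintro j hj x (hx | hx)
    · exact (e2 j hj x hx).congr gl hx (kB j hj x hx)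
    · exact (H.std j hj x hx).congr gr hx (H.keep j hj x hx)
  have sd := fun (ε : ℝ) (hε : ε = 1 ∨ ε = -1) => H.side hB hi' h0 ih G₁ ge hg _ hΘ hε
  obtain ⟨Gp, p1, p2⟩ := sd 1 (Or.inl rfl)
  obtain ⟨Gm, m1, m2⟩ := sd (-1) (Or.inr rfl)
  have cC : ∀ ε : ℝ, IsClosed {x ∈ C | (b i).u x = ε} := fun ε =>
    (H.on i hi').upl.1.preimage_isClosed_of_isClosed H.ball.isClosed isClosed_singleton
  have cQ : ∀ ε : ℝ, IsClosed {y ∈ Icc lo hi | lam ≤ ε * (y 0 - t i)} := fun ε =>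
    isClosed_Icc.inter (isClosed_le (f := fun _ => lam) (g := fun y : E3 => ε * (y 0 - t i))
      continuous_const (by fun_prop))
  have ag1 : EqOn Gp.toFun Gm.toFun ({x ∈ C | (b i).u x = 1} ∩ {x ∈ C | (b i).u x = -1}) :=
    fun x hx => absurd (hx.1.2.symm.trans hx.2.2) (by norm_num)
  have im1 : {y ∈ Icc lo hi | lam ≤ 1 * (y 0 - t i)} ∩ {y ∈ Icc lo hi | lam ≤ -1 * (y 0 - t i)} ⊆
      Gp.toFun '' ({x ∈ C | (b i).u x = 1} ∩ {x ∈ C | (b i).u x = -1}) := fun y hy => by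
    exfalso
    linarith [hy.1.2, hy.2.2, H.pos]
  have ql := ConHomeo.glue_left Gp Gm (cC _) (cC _) (cQ _) (cQ _) ag1 im1
  have qr := ConHomeo.glue_right Gp Gm (cC _) (cC _) (cQ _) (cQ _) ag1 im1
  set G₂ := Gp.glue Gm (cC _) (cC _) (cQ _) (cQ _) ag1 im1
  have ag2 : EqOn ψ.toFun G₂.toFun
      ((b i).B ∩ ({x ∈ C | (b i).u x = 1} ∪ {x ∈ C | (b i).u x = -1})) := by
    rintro x ⟨hx, a | a⟩
    · exact ((ql a).trans ((p1 ⟨Or.inl hx, a.2⟩).trans (gl hx))).symm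
    · exact ((qr a).trans ((m1 ⟨Or.inl hx, a.2⟩).trans (gl hx))).symm
  have sψ := e2 i hi'
  rw [h0] at sψ
  have im2 : {y ∈ Icc lo hi | |y 0 - t i| ≤ lam} ∩ ({y ∈ Icc lo hi | lam ≤ 1 * (y 0 - t i)} ∪
      {y ∈ Icc lo hi | lam ≤ -1 * (y 0 - t i)}) ⊆
      ψ.toFun '' ((b i).B ∩ ({x ∈ C | (b i).u x = 1} ∪ {x ∈ C | (b i).u x = -1})) := by
    rintro y ⟨hy, a⟩
    have hx := ψ.mapsTo_inv hy
    refine ⟨ψ.invFun y, ⟨hx, a.imp (fun a => ⟨(H.on i hi').sub hx, ?_⟩)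
      fun a => ⟨(H.on i hi').sub hx, ?_⟩⟩, ψ.right_inv hy⟩
    · rw [(sψ _ hx).sgn H.pos (Or.inl rfl), ψ.right_inv hy]
      exact a.2
    · rw [(sψ _ hx).sgn H.pos (Or.inr rfl), ψ.right_inv hy]
      exact a.2
  have rl := ConHomeo.glue_left ψ G₂ c1 ((cC _).union (cC _)) c2 ((cQ _).union (cQ _)) ag2 im2
  have rr := ConHomeo.glue_right ψ G₂ c1 ((cC _).union (cC _)) c2 ((cQ _).union (cQ _)) ag2 im2
  have cov : ∀ x ∈ C, x ∈ (b i).B ∪ ({x ∈ C | (b i).u x = 1} ∪ {x ∈ C | (b i).u x = -1}) :=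
    fun x hx => (em (x ∈ (b i).B)).imp id fun a =>
      ((H.on i hi').out x hx a).imp (fun c => ⟨hx, c⟩) fun c => ⟨hx, c⟩
  have u1 : (b i).B ∪ ({x ∈ C | (b i).u x = 1} ∪ {x ∈ C | (b i).u x = -1}) = C :=
    Subset.antisymm (union_subset (H.on i hi').sub
      (union_subset (sep_subset _ _) (sep_subset _ _))) cov
  have u2 : {y ∈ Icc lo hi | |y 0 - t i| ≤ lam} ∪ ({y ∈ Icc lo hi | lam ≤ 1 * (y 0 - t i)} ∪
      {y ∈ Icc lo hi | lam ≤ -1 * (y 0 - t i)}) = Icc lo hi := by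
    refine Subset.antisymm (union_subset (sep_subset _ _)
      (union_subset (sep_subset _ _) (sep_subset _ _))) fun y hy => ?_
    rcases le_total (|y 0 - t i|) lam with a | a
    · exact Or.inl ⟨hy, a⟩
    · exact Or.inr ((le_abs.1 a).imp (fun c => ⟨hy, by linarith⟩) fun c => ⟨hy, by linarith⟩)
  set G₃ := ψ.glue G₂ c1 ((cC _).union (cC _)) c2 ((cQ _).union (cQ _)) ag2 im2
  have gp : EqOn G₃.toFun Gp.toFun {x ∈ C | (b i).u x = 1} := fun x a => (rr (Or.inl a)).trans (ql a)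
  have gm : EqOn G₃.toFun Gm.toFun {x ∈ C | (b i).u x = -1} :=
    fun x a => (rr (Or.inr a)).trans (qr a)
  refine ⟨G₃.cast u1 u2, fun x hx => ?_, fun j hj x hx => ?_⟩
  · rcases cov x (H.ball.1 hx) with a | a | a
    · exact (rl a).trans (e1 ⟨a, hx⟩)
    · exact (gp a).trans ((p1 ⟨Or.inr hx, a.2⟩).trans (gr hx))
    · exact (gm a).trans ((m1 ⟨Or.inr hx, a.2⟩).trans (gr hx))
  change Std G₃.toFun _ _ _ _ _
  by_cases hB' : x ∈ (b i).B
  · exact (e2 j hj x hB').congr rl hB' (kB j hj x hB')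
  have a := (cov x hx).resolve_left hB'
  by_cases hji : j = i
  · subst hji
    rw [h0]
    refine ⟨iff_of_false hB' fun c => hB' ?_, ?_, fun c => (hB' c).elim⟩
    · have hy : G₃.toFun x ∈ {y ∈ Icc lo hi | |y 0 - t j| ≤ lam} :=
        ⟨u2.subset (G₃.mapsTo (Or.inr a)), c⟩
      rw [← G₃.injOn (Or.inl (ψ.mapsTo_inv hy)) (Or.inr a)
        ((rl (ψ.mapsTo_inv hy)).trans (ψ.right_inv hy))]
      exact ψ.mapsTo_inv hy
    · have k : ∀ ε : ℝ, ε = 1 ∨ ε = -1 → lam ≤ ε * (G₃.toFun x 0 - t j) →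
          ε = cl ((G₃.toFun x 0 - t j) / lam) := fun ε hε c => ((cl_sgn hε).2 (by
        rwa [← mul_div_assoc, le_div_iff₀ H.pos, one_mul])).symm
      rcases a with a | a
      · exact a.2.trans (k 1 (Or.inl rfl) (by rw [gp a]; exact (Gp.mapsTo a).2))
      · exact a.2.trans (k (-1) (Or.inr rfl) (by rw [gm a]; exact (Gm.mapsTo a).2))
  rcases a with a | a
  · exact (p2 j hj hji x a).congr gp a fun c r hr => H.keeps hB hi' hj hji 1 x c r hr a
  · exact (m2 j hj hji x a).congr gm a fun c r hr => H.keeps hB hi' hj hji (-1) x c r hr a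

end F2

theorem flat2_of (hB : BAS) (_hM : MAP) (h1 : FLAT1 1) (h2 : FLAT1 2) : FLAT2 := by
  intro E _ _ _ ι _ C S lo hi lam b t co φ hC hlt hl hin hp hb
  cases nonempty_fintype ι
  obtain ⟨G, e1, e2⟩ := F2.con (t := t) (co := co) (lam := lam) (hB E) h1 h2 Finset.univ
    C S lo hi b φ
    { ball := hC
      lt := hlt
      pos := hl
      ins := fun i _ => hin i
      comm := fun i _ j _ h => (hp i j h).1
      disj := fun i _ j _ h => (hp i j h).2.1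
      arc := fun i _ j _ h => (hp i j fun c => h (congrArg co c)).2.2 h
      on := fun i _ => (hb i).1
      wall := fun i _ => (hb i).2.1
      std := fun i _ x hx => ⟨((hb i).2.2 x hx).1, ((hb i).2.2 x hx).2.1,
        fun a r hr => (((hb i).2.2 x hx).2.2 a r hr).2⟩
      keep := fun i _ x hx a r hr => (((hb i).2.2 x hx).2.2 a r hr).1 }
  exact ⟨G, e1, fun i => e2 i (Finset.mem_univ i)⟩

end P073.Bd
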