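import Vale.Agent.P073Y.Bd.Bas
import Vale.Agent.P073Y.Bd.Map
import Vale.Agent.P073Y.Bd.Glue
import Vale.Agent.P073Y.Bd.Collar0
import Vale.Agent.P073Y.Bd.Collar
import Vale.Agent.P073Y.Bd.Cups
import Vale.Agent.P073Y.Bd.Facem
import Vale.Agent.P073Y.Bd.Cellm
import Vale.Agent.P073Y.Bd.Flat1
import Vale.Agent.P073Y.Bd.Flat2
import Vale.Agent.P073Y.Cut.All

/-!
# Bands: the statements without hypotheses
-/

open scoped NNReal

namespace P073.Bd

theorem glue : GLUE := glue_of bas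

theorem collar0 : COLLAR0 := collar0_of bas

theorem collar (n : ℕ) : ∃ c₀ : ℝ≥0, ∀ c, c₀ ≤ c → COLLAR n c :=
  collar_of bas map_thm lipg collar0 n

theorem models : ∃ c₀ : ℝ≥0, ∀ c, c₀ ≤ c → FACEM c ∧ CELLM c := by
  obtain ⟨c₁, h1⟩ := collar 1
  obtain ⟨c₂, h2⟩ := collar 2
  exact ⟨max c₁ c₂, fun c hc =>
    ⟨facem_of bas glue (cups_of bas (h1 c ((le_max_left _ _).trans hc))),
      cellm_of bas glue gcomm (cups_of bas (h2 c ((le_max_right _ _).trans hc)))⟩⟩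

theorem flat2 : FLAT2 := flat2_of bas map_thm (flat1_of bas Cut.one1) (flat1_of bas Cut.one2)

end P073.Bd
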