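import Vale.Agent.P073Y.Bd.Sk
import Vale.Agent.P073Z.TriU
import Vale.Agent.P073Z.A12.Arcs
import Vale.Agent.P073Z.A12.Mod
import Vale.Agent.P073Z.A14.Cyc

/-!
# Compact one-manifolds are finite disjoint unions of circles and arcs
-/

open Set Metric Topology Filter

namespace P073.Bd

namespace Cls1

variable {E : Type} [NormedAddCommGroup E] [NormedSpace ℝ E]

/-- a short initial piece of an arc -/
theorem arc_end {A U : Set E} {p q : E} (h : IsArc A p q) (hU : U ∈ 𝓝[A] p) :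
    ∃ A' q', IsArc A' p q' ∧ A' ⊆ A ∩ U ∧ A' ∈ 𝓝[A] p := by
  obtain ⟨φ, h0, -⟩ := h
  have z : (0:ℝ) ∈ Icc (0:ℝ) 1 := ⟨le_rfl, zero_le_one⟩
  have h1 : φ.toFun ⁻¹' U ∈ 𝓝[Icc (0:ℝ) 1] 0 :=
    (φ.cont 0 z).tendsto_nhdsWithin φ.mapsTo (h0 ▸ hU)
  obtain ⟨r, hr, hb⟩ := Metric.mem_nhdsWithin_iff.1 h1
  have hδ : 0 < min (r / 2) 1 := lt_min (half_pos hr) one_pos
  have hs : Icc (0:ℝ) (min (r / 2) 1) ⊆ Icc 0 1 := Icc_subset_Icc le_rfl (min_le_right _ _)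
  refine ⟨_, _, h0 ▸ A12.arc_piece φ le_rfl hδ (min_le_right _ _), ?_, ?_⟩
  · rintro _ ⟨t, ht, rfl⟩
    refine ⟨φ.mapsTo (hs ht), hb ⟨?_, hs ht⟩⟩
    rw [mem_ball, Real.dist_eq, sub_zero, abs_of_nonneg ht.1]
    exact (ht.2.trans (min_le_left _ _)).trans_lt (half_lt_self hr)
  · rw [← h0]
    refine φ.image_mem_nhdsWithin z ?_
    filter_upwards [self_mem_nhdsWithin, mem_nhdsWithin_of_mem_nhds (Iic_mem_nhds hδ)] with t h h'
    exact ⟨h.1, h'⟩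

/-- a small arc about a point of a one-manifold -/
theorem arc_man {X U : Set E} {x : E} (h : PLMan 1 X) (hx : x ∈ X) (hU : U ∈ 𝓝 x) :
    ∃ A p q, IsArc A p q ∧ A ⊆ X ∩ U ∧ A ∈ 𝓝[X] x ∧ x ≠ p ∧ x ≠ q := by
  obtain ⟨C, B, h1, h2, h3, h4⟩ := h.small hx (mem_nhdsWithin_of_mem_nhds hU)
  obtain ⟨p, q, h5, rfl⟩ := h1.one_arc
  exact ⟨C, p, q, h5, h3, h4, fun e => h2.2 (Or.inl e), fun e => h2.2 (Or.inr e)⟩

theorem lev_loc {T S : Set E} (h : Lev T S) {x : E} (hx : x ∈ T) {U : Set E} (hU : U ∈ 𝓝 x) :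
    LocArc T S U x := by
  classical
  obtain ⟨𝒞, hT, hd, hc⟩ := h
  have hcl : ∀ c ∈ 𝒞, IsClosed c := fun c h => by
    rcases hc c h with ⟨h1, -⟩ | ⟨p, q, h1, -⟩
    · obtain ⟨A, B, p, q, h2, h3, -, rfl⟩ := h1.exists_arcs
      exact h2.isClosed.union h3.isClosed
    · exact h1.isClosed
  obtain ⟨c, hc1, hxc⟩ := mem_iUnion₂.1 (hT ▸ hx)
  have hcT : c ⊆ T := fun y hy => hT ▸ mem_iUnion₂.2 ⟨c, hc1, hy⟩
  have hn : c ∈ 𝓝[T] x := by
    have h1 : IsClosed (⋃ c' ∈ 𝒞.erase c, c') :=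
      isClosed_biUnion_finset fun c' h => hcl c' (Finset.mem_of_mem_erase h)
    have h2 : x ∉ ⋃ c' ∈ 𝒞.erase c, c' := fun h => by
      obtain ⟨c', h3, h4⟩ := mem_iUnion₂.1 h
      exact Set.disjoint_left.1 (hd c hc1 c' (Finset.mem_of_mem_erase h3)
        (Finset.ne_of_mem_erase h3).symm) hxc h4
    filter_upwards [self_mem_nhdsWithin,
      mem_nhdsWithin_of_mem_nhds (h1.isOpen_compl.mem_nhds h2)] with y hy hy'
    obtain ⟨c', h3, h4⟩ := mem_iUnion₂.1 (hT ▸ hy)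
    by_contra h5
    exact hy' (mem_iUnion₂.2 ⟨c', Finset.mem_erase.2 ⟨fun e => h5 (e ▸ h4), h3⟩, h4⟩)
  have up : ∀ {A : Set E}, A ∈ 𝓝[c] x → A ∈ 𝓝[T] x := fun hA => nhdsWithin_le_of_mem hn hA
  rcases hc c hc1 with ⟨h1, h2⟩ | ⟨p, q, h1, h2⟩
  · have hxS : x ∉ S := Set.disjoint_left.1 h2 hxc
    obtain ⟨A, p, q, k1, k2, k3, k4⟩ := arc_man (A12.isCircle_iff_conSphere.1 h1).plMan hxc hU
    exact ⟨A, p, q, k1, k2.trans (inter_subset_inter_left _ hcT), up k3,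
      fun h => absurd h hxS, fun _ => k4⟩
  · by_cases hxS : x ∈ S
    · have key : ∀ q', IsArc c x q' → LocArc T S U x := fun q' h => by
        obtain ⟨A, r, k1, k2, k3⟩ := arc_end h (mem_nhdsWithin_of_mem_nhds hU)
        exact ⟨A, x, r, k1, k2.trans (inter_subset_inter_left _ hcT), up k3,
          fun _ => rfl, fun h => absurd hxS h⟩
      rcases h2.le ⟨hxc, hxS⟩ with rfl | rfl
      · exact key _ h1
      · exact key _ h1.symm
    · have hx' : x ∈ c \ {p, q} := ⟨hxc, fun h => hxS (h2.ge h).2⟩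
      obtain ⟨A, p', q', k1, k2, k3, k4⟩ := arc_man h1.conBall.plMan hx' hU
      refine ⟨A, p', q', k1, k2.trans (inter_subset_inter_left _ (sdiff_subset.trans hcT)), up ?_,
        fun h => absurd h hxS, fun _ => k4⟩
      refine nhdsWithin_le_of_mem ?_ k3
      exact inter_mem_nhdsWithin c ((toFinite _).isClosed.isOpen_compl.mem_nhds hx'.2)

theorem arc_infinite {A : Set E} {p q : E} (h : IsArc A p q) : A.Infinite :=
  h.isConnected.isPreconnected.infinite_of_nontrivial ⟨p, h.left_mem, q, h.right_mem, h.ne⟩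

/-- two arcs from the same point inside an arc, with finite intersection, leave in opposite
directions -/
theorem sides {A B₁ B₂ : Set E} (φ : ConHomeo (Icc (0:ℝ) 1) A) {x y₁ y₂ : E}
    (h₁ : IsArc B₁ x y₁) (h₂ : IsArc B₂ x y₂) (s₁ : B₁ ⊆ A) (s₂ : B₂ ⊆ A)
    (hf : (B₁ ∩ B₂).Finite) :
    (φ.invFun y₁ < φ.invFun x ∧ φ.invFun x < φ.invFun y₂) ∨
      (φ.invFun y₂ < φ.invFun x ∧ φ.invFun x < φ.invFun y₁) := by
  have e₁ := A12.arc_real (h₁.image φ.symm s₁)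
  have e₂ := A12.arc_real (h₂.image φ.symm s₂)
  have n₁ := (h₁.image φ.symm s₁).ne
  have n₂ := (h₂.image φ.symm s₂).ne
  simp only [ConHomeo.symm_toFun] at e₁ e₂ n₁ n₂
  have sub : ∀ {B B' : Set E}, B ⊆ A → B' ⊆ A → φ.invFun '' B ⊆ φ.invFun '' B' → B ⊆ B' := by
    intro B B' hB hB' h y hy
    obtain ⟨z, hz, e⟩ := h ⟨y, hy, rfl⟩
    exact φ.symm.injOn (hB' hz) (hB hy) e ▸ hz
  have k₁ : ¬ uIcc (φ.invFun x) (φ.invFun y₁) ⊆ uIcc (φ.invFun x) (φ.invFun y₂) := fun h =>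
    arc_infinite h₁ (hf.subset (subset_inter Subset.rfl (sub s₁ s₂ (e₁ ▸ e₂ ▸ h))))
  have k₂ : ¬ uIcc (φ.invFun x) (φ.invFun y₂) ⊆ uIcc (φ.invFun x) (φ.invFun y₁) := fun h =>
    arc_infinite h₂ (hf.subset (subset_inter (sub s₂ s₁ (e₁ ▸ e₂ ▸ h)) Subset.rfl))
  generalize φ.invFun x = t at *
  generalize φ.invFun y₁ = a at *
  generalize φ.invFun y₂ = b at *
  have k₁' : a ∉ uIcc t b := fun h => k₁ (uIcc_subset_uIcc left_mem_uIcc h)
  have k₂' : b ∉ uIcc t a := fun h => k₂ (uIcc_subset_uIcc left_mem_uIcc h)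
  rw [mem_uIcc] at k₁' k₂'
  rcases lt_or_gt_of_ne n₁ with h | h <;> rcases lt_or_gt_of_ne n₂ with h' | h'
  · rcases le_total a b with h3 | h3
    · exact absurd (Or.inl ⟨h.le, h3⟩) k₁'
    · exact absurd (Or.inl ⟨h'.le, h3⟩) k₂'
  · exact Or.inr ⟨h', h⟩
  · exact Or.inl ⟨h, h'⟩
  · rcases le_total a b with h3 | h3
    · exact absurd (Or.inr ⟨h3, h'.le⟩) k₂'
    · exact absurd (Or.inr ⟨h3, h.le⟩) k₁'

/-- at the end of an arc there is only one direction -/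
theorem not_two {A B₁ B₂ : Set E} {x q y₁ y₂ : E} (h : IsArc A x q) (h₁ : IsArc B₁ x y₁)
    (h₂ : IsArc B₂ x y₂) (n₁ : A ∈ 𝓝[B₁] x) (n₂ : A ∈ 𝓝[B₂] x) (hf : (B₁ ∩ B₂).Finite) :
    False := by
  obtain ⟨C₁, z₁, k₁, s₁, -⟩ := arc_end h₁ n₁
  obtain ⟨C₂, z₂, k₂, s₂, -⟩ := arc_end h₂ n₂
  obtain ⟨φ, h0, -⟩ := h
  have e : φ.invFun x = 0 := h0 ▸ φ.left_inv ⟨le_rfl, zero_le_one⟩
  have := sides φ k₁ k₂ (s₁.trans inter_subset_right) (s₂.trans inter_subset_right)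
    (hf.subset (inter_subset_inter (s₁.trans inter_subset_left) (s₂.trans inter_subset_left)))
  rw [e] at this
  rcases this with ⟨h3, -⟩ | ⟨h3, -⟩
  · exact h3.not_ge (φ.mapsTo_inv (s₁ k₁.right_mem).2).1
  · exact h3.not_ge (φ.mapsTo_inv (s₂ k₂.right_mem).2).1

/-- in an arc there are only two directions -/
theorem not_three {A B₁ B₂ B₃ : Set E} {x p q y₁ y₂ y₃ : E} (h : IsArc A p q)
    (h₁ : IsArc B₁ x y₁) (h₂ : IsArc B₂ x y₂) (h₃ : IsArc B₃ x y₃) (n₁ : A ∈ 𝓝[B₁] x)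
    (n₂ : A ∈ 𝓝[B₂] x) (n₃ : A ∈ 𝓝[B₃] x) (f₁₂ : (B₁ ∩ B₂).Finite) (f₁₃ : (B₁ ∩ B₃).Finite)
    (f₂₃ : (B₂ ∩ B₃).Finite) : False := by
  obtain ⟨C₁, z₁, k₁, s₁, -⟩ := arc_end h₁ n₁
  obtain ⟨C₂, z₂, k₂, s₂, -⟩ := arc_end h₂ n₂
  obtain ⟨C₃, z₃, k₃, s₃, -⟩ := arc_end h₃ n₃
  obtain ⟨φ, -, -⟩ := h
  have l₁ := s₁.trans inter_subset_left
  have l₂ := s₂.trans inter_subset_left
  have l₃ := s₃.trans inter_subset_left
  have r₁ := s₁.trans inter_subset_right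
  have r₂ := s₂.trans inter_subset_right
  have r₃ := s₃.trans inter_subset_right
  have a := sides φ k₁ k₂ r₁ r₂ (f₁₂.subset (inter_subset_inter l₁ l₂))
  have b := sides φ k₁ k₃ r₁ r₃ (f₁₃.subset (inter_subset_inter l₁ l₃))
  have c := sides φ k₂ k₃ r₂ r₃ (f₂₃.subset (inter_subset_inter l₂ l₃))
  rcases a with a | a <;> rcases b with b | b <;> rcases c with c | c <;> linarith [a.1, a.2, b.1,
    b.2, c.1, c.2]

/-- an end of an arc is not an inner point of an arc lying locally in it -/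
theorem not_inner {A B : Set E} {x q u v : E} (h : IsArc A x q) (hB : IsArc B u v) (hx : x ∈ B)
    (hu : x ≠ u) (hv : x ≠ v) (n : A ∈ 𝓝[B] x) : False := by
  obtain ⟨B₁, B₂, h₁, h₂, e, e'⟩ := A12.arc_split hB hx hu hv
  exact not_two h h₁.symm h₂ (nhdsWithin_mono x (e ▸ subset_union_left) n)
    (nhdsWithin_mono x (e ▸ subset_union_right) n) (e' ▸ finite_singleton x)

variable {K : RCx E} {T S : Set E}

theorem dim_le (h : ∀ x ∈ T, LocArc T S univ x) {i : K.ι} (hi : K.cell i ⊆ T) : K.dim i ≤ 1 := by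
  obtain ⟨x, hx⟩ := K.ocell_nonempty i
  obtain ⟨A, p, q, h1, -, h3, -⟩ := h x (hi hx.1)
  obtain ⟨-, φ, -⟩ := h1.conBall
  exact PLMan.dim_le (K.ball i).plMan (plMan_open isOpen_univ) (f := φ.toFun) hx
    (nhdsWithin_mono x (sdiff_subset.trans hi) h3) (φ.cont.mono inter_subset_right)
    (φ.injOn.mono inter_subset_right) (mapsTo_univ _ _)

theorem exists_edge (hK : K.Sub T) (h : ∀ x ∈ T, LocArc T S univ x) {x : E} (hx : x ∈ T) :
    ∃ i, (K.cell i ⊆ T ∧ K.dim i = 1) ∧ x ∈ K.cell i := by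
  by_contra hn
  obtain ⟨j, hj, hjT⟩ := hK.exists_ocell hx
  have z : ∀ i, K.cell i ⊆ T → x ∈ K.cell i → K.dim i = 0 := fun i hi hxi => by
    have h1 := dim_le h hi
    have h2 : K.dim i ≠ 1 := fun e => hn ⟨i, ⟨hi, e⟩, hxi⟩
    omega
  have h1 := hK.cell_mem_nhdsWithin hj fun i hi hji => (z i hi (hji hj.1)).le.trans (Nat.zero_le _)
  obtain ⟨a, ha⟩ := K.exists_vertex (z j hjT hj.1)
  obtain ⟨A, p, q, k1, k2, k3, -⟩ := h x hx
  have hxA : x ∈ A := mem_of_mem_nhdsWithin hx k3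
  have h2 : K.cell j ∈ 𝓝[A] x := nhdsWithin_mono x (k2.trans inter_subset_left) h1
  have h3 := k1.isConnected.isPreconnected.preperfect_of_nontrivial
    ⟨p, k1.left_mem, q, k1.right_mem, k1.ne⟩ x hxA
  obtain ⟨V, hV, hV'⟩ := mem_nhdsWithin_iff_exists_mem_nhds_inter.1 h2
  obtain ⟨y, hy, hyx⟩ := accPt_iff_nhds.1 h3 V hV
  have e1 : y ∈ ({a} : Set E) := ha ▸ hV' hy
  have e2 : x ∈ ({a} : Set E) := ha ▸ hj.1
  exact hyx (e1.trans e2.symm)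

theorem lev_of_sub (hK : K.Sub T) (hT : IsCompact T) (h : ∀ x ∈ T, LocArc T S univ x) :
    Lev T S := by
  classical
  have hf : {i | K.cell i ⊆ T ∧ K.dim i = 1}.Finite :=
    (K.finite_subset hT hK.subset_carrier).subset fun i hi => hi.1
  have hed : ∀ i, K.cell i ⊆ T ∧ K.dim i = 1 → ∃ p q, IsArc (K.cell i) p q ∧ K.bd i = {p, q} :=
    fun i hi => (hi.2 ▸ K.ball i : ConBall 1 (K.cell i) (K.bd i)).one_arc
  choose! a b harc hbd using hed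
  have hs : ∀ i, i ∈ hf.toFinset ↔ K.cell i ⊆ T ∧ K.dim i = 1 := fun i => hf.mem_toFinset
  generalize hf.toFinset = s at hs
  replace harc : ∀ i ∈ s, IsArc (K.cell i) (a i) (b i) := fun i hi => harc i ((hs i).1 hi)
  replace hbd : ∀ i ∈ s, K.bd i = {a i, b i} := fun i hi => hbd i ((hs i).1 hi)
  have hsT : ∀ i ∈ s, K.cell i ⊆ T := fun i hi => ((hs i).1 hi).1
  have hI : ∀ i ∈ s, ∀ j ∈ s, i ≠ j → K.cell i ∩ K.cell j ⊆ {a i, b i} ∩ {a j, b j} := by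
    intro i hi j hj hne
    have e : K.dim i = K.dim j := ((hs i).1 hi).2.trans ((hs j).1 hj).2.symm
    rw [← hbd i hi, ← hbd j hj]
    exact subset_inter (K.inter_subset_bd hne e.ge)
      (inter_comm _ _ ▸ K.inter_subset_bd hne.symm e.le)
  have hfin : ∀ i ∈ s, ∀ j ∈ s, i ≠ j → (K.cell i ∩ K.cell j).Finite := fun i hi j hj hne =>
    (toFinite _).subset (hI i hi j hj hne)
  have hfrom : ∀ i ∈ s, ∀ x ∈ ({a i, b i} : Set E), ∃ y, IsArc (K.cell i) x y := by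
    rintro i hi x (rfl | rfl)
    exacts [⟨_, harc i hi⟩, ⟨_, (harc i hi).symm⟩]
  have hcov : ∀ x ∈ T, ∃ i ∈ s, x ∈ K.cell i := fun x hx =>
    let ⟨i, hi, hxi⟩ := exists_edge hK h hx
    ⟨i, (hs i).2 hi, hxi⟩
  -- points of `S` are ends of edges
  have hSb : ∀ i ∈ s, ∀ x ∈ K.cell i, x ∈ S → x ∈ ({a i, b i} : Set E) := by
    intro i hi x hx hxS
    by_contra hn
    obtain ⟨A, p, q, k1, -, k3, k4, -⟩ := h x (hsT i hi hx)
    obtain rfl := k4 hxS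
    exact not_inner k1 (harc i hi) hx (fun e => hn (Or.inl e)) (fun e => hn (Or.inr e))
      (nhdsWithin_mono x (hsT i hi) k3)
  -- degree one at the points of `S`
  have hone : ∀ i ∈ s, ∀ x ∈ K.cell i, x ∈ S → A14.deg s K.cell x = 1 := by
    intro i hi x hx hxS
    refine ncard_eq_one.2 ⟨i, Subset.antisymm (fun j hj => ?_) ?_⟩
    · by_contra hne
      obtain ⟨A, p, q, k1, -, k3, k4, -⟩ := h x (hsT i hi hx)
      obtain rfl := k4 hxS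
      obtain ⟨y, hy⟩ := hfrom i hi x (hSb i hi x hx hxS)
      obtain ⟨z, hz⟩ := hfrom j hj.1 x (hSb j hj.1 x hj.2 hxS)
      exact not_two k1 hz hy (nhdsWithin_mono x (hsT j hj.1) k3)
        (nhdsWithin_mono x (hsT i hi) k3) (hfin j hj.1 i hi hne)
    · rintro _ rfl
      exact ⟨hi, hx⟩
  -- ends of degree one are points of `S`
  have hS : ∀ i ∈ s, ∀ x ∈ ({a i, b i} : Set E), A14.deg s K.cell x = 1 → x ∈ S := by
    intro i hi x hx hd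
    by_contra hxS
    obtain ⟨y, hy⟩ := hfrom i hi x hx
    have hxT := hsT i hi hy.left_mem
    obtain ⟨A, p, q, k1, k2, k3, -, k4⟩ := h x hxT
    obtain ⟨m, hm⟩ := ncard_eq_one.1 hd
    have hn : K.cell i ∈ 𝓝[T] x := by
      filter_upwards [self_mem_nhdsWithin, mem_nhdsWithin_of_mem_nhds
        (K.eventually_star (hK.subset_carrier hxT))] with z hz hz'
      obtain ⟨j, hj, hzj⟩ := hcov z hz
      have e1 : j = m := hm.le ⟨hj, hz' j hzj⟩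
      have e2 : i = m := hm.le ⟨hi, hy.left_mem⟩
      rwa [e2, ← e1]
    exact not_inner hy k1 (mem_of_mem_nhdsWithin hxT k3) (k4 hxS).1 (k4 hxS).2
      (nhdsWithin_mono x (k2.trans inter_subset_left) hn)
  have hd : ∀ x, A14.deg s K.cell x ≤ 2 := by
    intro x
    by_contra hn
    obtain ⟨i, j, k, hi, hj, hk, hij, hik, hjk⟩ :=
      (two_lt_ncard_iff A14.deg_finite).1 (not_le.1 hn)
    obtain ⟨A, p, q, k1, -, k3, -⟩ := h x (hsT i hi.1 hi.2)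
    obtain ⟨y₁, h₁⟩ := hfrom i hi.1 x (hI i hi.1 j hj.1 hij ⟨hi.2, hj.2⟩).1
    obtain ⟨y₂, h₂⟩ := hfrom j hj.1 x (hI i hi.1 j hj.1 hij ⟨hi.2, hj.2⟩).2
    obtain ⟨y₃, h₃⟩ := hfrom k hk.1 x (hI i hi.1 k hk.1 hik ⟨hi.2, hk.2⟩).2
    exact not_three k1 h₁ h₂ h₃ (nhdsWithin_mono x (hsT i hi.1) k3)
      (nhdsWithin_mono x (hsT j hj.1) k3) (nhdsWithin_mono x (hsT k hk.1) k3)
      (hfin i hi.1 j hj.1 hij) (hfin i hi.1 k hk.1 hik) (hfin j hj.1 k hk.1 hjk)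
  obtain ⟨𝒞, c1, c2, c3, c4⟩ := A14.exists_comps s K.cell a b harc hI hd
  refine ⟨𝒞.image fun c => ⋃ i ∈ c, K.cell i, Subset.antisymm (fun x hx => ?_) ?_, ?_, ?_⟩
  · obtain ⟨j, hj, hxj⟩ := hcov x hx
    obtain ⟨c, hc, hjc⟩ := c2 j hj
    exact mem_iUnion₂.2 ⟨_, Finset.mem_image_of_mem _ hc, mem_iUnion₂.2 ⟨j, hjc, hxj⟩⟩
  · refine iUnion₂_subset fun X hX => ?_
    obtain ⟨c, hc, rfl⟩ := Finset.mem_image.1 hX
    exact iUnion₂_subset fun i hi => hsT i (c1 c hc hi)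
  · intro X hX X' hX' hne
    obtain ⟨c, hc, rfl⟩ := Finset.mem_image.1 hX
    obtain ⟨c', hc', rfl⟩ := Finset.mem_image.1 hX'
    exact c3 c hc c' hc' fun e => hne (e ▸ rfl)
  · intro X hX
    obtain ⟨c, hc, rfl⟩ := Finset.mem_image.1 hX
    rcases c4 c hc with ⟨h1, h2⟩ | ⟨p, q, h1, ⟨i, hi, hp⟩, ⟨j, hj, hq⟩, h2⟩
    · refine Or.inl ⟨h1, Set.disjoint_left.2 fun y hy hyS => ?_⟩
      obtain ⟨k, hk, hyk⟩ := mem_iUnion₂.1 hy
      have e1 := h2 k hk y (hSb k (c1 c hc hk) y hyk hyS)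
      have e2 := hone k (c1 c hc hk) y hyk hyS
      omega
    · refine Or.inr ⟨p, q, h1, Subset.antisymm (fun y hy => ?_) ?_⟩
      · obtain ⟨k, hk, hyk⟩ := mem_iUnion₂.1 hy.1
        exact (h2 k hk y (hSb k (c1 c hc hk) y hyk hy.2)).1 (hone k (c1 c hc hk) y hyk hy.2)
      · rintro y (rfl | rfl)
        · exact ⟨h1.left_mem, hS i (c1 c hc hi) y hp ((h2 i hi y hp).2 (Or.inl rfl))⟩
        · exact ⟨h1.right_mem, hS j (c1 c hc hj) y hq ((h2 j hj y hq).2 (Or.inr rfl))⟩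

end Cls1

theorem cls1 : CLS1 := by
  intro E _ _ _ T S
  refine ⟨fun h x hx U hU => Cls1.lev_loc h hx hU, fun hT hc h => ?_⟩
  obtain ⟨K, -, -, -, hK⟩ := tri (κ := Unit) (U := univ) (fun _ => T) (fun _ => (id : E → E))
    (r := fun _ => 1) isOpen_univ ⟨continuousOn_const, fun _ _ => one_pos⟩
    (fun _ _ => ⟨univ, univ_mem, toFinite _⟩) fun _ =>
      ⟨subset_univ _, closedIn_of_isClosed hT.isClosed _, fun x _ => hc x,
        continuousOn_id, (ConHomeo.refl hc.conicalSet).conical⟩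
  exact Cls1.lev_of_sub (hK ()).1 hT h

end P073.Bd
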