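import Vale.Agent.P073Y.Bd.Sk

/-!
# The fibres of the corner band in the plane
-/

namespace P073.Bd.C0

/-- the invariant of a fibre -/
noncomputable def T (a ρ : ℝ) : ℝ := max 0 (max ((a - ρ) / 3) (a - 1))

/-- the point of level `s` on the fibre, first coordinate -/
noncomputable def F (a ρ s : ℝ) : ℝ := min (s + 3 * T a ρ) (1 + T a ρ)

variable {a ρ s : ℝ}

theorem T_nonneg (a ρ : ℝ) : 0 ≤ T a ρ := le_max_left _ _

theorem T_zero (h : a ≤ ρ) (h1 : a ≤ 1) : T a ρ = 0 :=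
  max_eq_left (max_le (by linarith) (by linarith))

theorem F_low (h : a ≤ ρ) (h1 : a ≤ 1) (hs : s ≤ 1) : F a ρ s = s := by
  rw [F, T_zero h h1]
  simpa using hs

theorem le_F (hs : s ≤ 1) : s ≤ F a ρ s := by
  have := T_nonneg a ρ
  exact le_min (by linarith) (by linarith)

theorem F_le (ha : a ≤ 2) (hρ : -1 ≤ ρ) : F a ρ s ≤ 2 := by
  have : T a ρ ≤ 1 := max_le zero_le_one (max_le (by linarith) (by linarith))
  exact (min_le_right _ _).trans (by linarith)

theorem F_high (ha : 2 ≤ a) (hρ : -1 ≤ ρ) (hs : -1 ≤ s) : F a ρ s = a := by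
  have : T a ρ = a - 1 := by
    rw [T, max_eq_right (show (a - ρ) / 3 ≤ a - 1 by linarith), max_eq_right (by linarith)]
  rw [F, this, min_eq_right (by linarith)]
  ring

theorem band (h : |min a ρ| ≤ 1) : -1 ≤ a ∧ -1 ≤ ρ ∧ ((a ≤ ρ ∧ a ≤ 1) ∨ (ρ ≤ a ∧ ρ ≤ 1)) := by
  obtain ⟨h1, h2⟩ := abs_le.1 h
  refine ⟨h1.trans (min_le_left _ _), h1.trans (min_le_right _ _), ?_⟩
  rcases le_total a ρ with h3 | h3
  · exact Or.inl ⟨h3, by rwa [min_eq_left h3] at h2⟩
  · exact Or.inr ⟨h3, by rwa [min_eq_right h3] at h2⟩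

theorem min_F (h : |min a ρ| ≤ 1) (hs : s ≤ 1) : min (F a ρ s) (F ρ a s) = s := by
  rcases (band h).2.2 with ⟨h1, h2⟩ | ⟨h1, h2⟩
  · rw [F_low h1 h2 hs]
    exact min_eq_left (le_F hs)
  · rw [F_low h1 h2 hs]
    exact min_eq_right (le_F hs)

theorem T_F (h : |min a ρ| ≤ 1) (hs : s ≤ 1) : T (F a ρ s) (F ρ a s) = T a ρ := by
  rcases (band h).2.2 with ⟨h1, h2⟩ | ⟨h1, h2⟩
  · rw [F_low h1 h2 hs, T_zero h1 h2]
    exact T_zero (le_F hs) hs
  · rw [F_low h1 h2 hs]
    have h0 := T_nonneg a ρ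
    have e1 : F a ρ s ≤ s + 3 * T a ρ := min_le_left _ _
    have e2 : F a ρ s ≤ 1 + T a ρ := min_le_right _ _
    refine le_antisymm (max_le h0 (max_le (by linarith) (by linarith))) ?_
    refine le_trans ?_ (le_max_right _ _)
    rcases min_choice (s + 3 * T a ρ) (1 + T a ρ) with e | e
    · have e' : F a ρ s = s + 3 * T a ρ := e
      exact le_trans (by linarith) (le_max_left _ _)
    · have e' : F a ρ s = 1 + T a ρ := e
      exact le_trans (by linarith) (le_max_right _ _)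

theorem F_F (h : |min a ρ| ≤ 1) (hs : s ≤ 1) (t : ℝ) : F (F a ρ s) (F ρ a s) t = F a ρ t := by
  rw [F, T_F h hs]
  rfl

theorem F_self (h : |min a ρ| ≤ 1) : F a ρ (min a ρ) = a := by
  rcases (band h).2.2 with ⟨h1, h2⟩ | ⟨h1, h2⟩
  · rw [min_eq_left h1]
    exact F_low h1 h2 h2
  · rw [min_eq_right h1]
    have e0 : T a ρ = max ((a - ρ) / 3) (a - 1) :=
      max_eq_right (le_trans (by linarith) (le_max_left _ _))
    have e1 : (a - ρ) / 3 ≤ T a ρ := e0 ▸ le_max_left _ _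
    have e2 : a - 1 ≤ T a ρ := e0 ▸ le_max_right _ _
    refine le_antisymm ?_ (le_min (by linarith) (by linarith))
    rcases max_choice ((a - ρ) / 3) (a - 1) with e | e
    · exact (min_le_left _ _).trans (by rw [e0, e]; linarith)
    · exact (min_le_right _ _).trans (by rw [e0, e]; linarith)

theorem cl_eq (h : |s| ≤ 1) : cl s = s := by
  obtain ⟨h1, h2⟩ := abs_le.1 h
  rw [cl, min_eq_left h2, max_eq_right h1]

theorem cl_out (h : ¬ |s| ≤ 1) : cl s = 1 ∨ cl s = -1 := by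
  rcases le_total s 0 with h0 | h0
  · rw [abs_of_nonpos h0] at h
    right
    rw [cl, min_eq_left (by linarith), max_eq_left (by linarith)]
  · rw [abs_of_nonneg h0] at h
    left
    rw [cl, min_eq_right (by linarith), max_eq_right (by linarith)]

end P073.Bd.C0
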