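import Vale.Agent.P073Y.Bd.Sk
import Vale.Agent.P073Z.RCX2

/-!
# Extension of homeomorphisms of the wires
-/

open Set

namespace P073.Bd

theorem even : EVEN := by
  intro X θ hθ
  classical
  have hP : X.K.FaceClosed fun c => X.K.dim c ≤ 1 ∨ X.K.cell c ⊆ X.bd :=
    (X.K.faceClosed_dim 1).or (X.K.faceClosed_subset X.bd)
  have hid : ∀ c, X.K.cell c ⊆ X.bd →
      EqOn (if X.K.dim c = 1 then θ c else id) id (X.K.cell c) := fun c hc => by
    split_ifs with h
    exacts [(hθ c h).2.2 hc, fun _ _ => rfl]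
  obtain ⟨ψ, hψ⟩ := (X.K.realiz_cell 3).exists_glue (X.K.realiz_cell 3) hP
    (fun c _ => X.dim_le c) (fun c => if X.K.dim c = 1 then θ c else id)
    (fun c _ => by
      split_ifs with h
      exacts [(hθ c h).1, ⟨.refl (X.K.ball c).conicalSet, fun _ _ => rfl⟩])
    (fun i j hi hj => by
      rcases X.K.eq_or_subset_bd hj with rfl | hb
      · exact fun _ _ => rfl
      rcases hi with hi | hi
      · have h1 := X.K.dim_lt hb
        rw [if_pos (show X.K.dim i = 1 by omega), if_neg (show X.K.dim j ≠ 1 by omega)]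
        exact (hθ i (by omega)).2.1.mono hb
      · exact fun x hx => (hid i hi (hj hx)).trans (hid j (hj.trans hi) hx).symm)
  obtain ⟨Φ, h1, h2⟩ := (X.K.realiz_cell 3).exists_extend (X.K.realiz_cell 3) hP
    (fun c _ => X.dim_le c) ψ fun c hc => (hψ c hc).2
  have e : X.K.rskel X.K.cell 3 = X.K.carrier := X.K.skel_eq_carrier X.dim_le
  refine ⟨Φ.cast e e, fun x hx => ?_, fun c => h2 c (X.dim_le c), fun c hc x hx => ?_⟩
  · obtain ⟨c, a1, a2⟩ := X.sub x hx
    exact (h1 (mem_iUnion₂.2 ⟨c, Or.inr a2, a1⟩)).trans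
      (((hψ c (Or.inr a2)).1 a1).trans (hid c a2 a1))
  · refine (h1 (mem_iUnion₂.2 ⟨c, Or.inl hc.le, hx⟩)).trans (((hψ c (Or.inl hc.le)).1 hx).trans ?_)
    rw [if_pos hc]

end P073.Bd
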