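import Vale.Agent.P073Y.Bd.Sk
import Vale.Agent.P073Y.Cut.All
import Vale.Agent.P073Z.SHELL.A

/-!
# Straightening of both families, part A: one family in a box
-/

open Set Metric Topology Filter

namespace P073.Bd.F2

variable {E F : Type} [NormedAddCommGroup E] [NormedSpace ℝ E]
  [NormedAddCommGroup F] [NormedSpace ℝ F] {m n : ℕ}

/-- the band is the standard one at the point `x`, in the coordinates `g` -/
def Std (g : E → Fin m → ℝ) (b : Band E) (k : Fin m) (t lam : ℝ) (x : E) : Prop :=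
  (x ∈ b.B ↔ |g x k - t| ≤ lam) ∧ b.u x = cl ((g x k - t) / lam) ∧
    (x ∈ b.B → ∀ s ∈ I, g (b.M (x, s)) = Function.update (g x) k (t + lam * s))

omit [NormedAddCommGroup E] [NormedSpace ℝ E] in
theorem Std.congr {g g' : E → Fin m → ℝ} {b : Band E} {k : Fin m} {t lam : ℝ} {x : E} {X : Set E}
    (h : Std g b k t lam x) (e : EqOn g' g X) (hx : x ∈ X)
    (hk : x ∈ b.B → ∀ s ∈ I, b.M (x, s) ∈ X) : Std g' b k t lam x := by
  refine ⟨by rw [e hx]; exact h.1, by rw [e hx]; exact h.2.1, fun hb s hs => ?_⟩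
  rw [e hx, e (hk hb s hs)]
  exact h.2.2 hb s hs

theorem cl_eq {a : ℝ} (h : |a| ≤ 1) : cl a = a := by
  rw [abs_le] at h
  rw [cl, min_eq_left h.2, max_eq_right h.1]

theorem cl_sgn {ε a : ℝ} (hε : ε = 1 ∨ ε = -1) : cl a = ε ↔ 1 ≤ ε * a := by
  rcases hε with rfl | rfl
  · rw [cl, one_mul]
    constructor
    · intro h
      by_contra h'
      have h1 : min a 1 < 1 := min_lt_of_left_lt (not_le.1 h')
      have h2 : max (-1) (min a 1) < 1 := max_lt (by norm_num) h1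
      exact h2.ne h
    · intro h
      rw [min_eq_right h]
      norm_num
  · rw [cl, neg_one_mul, le_neg, max_eq_left_iff, min_le_iff]
    exact ⟨fun h => h.elim id fun h => by linarith, Or.inl⟩

theorem cl_zero {a : ℝ} (h : cl a = 0) : a = 0 := by
  rw [cl] at h
  rcases le_total a 1 with h1 | h1
  · rw [min_eq_left h1] at h
    rcases le_total (-1) a with h2 | h2
    · rwa [max_eq_right h2] at h
    · rw [max_eq_left h2] at h
      norm_num at h
  · rw [min_eq_right h1] at h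
    norm_num at h

omit [NormedAddCommGroup E] [NormedSpace ℝ E] in
theorem Std.coord {g : E → Fin m → ℝ} {b : Band E} {k : Fin m} {t lam : ℝ} {x : E}
    (h : Std g b k t lam x) (hl : 0 < lam) (hx : x ∈ b.B) : g x k = t + lam * b.u x := by
  have h1 : |(g x k - t) / lam| ≤ 1 := by
    rw [abs_div, abs_of_pos hl, div_le_one hl]
    exact h.1.1 hx
  rw [h.2.1, cl_eq h1]
  field_simp
  ring

omit [NormedAddCommGroup E] [NormedSpace ℝ E] in
theorem Std.sgn {g : E → Fin m → ℝ} {b : Band E} {k : Fin m} {t lam ε : ℝ} {x : E}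
    (h : Std g b k t lam x) (hl : 0 < lam) (hε : ε = 1 ∨ ε = -1) :
    b.u x = ε ↔ lam ≤ ε * (g x k - t) := by
  rw [h.2.1, cl_sgn hε, ← mul_div_assoc, le_div_iff₀ hl, one_mul]

omit [NormedAddCommGroup E] [NormedSpace ℝ E] in
theorem Std.wall {g : E → Fin m → ℝ} {b : Band E} {k : Fin m} {t lam : ℝ} {x : E}
    (h : Std g b k t lam x) (hl : 0 < lam) : x ∈ b.W ↔ g x k = t := by
  constructor
  · intro hx
    rw [h.coord hl hx.1, hx.2, mul_zero, add_zero]
  · intro hx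
    refine ⟨h.1.2 (by rw [hx, sub_self, abs_zero]; exact hl.le), ?_⟩
    rw [h.2.1, hx, sub_self, zero_div, cl_eq (by norm_num)]

/-- splitting off the coordinate `k` -/
def sp (k : Fin (n + 1)) (y : Fin (n + 1) → ℝ) : (Fin n → ℝ) × ℝ := (k.removeNth y, y k)

/-- the inverse -/
def us (k : Fin (n + 1)) (q : (Fin n → ℝ) × ℝ) : Fin (n + 1) → ℝ := k.insertNth q.2 q.1

theorem us_sp (k : Fin (n + 1)) (y : Fin (n + 1) → ℝ) : us k (sp k y) = y :=
  Fin.insertNth_self_removeNth k y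

theorem sp_us (k : Fin (n + 1)) (q : (Fin n → ℝ) × ℝ) : sp k (us k q) = q :=
  Prod.ext (Fin.removeNth_insertNth (α := fun _ => ℝ) k q.2 q.1)
    (Fin.insertNth_apply_same (α := fun _ => ℝ) k q.2 q.1)

theorem us_k (k : Fin (n + 1)) (q : (Fin n → ℝ) × ℝ) : us k q k = q.2 :=
  Fin.insertNth_apply_same (α := fun _ => ℝ) k q.2 q.1

theorem us_succ (k : Fin (n + 1)) (q : (Fin n → ℝ) × ℝ) (j : Fin n) :
    us k q (k.succAbove j) = q.1 j := Fin.insertNth_apply_succAbove (α := fun _ => ℝ) k q.2 q.1 j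

theorem us_upd (k : Fin (n + 1)) (q : (Fin n → ℝ) × ℝ) (a : ℝ) :
    us k (q.1, a) = Function.update (us k q) k a :=
  (Fin.update_insertNth (α := fun _ => ℝ) k q.2 a q.1).symm

theorem sp_upd (k : Fin (n + 1)) (y : Fin (n + 1) → ℝ) (a : ℝ) :
    sp k (Function.update y k a) = ((sp k y).1, a) :=
  Prod.ext (Fin.removeNth_update (α := fun _ => ℝ) k a y) (Function.update_self ..)

theorem us_upd' (k : Fin (n + 1)) (z : Fin n → ℝ) (a c : ℝ) (j : Fin n) :
    us k (Function.update z j c, a) = Function.update (us k (z, a)) (k.succAbove j) c :=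
  Fin.insertNth_update (α := fun _ => ℝ) k a j c z

/-- the splitting as a homeomorphism -/
def spl (k : Fin (n + 1)) {X : Set (Fin (n + 1) → ℝ)} {Y : Set ((Fin n → ℝ) × ℝ)}
    (hX : ConicalSet X) (h : ∀ y, y ∈ X ↔ sp k y ∈ Y) : ConHomeo X Y where
  toFun := sp k
  invFun := us k
  mapsTo y hy := (h y).1 hy
  mapsTo_inv q hq := (h _).2 (by rwa [sp_us])
  left_inv y _ := us_sp k y
  right_inv q _ := sp_us k q
  cont := (Continuous.prodMk (continuous_pi fun j => continuous_apply (k.succAbove j))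
    (continuous_apply k)).continuousOn
  cont_inv := (Continuous.finInsertNth (A := fun _ => ℝ) k continuous_snd
    continuous_fst).continuousOn
  conical := conicalOn_linear
    ((LinearMap.funLeft ℝ ℝ k.succAbove).prod (LinearMap.proj k)) hX

theorem mem_Icc_sp (k : Fin (n + 1)) (lo hi y : Fin (n + 1) → ℝ) :
    y ∈ Icc lo hi ↔ sp k y ∈ Icc (k.removeNth lo) (k.removeNth hi) ×ˢ Icc (lo k) (hi k) := by
  conv_lhs => rw [← us_sp k y]
  exact Fin.insertNth_mem_Icc.trans and_comm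

theorem mem_fr_sp (k : Fin (n + 1)) {lo hi : Fin (n + 1) → ℝ} (hne : lo k ≤ hi k)
    (y : Fin (n + 1) → ℝ) : y ∈ frontier (Icc lo hi) ↔ sp k y ∈
      frontier (Icc (k.removeNth lo) (k.removeNth hi)) ×ˢ Icc (lo k) (hi k) ∪
        Icc (k.removeNth lo) (k.removeNth hi) ×ˢ {lo k, hi k} := by
  rw [Cut.Box.frontier_box, Cut.Box.frontier_box, mem_sep_iff, mem_Icc_sp k,
    Fin.exists_iff_succAbove k]
  constructor
  · rintro ⟨⟨h1, h2⟩, h | h⟩
    · exact Or.inr ⟨h1, h⟩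
    · exact Or.inl ⟨⟨h1, h⟩, h2⟩
  · rintro (⟨⟨h1, h⟩, h2⟩ | ⟨h1, h⟩)
    · exact ⟨⟨h1, h2⟩, Or.inr h⟩
    · refine ⟨⟨h1, ?_⟩, Or.inl h⟩
      rcases h with h | h
      · rw [h]
        exact left_mem_Icc.2 hne
      · rw [h]
        exact right_mem_Icc.2 hne

theorem ball_box {lo hi : Fin n → ℝ} (h : ∀ i, lo i < hi i) :
    ConBall n (Icc lo hi) (frontier (Icc lo hi)) := by
  rw [Cut.Box.frontier_box]
  exact Cut.Box.conBall_Icc h

/-- one family of bands in a box -/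
theorem flatBox (H : FLAT1 n) [FiniteDimensional ℝ E] {ι : Type} (s : Finset ι) {C S : Set E}
    {lo hi : Fin (n + 1) → ℝ} {lam : ℝ} (b : ι → Band E) (t : ι → ℝ) (k : Fin (n + 1))
    (φ : ConHomeo S (frontier (Icc lo hi))) (hC : ConBall (n + 1) C S) (hlt : ∀ i, lo i < hi i)
    (hl : 0 < lam) (hin : ∀ i ∈ s, lo k < t i - lam ∧ t i + lam < hi k)
    (hd : ∀ i ∈ s, ∀ j ∈ s, i ≠ j → Disjoint (b i).B (b j).B ∧ 2 * lam < |t i - t j|)
    (hb : ∀ i ∈ s, (b i).On C ∧ ConBall n (b i).W ((b i).W ∩ S) ∧ ∀ x ∈ S,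
      Std φ.toFun (b i) k (t i) lam x ∧ (x ∈ (b i).B → ∀ r ∈ I, (b i).M (x, r) ∈ S)) :
    ∃ G : ConHomeo C (Icc lo hi), EqOn G.toFun φ.toFun S ∧
      ∀ i ∈ s, ∀ x ∈ C, Std G.toFun (b i) k (t i) lam x := by
  obtain ⟨G, e, hG⟩ := H (ι := s) (fun i => b i) (fun i => t i)
    (φ.trans (spl k φ.conicalSet_right (mem_fr_sp k (hlt k).le))) hC
    (ball_box fun j => hlt (k.succAbove j)) (hlt k) hl (fun i => hin i i.2)
    (fun i j hij => hd i i.2 j j.2 fun h => hij (Subtype.ext h))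
    (fun i => ⟨(hb i i.2).1, (hb i i.2).2.1, fun x hx => by
      obtain ⟨⟨h1, h2, h3⟩, h4⟩ := (hb i i.2).2.2 x hx
      refine ⟨h1, h2, fun hx' r hr => ⟨h4 hx' r hr, ?_⟩⟩
      change sp k (φ.toFun _) = _
      rw [h3 hx' r hr, sp_upd]
      rfl⟩)
  refine ⟨G.trans (spl k (Convex.conicalSet (convex_Icc lo hi)) (mem_Icc_sp k lo hi)).symm,
    fun x hx => ?_, fun i hi' x hx => ?_⟩
  · change us k (G.toFun x) = _
    rw [e hx]
    exact us_sp k _
  · obtain ⟨h1, h2, h3⟩ := hG ⟨i, hi'⟩ x hx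
    refine ⟨?_, ?_, fun hx' r hr => ?_⟩
    · change _ ↔ |us k (G.toFun x) k - _| ≤ _
      rw [us_k]
      exact h1
    · change _ = cl ((us k (G.toFun x) k - _) / _)
      rw [us_k]
      exact h2
    · change us k (G.toFun _) = Function.update (us k (G.toFun x)) k _
      rw [h3 hx' r hr, us_upd]

end P073.Bd.F2
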