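import Vale.Agent.P073Y.Bd.Flat2A

/-!
# Straightening of both families, part B: the map on one slab
-/

open Set Metric Topology Filter

namespace P073.Bd.F2

variable {E : Type} [NormedAddCommGroup E] [NormedSpace ℝ E] {n : ℕ} {ι : Type}

/-- the hypotheses, for a finite set of bands -/
structure Hyp (s : Finset ι) (t : ι → ℝ) (co : ι → Fin 3) (lam : ℝ) (C S : Set E) (lo hi : E3)
    (b : ι → Band E) (φ : ConHomeo S (frontier (Icc lo hi))) : Prop where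
  ball : ConBall 3 C S
  lt : ∀ k, lo k < hi k
  pos : 0 < lam
  ins : ∀ i ∈ s, co i ≠ 2 ∧ lo (co i) < t i - lam ∧ t i + lam < hi (co i)
  comm : ∀ i ∈ s, ∀ j ∈ s, i ≠ j → Comm (b i) (b j)
  disj : ∀ i ∈ s, ∀ j ∈ s, i ≠ j → co i = co j →
    Disjoint (b i).B (b j).B ∧ 2 * lam < |t i - t j|
  arc : ∀ i ∈ s, ∀ j ∈ s, co i ≠ co j → ∃ p ∈ S, ∃ q ∈ S, IsArc ((b i).W ∩ (b j).W) p q
  on : ∀ i ∈ s, (b i).On C
  wall : ∀ i ∈ s, ConBall 2 (b i).W ((b i).W ∩ S)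
  std : ∀ i ∈ s, ∀ x ∈ S, Std φ.toFun (b i) (co i) (t i) lam x
  keep : ∀ i ∈ s, ∀ x ∈ S, x ∈ (b i).B → ∀ r ∈ I, (b i).M (x, r) ∈ S

/-- a section of a set by a coordinate plane -/
def sec (k : Fin (n + 1)) (a : ℝ) {X : Set (Fin (n + 1) → ℝ)} {Y : Set (Fin n → ℝ)}
    (hX : ConicalSet X) (h : ∀ y, y ∈ X ↔ y k = a ∧ k.removeNth y ∈ Y) : ConHomeo X Y where
  toFun := k.removeNth
  invFun z := us k (z, a)
  mapsTo y hy := ((h y).1 hy).2
  mapsTo_inv z hz := (h _).2 ⟨us_k k _, by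
    have := congrArg Prod.fst (sp_us k (z, a))
    change k.removeNth (us k (z, a)) = z at this
    rwa [this]⟩
  left_inv y hy := by
    rw [← ((h y).1 hy).1]
    exact us_sp k y
  right_inv z _ := congrArg Prod.fst (sp_us k (z, a))
  cont := (continuous_pi fun j => continuous_apply (k.succAbove j)).continuousOn
  cont_inv := (Continuous.finInsertNth (A := fun _ => ℝ) k continuous_const
    continuous_id).continuousOn
  conical := conicalOn_linear (LinearMap.funLeft ℝ ℝ k.succAbove) hX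

/-- the affine map from the parameter interval -/
noncomputable def aff (t : ℝ) {lam : ℝ} (hl : 0 < lam) : ConHomeo I (Icc (t - lam) (t + lam)) where
  toFun r := t + lam * r
  invFun a := (a - t) / lam
  mapsTo r hr := ⟨by nlinarith [hr.1], by nlinarith [hr.2]⟩
  mapsTo_inv a ha := ⟨by rw [le_div_iff₀ hl]; linarith [ha.1],
    by rw [div_le_iff₀ hl]; linarith [ha.2]⟩
  left_inv r _ := by
    field_simp
    ring
  right_inv a _ := by
    field_simp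
    ring
  cont := by fun_prop
  cont_inv := by fun_prop
  conical := Cut.Box.conicalOn_aff (convex_Icc _ _) fun x v r => by
    simp only [smul_eq_mul]
    ring

omit [NormedAddCommGroup E] [NormedSpace ℝ E] in
theorem keeps_W {b b' : Band E} (h : Comm b b') : b.Keeps b'.W := fun x hx r hr hW =>
  ⟨(h x hx r hr).1.2 hW.1, ((h x hx r hr).2 hW.1).1.trans hW.2⟩

omit [NormedAddCommGroup E] [NormedSpace ℝ E] in
theorem keeps_B {b b' : Band E} (h : Comm b b') : b.Keeps b'.B := fun x hx r hr hW =>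
  (h x hx r hr).1.2 hW

theorem co_one {k : Fin 3} (h2 : k ≠ 2) (h0 : k ≠ 0) : k = 1 := by
  fin_cases k <;> simp_all

variable {s : Finset ι} {t : ι → ℝ} {co : ι → Fin 3} {lam : ℝ} {C S : Set E} {lo hi : E3}
  {b : ι → Band E} {φ : ConHomeo S (frontier (Icc lo hi))}

theorem Hyp.mem (H : Hyp s t co lam C S lo hi b φ) {i : ι} (hi' : i ∈ s) :
    t i ∈ Ioo (lo (co i)) (hi (co i)) :=
  ⟨by linarith [(H.ins i hi').2.1, H.pos], by linarith [(H.ins i hi').2.2, H.pos]⟩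

/-- the arc in which two walls meet is proper -/
theorem Hyp.arc_ball (H : Hyp s t co lam C S lo hi b φ) {i j : ι} (hi' : i ∈ s) (hj : j ∈ s)
    (h0 : co i = 0) (h1 : co j = 1) :
    ConBall 1 ((b i).W ∩ (b j).W) ((b i).W ∩ (b j).W ∩ S) := by
  obtain ⟨p, hp, q, hq, harc⟩ := H.arc i hi' j hj (by rw [h0, h1]; decide)
  have e : φ.toFun '' ((b i).W ∩ (b j).W ∩ S) =
      {y ∈ frontier (Icc lo hi) | y 0 = t i ∧ y 1 = t j} := by
    rw [← Cut.Grid.image_sep φ fun y => y 0 = t i ∧ y 1 = t j]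
    congr 1
    ext x
    constructor
    · rintro ⟨⟨a1, a2⟩, a3⟩
      exact ⟨a3, h0 ▸ ((H.std i hi' x a3).wall H.pos).1 a1, h1 ▸ ((H.std j hj x a3).wall H.pos).1 a2⟩
    · rintro ⟨a3, a1, a2⟩
      exact ⟨⟨((H.std i hi' x a3).wall H.pos).2 (h0.symm ▸ a1),
        ((H.std j hj x a3).wall H.pos).2 (h1.symm ▸ a2)⟩, a3⟩
  rw [Cut.Grid.eq_pair φ.injOn inter_subset_right
    (e.trans ((Cut.box H.lt).2.2.2 _ (h0 ▸ H.mem hi') _ (h1 ▸ H.mem hj)).2)
    ⟨harc.left_mem, hp⟩ ⟨harc.right_mem, hq⟩ harc.ne]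
  exact harc.conBall

/-- the map on the wall -/
theorem Hyp.wallMap [FiniteDimensional ℝ E] (hB : Bas E) (h1 : FLAT1 1)
    (H : Hyp s t co lam C S lo hi b φ) {i : ι} (hi' : i ∈ s) (h0 : co i = 0) :
    ∃ h : ConHomeo (b i).W (Icc ((0 : Fin 3).removeNth lo) ((0 : Fin 3).removeNth hi)),
      (∀ x ∈ (b i).W ∩ S, h.toFun x = (0 : Fin 3).removeNth (φ.toFun x)) ∧
      ∀ j ∈ s, co j = 1 → ∀ x ∈ (b i).W, Std h.toFun (b j) 0 (t j) lam x := by
  classical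
  have hw := H.wall i hi'
  have ht : t i ∈ Ioo (lo 0) (hi 0) := h0 ▸ H.mem hi'
  have e : φ.toFun '' ((b i).W ∩ S) = {y ∈ frontier (Icc lo hi) | y 0 = t i} := by
    rw [← Cut.Grid.image_sep φ fun y => y 0 = t i]
    congr 1
    ext x
    exact ⟨fun a => ⟨a.2, h0 ▸ ((H.std i hi' x a.2).wall H.pos).1 a.1⟩,
      fun a => ⟨((H.std i hi' x a.1).wall H.pos).2 (h0.symm ▸ a.2), a.1⟩⟩
  let φ₁ := (φ.restr hw.conicalSet_bdry inter_subset_right).cast rfl e
  have m : ∀ y : E3, y ∈ {y ∈ frontier (Icc lo hi) | y 0 = t i} ↔ y 0 = t i ∧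
      (0 : Fin 3).removeNth y ∈
        frontier (Icc ((0 : Fin 3).removeNth lo) ((0 : Fin 3).removeNth hi)) := by
    intro y
    rw [mem_sep_iff, mem_fr_sp 0 (H.lt 0).le]
    constructor
    · rintro ⟨a | a, a0⟩
      · exact ⟨a0, a.1⟩
      · exact (a.2.elim (fun c => ht.1.ne' (a0.symm.trans c))
          fun c => ht.2.ne (a0.symm.trans c)).elim
    · rintro ⟨a0, a⟩
      exact ⟨Or.inl ⟨a, by change y 0 ∈ _; rw [a0]; exact Ioo_subset_Icc_self ht⟩, a0⟩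
  have ne : ∀ j, co j = 1 → j ≠ i := fun j hj c => by
    rw [c, h0] at hj
    exact absurd hj (by decide)
  obtain ⟨h, e1, e2⟩ := flatBox h1 (s.filter fun j => co j = 1) (fun j => (b j).cut (b i).W) t 0
    (φ₁.trans (sec 0 (t i) φ₁.conicalSet_right m)) hw (fun k => H.lt _) H.pos
    (fun j hj => by
      obtain ⟨hj, c⟩ := Finset.mem_filter.1 hj
      have := (H.ins j hj).2
      rw [c] at this
      exact this)
    (fun j hj k hk hjk => by
      obtain ⟨hj, c⟩ := Finset.mem_filter.1 hj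
      obtain ⟨hk, c'⟩ := Finset.mem_filter.1 hk
      obtain ⟨d1, d2⟩ := H.disj j hj k hk hjk (c.trans c'.symm)
      exact ⟨d1.mono inter_subset_left inter_subset_left, d2⟩)
    (fun j hj => by
      obtain ⟨hj, c⟩ := Finset.mem_filter.1 hj
      have kp := keeps_W (H.comm j hj i hi' (ne j c))
      have eW : ((b j).cut (b i).W).W = (b i).W ∩ (b j).W :=
        Set.ext fun x => ⟨fun a => ⟨a.1.2, a.1.1, a.2⟩, fun a => ⟨⟨a.2.1, a.1⟩, a.2.2⟩⟩
      refine ⟨hB.cut (H.on j hj) (fun x hx => (H.on i hi').sub hx.1) hw.isCompact hw.locCone kp,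
        ?_, fun x hx => ⟨?_, fun hx' r hr => ⟨kp x hx'.1 r hr hx.1, H.keep j hj x hx.2 hx'.1 r hr⟩⟩⟩
      · rw [eW]
        convert H.arc_ball hi' hj h0 c using 1
        exact Set.ext fun x => ⟨fun a => ⟨a.1, a.2.2⟩, fun a => ⟨a.1, a.1.1, a.2⟩⟩
      · obtain ⟨a1, a2, a3⟩ := H.std j hj x hx.2
        rw [c] at a1 a2 a3
        refine ⟨⟨fun a => a1.1 a.1, fun a => ⟨a1.2 a, hx.1⟩⟩, a2, fun a r hr => ?_⟩
        change (0 : Fin 3).removeNth (φ.toFun ((b j).M (x, r))) = _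
        rw [a3 a.1 r hr]
        exact Fin.removeNth_update_succAbove (α := fun _ => ℝ) (0 : Fin 3) 0 _ _)
  refine ⟨h, fun x hx => e1 hx, fun j hj c x hx => ?_⟩
  obtain ⟨a1, a2, a3⟩ := e2 j (Finset.mem_filter.2 ⟨hj, c⟩) x hx
  exact ⟨⟨fun a => a1.1 ⟨a, hx⟩, fun a => (a1.2 a).1⟩, a2, fun a => a3 ⟨a, hx⟩⟩

/-- the map on the slab -/
theorem Hyp.slab [FiniteDimensional ℝ E] (hB : Bas E) (h1 : FLAT1 1)
    (H : Hyp s t co lam C S lo hi b φ) {i : ι} (hi' : i ∈ s) (h0 : co i = 0) {g : E → E3}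
    (hg : ∀ j ∈ s, co j = 0 → ∀ x ∈ C, Std g (b j) 0 (t j) lam x) :
    ∃ ψ : ConHomeo (b i).B {y ∈ Icc lo hi | |y 0 - t i| ≤ lam},
      EqOn ψ.toFun φ.toFun ((b i).B ∩ S) ∧
      ∀ j ∈ s, ∀ x ∈ (b i).B, Std ψ.toFun (b j) (co j) (t j) lam x := by
  obtain ⟨h, e1, e2⟩ := H.wallMap hB h1 hi' h0
  have ok := (H.on i hi').ok
  obtain ⟨Φ, -, hΦ⟩ := hB.chart ok
  have hin := (H.ins i hi').2
  rw [h0] at hin
  have m : ∀ y : E3, y ∈ {y ∈ Icc lo hi | |y 0 - t i| ≤ lam} ↔ sp 0 y ∈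
      Icc ((0 : Fin 3).removeNth lo) ((0 : Fin 3).removeNth hi) ×ˢ Icc (t i - lam) (t i + lam) := by
    intro y
    rw [mem_sep_iff, mem_Icc_sp 0, abs_le]
    constructor
    · rintro ⟨⟨a1, -⟩, a2, a3⟩
      exact ⟨a1, by change _ ≤ y 0; linarith, by change y 0 ≤ _; linarith⟩
    · rintro ⟨a1, a2, a3⟩
      change _ ≤ y 0 at a2
      change y 0 ≤ _ at a3
      exact ⟨⟨a1, by change _ ≤ y 0; linarith [hin.1], by change y 0 ≤ _; linarith [hin.2]⟩,
        by linarith, by linarith⟩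
  have cv : Convex ℝ {y ∈ Icc lo hi | |y 0 - t i| ≤ lam} := by
    have : {y ∈ Icc lo hi | |y 0 - t i| ≤ lam} =
        Icc lo hi ∩ (LinearMap.proj 0 : E3 →ₗ[ℝ] ℝ) ⁻¹' Icc (t i - lam) (t i + lam) := by
      ext y
      refine and_congr_right fun _ => ?_
      change _ ↔ y 0 ∈ Icc _ _
      rw [abs_le, mem_Icc]
      exact ⟨fun a => ⟨by linarith [a.1], by linarith [a.2]⟩,
        fun a => ⟨by linarith [a.1], by linarith [a.2]⟩⟩
    rw [this]
    exact (convex_Icc _ _).inter ((convex_Icc _ _).linear_preimage _)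
  let ψ := (Φ.symm.trans (Sh.prod h (aff (t i) H.pos))).trans
    (spl 0 (Convex.conicalSet cv) m).symm
  have hψ : ∀ x, ψ.toFun x = us 0 (h.toFun ((b i).M (x, 0)), t i + lam * (b i).u x) := fun x => by
    change us 0 (h.toFun (Φ.invFun x).1, t i + lam * (Φ.invFun x).2) = _
    rw [hΦ]
  have z : (0 : ℝ) ∈ I := ⟨by norm_num, by norm_num⟩
  have w0 : ∀ x ∈ (b i).B, (b i).M (x, 0) ∈ (b i).W := fun x hx => ok.Mmem x hx 0 z
  refine ⟨ψ, fun x hx => ?_, fun j hj x hx => ?_⟩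
  · have a := H.std i hi' x hx.2
    rw [h0] at a
    rw [hψ, e1 _ ⟨w0 x hx.1, H.keep i hi' x hx.2 hx.1 0 z⟩, a.2.2 hx.1 0 z,
      Fin.removeNth_update, ← a.coord H.pos hx.1]
    exact us_sp 0 _
  have c0 : ψ.toFun x 0 = t i + lam * (b i).u x := by rw [hψ, us_k]
  have hu := ok.urange x hx
  by_cases hji : j = i
  · subst hji
    rw [h0]
    refine ⟨iff_of_true hx ?_, ?_, fun _ r hr => ?_⟩
    · rw [c0, add_sub_cancel_left, abs_mul, abs_of_pos H.pos]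
      exact mul_le_of_le_one_right H.pos.le (abs_le.2 hu)
    · rw [c0, add_sub_cancel_left, mul_div_cancel_left₀ _ H.pos.ne', cl_eq (abs_le.2 hu)]
    · rw [hψ, hψ, ok.MM x hx r hr 0 z, (ok.Mmem x hx r hr).2]
      exact us_upd 0 (_, _) _
  by_cases cj : co j = 0
  · have a := hg j hj cj x ((H.on i hi').sub hx)
    have c1 : ψ.toFun x 0 = g x 0 := by
      rw [c0, (hg i hi' h0 x ((H.on i hi').sub hx)).coord H.pos hx]
    rw [cj]
    refine ⟨c1 ▸ a.1, c1 ▸ a.2.1, fun a' => ?_⟩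
    exact absurd hx (disjoint_left.1 (H.disj j hj i hi' hji (cj.trans h0.symm)).1 a')
  have c := co_one (H.ins j hj).1 cj
  obtain ⟨a1, a2, a3⟩ := e2 j hj c _ (w0 x hx)
  have cm := H.comm i hi' j hj (Ne.symm hji)
  have c1 : ψ.toFun x 1 = h.toFun ((b i).M (x, 0)) 0 := by
    rw [hψ]
    exact us_succ 0 _ 0
  rw [c]
  refine ⟨?_, ?_, fun a r hr => ?_⟩
  · rw [c1, ← a1]
    exact (cm x hx 0 z).1.symm
  · rw [c1, ← a2]
    exact (hB.comm_u ok (H.on i hi').sub (H.on j hj) cm x hx 0 z).symm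
  · rw [hψ, hψ, ← ((cm x hx 0 z).2 a).2 r hr, a3 ((cm x hx 0 z).1.2 a) r hr,
      ((H.comm j hj i hi' hji x a r hr).2 hx).1]
    exact us_upd' 0 _ _ _ 0

end P073.Bd.F2
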