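import Vale.Agent.P073Y.Bd.Flat2B

/-!
# Straightening of both families, part C: the two sides of a slab
-/

open Set Metric Topology Filter

namespace P073.Bd.F2

variable {E F : Type} [NormedAddCommGroup E] [NormedSpace ℝ E] [NormedAddCommGroup F]
  [NormedSpace ℝ F] {ι : Type}

theorem pull {C X : Set E} {Q Y : Set F} (G : ConHomeo C Q) (hX : X ⊆ C) (hY : Y ⊆ Q)
    (h : ∀ x ∈ C, x ∈ X ↔ G.toFun x ∈ Y) : G.symm.toFun '' Y = X := by
  ext x
  constructor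
  · rintro ⟨y, hy, rfl⟩
    refine (h _ (G.mapsTo_inv (hY hy))).2 ?_
    rw [G.right_inv (hY hy)]
    exact hy
  · exact fun hx => ⟨G.toFun x, (h x (hX hx)).1 hx, G.left_inv (hX hx)⟩

theorem sub_box {lo hi : E3} {a c : ℝ} (ha : lo 0 ≤ a) (hc : c ≤ hi 0) (y : E3) :
    (y ∈ Icc (Function.update lo 0 a) (Function.update hi 0 c) ↔
      y ∈ Icc lo hi ∧ a ≤ y 0 ∧ y 0 ≤ c) ∧
    (y ∈ frontier (Icc (Function.update lo 0 a) (Function.update hi 0 c)) ↔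
      (y ∈ Icc lo hi ∧ a ≤ y 0 ∧ y 0 ≤ c) ∧ (y ∈ frontier (Icc lo hi) ∨ y 0 = a ∨ y 0 = c)) := by
  have h1 : y ∈ Icc (Function.update lo 0 a) (Function.update hi 0 c) ↔
      y ∈ Icc lo hi ∧ a ≤ y 0 ∧ y 0 ≤ c := by
    simp only [mem_Icc, Pi.le_def, Fin.forall_fin_succ, Function.update_self,
      Function.update_of_ne (Fin.succ_ne_zero _)]
    constructor
    · rintro ⟨⟨a1, a2⟩, a3, a4⟩
      exact ⟨⟨⟨ha.trans a1, a2⟩, a3.trans hc, a4⟩, a1, a3⟩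
    · rintro ⟨⟨⟨-, a2⟩, -, a4⟩, a1, a3⟩
      exact ⟨⟨a1, a2⟩, a3, a4⟩
  refine ⟨h1, ?_⟩
  rw [Cut.Box.frontier_box, Cut.Box.frontier_box, mem_sep_iff, h1, mem_sep_iff]
  refine and_congr_right fun hy => ?_
  constructor
  · rintro ⟨k, hk⟩
    by_cases h0 : k = 0
    · subst h0
      exact Or.inr (by simpa using hk)
    · exact Or.inl ⟨hy.1, k, by simpa [Function.update_of_ne h0] using hk⟩
  · rintro (⟨-, k, hk⟩ | h)
    · by_cases h0 : k = 0
      · subst h0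
        refine ⟨0, ?_⟩
        simp only [Function.update_self]
        exact hk.imp (fun e => le_antisymm (e.trans_le ha) hy.2.1)
          fun e => le_antisymm hy.2.2 (hc.trans e.ge)
      · exact ⟨k, by simpa [Function.update_of_ne h0] using hk⟩
    · exact ⟨0, by simpa using h⟩

/-- the box on one side of a slab -/
theorem exists_box {lo hi : E3} {t lam ε : ℝ} (hlt : ∀ k, lo k < hi k) (hl : 0 < lam)
    (h1 : lo 0 < t - lam) (h2 : t + lam < hi 0) (hε : ε = 1 ∨ ε = -1) :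
    ∃ lo' hi' : E3, (∀ k, lo' k < hi' k) ∧
      (∀ y, y ∈ Icc lo' hi' ↔ y ∈ Icc lo hi ∧ lam ≤ ε * (y 0 - t)) ∧
      (∀ y, y ∈ frontier (Icc lo' hi') ↔
        y ∈ {y ∈ Icc lo hi | |y 0 - t| ≤ lam} ∪ frontier (Icc lo hi) ∧ lam ≤ ε * (y 0 - t)) ∧
      (lo' 1 = lo 1 ∧ hi' 1 = hi 1) ∧
      ∀ a, lo 0 < a - lam → a + lam < hi 0 → 2 * lam < ε * (a - t) →
        lo' 0 < a - lam ∧ a + lam < hi' 0 := by
  have fr : ∀ y ∈ frontier (Icc lo hi), y ∈ Icc lo hi := fun y hy => (ball_box hlt).1 hy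
  have fr' : ∀ y ∈ Icc lo hi, y 0 = lo 0 ∨ y 0 = hi 0 → y ∈ frontier (Icc lo hi) := fun y hy h => by
    rw [Cut.Box.frontier_box]
    exact ⟨hy, 0, h⟩
  have lt : ∀ a c : ℝ, a < c → ∀ k, Function.update lo 0 a k < Function.update hi 0 c k := by
    intro a c h k
    by_cases h0 : k = 0
    · subst h0
      simpa using h
    · simpa [Function.update_of_ne h0] using hlt k
  rcases hε with rfl | rfl
  · have key := sub_box (lo := lo) (hi := hi) (a := t + lam) (c := hi 0) (by linarith) le_rfl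
    refine ⟨_, _, lt _ _ h2, fun y => (key y).1.trans (and_congr_right fun hy =>
      ⟨fun h => by linarith [h.1], fun h => ⟨by linarith, hy.2 0⟩⟩), fun y => (key y).2.trans ?_,
      ⟨rfl, rfl⟩, fun a _ a2 a3 => ⟨?_, ?_⟩⟩
    · constructor
      · rintro ⟨⟨hy, a1, -⟩, h | h | h⟩
        · exact ⟨Or.inr h, by linarith⟩
        · exact ⟨Or.inl ⟨hy, abs_le.2 ⟨by linarith, by linarith⟩⟩, by linarith⟩
        · exact ⟨Or.inr (fr' y hy (Or.inr h)), by linarith⟩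
      · rintro ⟨h | h, a1⟩
        · exact ⟨⟨h.1, by linarith, h.1.2 0⟩, Or.inr (Or.inl (by linarith [(abs_le.1 h.2).2]))⟩
        · exact ⟨⟨fr y h, by linarith, (fr y h).2 0⟩, Or.inl h⟩
    · simp only [Function.update_self]
      linarith
    · simpa using a2
  · have key := sub_box (lo := lo) (hi := hi) (a := lo 0) (c := t - lam) le_rfl (by linarith)
    refine ⟨_, _, lt _ _ h1, fun y => (key y).1.trans (and_congr_right fun hy =>
      ⟨fun h => by linarith [h.2], fun h => ⟨hy.1 0, by linarith⟩⟩), fun y => (key y).2.trans ?_,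
      ⟨rfl, rfl⟩, fun a a1 _ a3 => ⟨?_, ?_⟩⟩
    · constructor
      · rintro ⟨⟨hy, -, a1⟩, h | h | h⟩
        · exact ⟨Or.inr h, by linarith⟩
        · exact ⟨Or.inr (fr' y hy (Or.inl h)), by linarith⟩
        · exact ⟨Or.inl ⟨hy, abs_le.2 ⟨by linarith, by linarith⟩⟩, by linarith⟩
      · rintro ⟨h | h, a1⟩
        · exact ⟨⟨h.1, h.1.1 0, by linarith⟩, Or.inr (Or.inr (by linarith [(abs_le.1 h.2).1]))⟩
        · exact ⟨⟨fr y h, (fr y h).1 0, by linarith⟩, Or.inl h⟩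
    · simpa using a1
    · simp only [Function.update_self]
      linarith

omit [NormedAddCommGroup E] [NormedSpace ℝ E] in
theorem comm_cut {b b' : Band E} {Y : Set E} (h : Comm b b') (hk : b.Keeps Y) :
    Comm (b.cut Y) (b'.cut Y) := fun x hx r hr =>
  ⟨⟨fun a => ⟨(h x hx.1 r hr).1.1 a.1, hx.2⟩,
    fun a => ⟨(h x hx.1 r hr).1.2 a.1, hk x hx.1 r hr hx.2⟩⟩, fun a => (h x hx.1 r hr).2 a.1⟩

theorem far {a c ε lam : ℝ} (hε : ε = 1 ∨ ε = -1) (h : 2 * lam < |a - c|) (h' : 0 < ε * (a - c)) :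
    2 * lam < ε * (a - c) := by
  rcases hε with rfl | rfl
  · rwa [abs_of_pos (by linarith), ← one_mul (a - c)] at h
  · rwa [abs_of_neg (by linarith), ← neg_one_mul] at h

theorem far' {a c ε lam : ℝ} (hε : ε = 1 ∨ ε = -1) (h : 2 * lam < |a - c|)
    (h' : ¬ 0 < ε * (a - c)) : 2 * lam < ε * (c - a) := by
  rcases hε with rfl | rfl
  · rw [abs_of_nonpos (by linarith)] at h
    linarith
  · rw [abs_of_nonneg (by linarith)] at h
    linarith

theorem abs_sgn {ε : ℝ} (hε : ε = 1 ∨ ε = -1) (a : ℝ) : ε * a ≤ |a| := by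
  rcases hε with rfl | rfl
  · rw [one_mul]
    exact le_abs_self a
  · rw [neg_one_mul]
    exact neg_le_abs a

theorem abs_sgn' {ε a : ℝ} (hε : ε = 1 ∨ ε = -1) : |ε * a| = |a| := by
  rcases hε with rfl | rfl <;> simp

variable {s : Finset ι} {t : ι → ℝ} {co : ι → Fin 3} {lam : ℝ} {C S : Set E} {lo hi : E3}
  {b : ι → Band E} {φ : ConHomeo S (frontier (Icc lo hi))}

theorem Hyp.pt (H : Hyp s t co lam C S lo hi b φ) {j : ι} (hj : j ∈ s) (h1 : co j = 1) {c : ℝ}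
    (hc : c ∈ Icc (lo 0) (hi 0)) : ∃ x ∈ (b j).W ∩ S, φ.toFun x 0 = c := by
  have ht : t j ∈ Ioo (lo 1) (hi 1) := h1 ▸ H.mem hj
  have hy : (![c, t j, lo 2] : E3) ∈ frontier (Icc lo hi) := by
    rw [Cut.Box.frontier_box]
    refine ⟨⟨fun i => ?_, fun i => ?_⟩, 2, Or.inl rfl⟩ <;> fin_cases i
    exacts [hc.1, ht.1.le, le_rfl, hc.2, ht.2.le, (H.lt 2).le]
  refine ⟨φ.invFun ![c, t j, lo 2], ⟨((H.std j hj _ (φ.mapsTo_inv hy)).wall H.pos).2 ?_,
    φ.mapsTo_inv hy⟩, ?_⟩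
  · rw [φ.right_inv hy, h1]
    rfl
  · rw [φ.right_inv hy]
    rfl

/-- the part of a wall of the second family on one side of a slab -/
theorem Hyp.half_wall [FiniteDimensional ℝ E] (hB : Bas E) (H : Hyp s t co lam C S lo hi b φ)
    {i j : ι} (hi' : i ∈ s) (h0 : co i = 0) (hj : j ∈ s) (h1 : co j = 1) {g : E → E3}
    (gc : ContinuousOn g C) (ge : EqOn g φ.toFun S) (hg : ∀ x ∈ C, Std g (b i) 0 (t i) lam x)
    {ε : ℝ} (hε : ε = 1 ∨ ε = -1) :
    ConBall 2 {x ∈ (b j).W | (b i).u x = ε}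
      ({x ∈ (b j).W | (b i).u x = ε} ∩ ((b i).B ∪ S)) := by
  have hij : i ≠ j := fun c => by
    rw [← c, h0] at h1
    exact absurd h1 (by decide)
  have hw := H.wall j hj
  have wC : (b j).W ⊆ C := fun x hx => (H.on j hj).sub hx.1
  have ok := (H.on i hi').ok
  have hεI : ε ∈ I := by rcases hε with rfl | rfl <;> constructor <;> norm_num
  have z : (0 : ℝ) ∈ I := ⟨by norm_num, by norm_num⟩
  obtain ⟨Φ, e1, e2⟩ := hB.level ok (keeps_W (H.comm i hi' j hj hij)) hw.isCompact hw.locCone ε hεI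
  have lev : ∀ x ∈ C, ε * (g x 0 - t i) = lam ↔ x ∈ (b i).B ∧ (b i).u x = ε := fun x hx => by
    rw [(hg x hx).1, (hg x hx).sgn H.pos hε]
    constructor
    · intro a
      exact ⟨by rw [← abs_sgn' hε, a, abs_of_pos H.pos], a.ge⟩
    · exact fun a => le_antisymm ((abs_sgn hε _).trans a.1) a.2
  have hb := (H.arc_ball hi' hj h0 h1).image Φ Subset.rfl
  have i1 : Φ.toFun '' ((b i).W ∩ (b j).W) = {x ∈ (b j).W | ε * (g x 0 - t i) = lam} := by
    rw [Φ.image_eq]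
    exact Set.ext fun x => ⟨fun a => ⟨a.1.2, (lev x (wC a.1.2)).2 ⟨a.1.1, a.2⟩⟩,
      fun a => ⟨⟨((lev x (wC a.1)).1 a.2).1, a.1⟩, ((lev x (wC a.1)).1 a.2).2⟩⟩
  have i2 : Φ.toFun '' ((b i).W ∩ (b j).W ∩ S) =
      {x ∈ (b j).W ∩ S | ε * (g x 0 - t i) = lam} := by
    ext x
    constructor
    · rintro ⟨y, hy, rfl⟩
      have a : Φ.toFun y ∈ {x ∈ (b j).W | ε * (g x 0 - t i) = lam} :=
        i1 ▸ mem_image_of_mem _ hy.1
      exact ⟨⟨a.1, by rw [e1]; exact H.keep i hi' y hy.2 hy.1.1.1 ε hεI⟩, a.2⟩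
    · intro a
      have a' := (lev x (wC a.1.1)).1 a.2
      have m : x ∈ {x ∈ (b i).B ∩ (b j).W | (b i).u x = ε} := ⟨⟨a'.1, a.1.1⟩, a'.2⟩
      exact ⟨Φ.invFun x, ⟨Φ.mapsTo_inv m, by rw [e2]; exact H.keep i hi' x a.1.2 a'.1 0 z⟩,
        Φ.right_inv m⟩
  rw [i1, i2] at hb
  have hin := (H.ins i hi').2
  rw [h0] at hin
  have lt : ∃ x ∈ (b j).W, ε * (g x 0 - t i) < lam := by
    obtain ⟨x, hx, e⟩ := H.pt hj h1 (c := t i) (Ioo_subset_Icc_self (h0 ▸ H.mem hi'))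
    exact ⟨x, hx.1, by rw [ge hx.2, e, sub_self, mul_zero]; exact H.pos⟩
  have gt : ∃ x ∈ (b j).W, lam < ε * (g x 0 - t i) := by
    rcases hε with rfl | rfl
    · obtain ⟨x, hx, e⟩ := H.pt hj h1 (right_mem_Icc.2 (H.lt 0).le)
      exact ⟨x, hx.1, by rw [ge hx.2, e]; linarith [hin.2]⟩
    · obtain ⟨x, hx, e⟩ := H.pt hj h1 (left_mem_Icc.2 (H.lt 0).le)
      exact ⟨x, hx.1, by rw [ge hx.2, e]; linarith [hin.1]⟩
  have key := (Cut.side1 (u := fun x => ε * (g x 0 - t i)) hw (continuousOn_const.mul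
    ((((continuous_apply 0).comp_continuousOn gc).mono wC).sub continuousOn_const)) hb lt gt).2
  convert key using 1
  · exact Set.ext fun x => and_congr_right fun hx => (hg x (wC hx)).sgn H.pos hε
  · ext x
    constructor
    · rintro ⟨⟨a1, a2⟩, a | a⟩
      · exact Or.inl ⟨a1, (lev x (wC a1)).2 ⟨a, a2⟩⟩
      · exact Or.inr ⟨⟨a1, a⟩, ((hg x (wC a1)).sgn H.pos hε).1 a2⟩
    · rintro (⟨a1, a⟩ | ⟨⟨a1, a2⟩, a⟩)
      · exact ⟨⟨a1, ((lev x (wC a1)).1 a).2⟩, Or.inl ((lev x (wC a1)).1 a).1⟩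
      · exact ⟨⟨a1, ((hg x (wC a1)).sgn H.pos hε).2 a⟩, Or.inr a2⟩

end P073.Bd.F2
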