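import Vale.Agent.P073Y.Bd.Sk
import Vale.Agent.P073Z.Lam

/-!
# Thick circles in a disc form a forest
-/

open Set Metric Topology Filter

namespace P073.Bd

/-- the parent map of a finite strict order in which the elements above a point form a chain -/
theorem exists_par {κ : Type} [Finite κ] (r : κ → κ → Prop) (ht : ∀ a b c, r a b → r b c → r a c)
    (hi : ∀ a, ¬ r a a) (hc : ∀ k l m, r k l → r k m → l ≠ m → r l m ∨ r m l) :
    ∃ par : κ → Option κ, (∀ k l, par k = some l → r k l) ∧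
      (∀ k l, r k l → par k ≠ par l) ∧
      ∀ (o : Option κ) k, (∀ l, o = some l → r k l) → ∃ m, par m = o ∧ (m = k ∨ r k m) := by
  classical
  have : IsTrans κ r := ⟨ht⟩
  have : Std.Irrefl r := ⟨hi⟩
  have : IsTrans κ (flip r) := ⟨fun a b c h h' => ht c b a h' h⟩
  have : Std.Irrefl (flip r) := ⟨hi⟩
  have h1 : ∀ k, ∃ o : Option κ, (∀ l, o = some l → r k l) ∧
      ∀ m, r k m → ∃ l, o = some l ∧ (m = l ∨ r l m) := fun k => by
    by_cases h : {l | r k l}.Nonempty
    · obtain ⟨l, hl, hm⟩ := (Finite.wellFounded_of_trans_of_irrefl r).has_min _ h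
      refine ⟨some l, fun l' e => Option.some.inj e ▸ hl, fun m hkm => ⟨l, rfl, ?_⟩⟩
      by_cases e : m = l
      · exact Or.inl e
      · exact Or.inr ((hc k m l hkm hl e).resolve_left (hm m hkm))
    · exact ⟨none, fun l e => (by cases e), fun m hm => (h ⟨m, hm⟩).elim⟩
  choose par h2 h3 using h1
  refine ⟨par, h2, fun k l h e => ?_, fun o k => ?_⟩
  · obtain ⟨m, e', h'⟩ := h3 k l h
    have h4 := h2 l m (e ▸ e')
    rcases h' with rfl | h'
    · exact hi _ h4
    · exact hi _ (ht _ _ _ h4 h')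
  · induction k using (Finite.wellFounded_of_trans_of_irrefl (flip r)).induction with
    | _ k ih =>
      intro hk
      by_cases e : par k = o
      · exact ⟨k, e, Or.inl rfl⟩
      cases e' : par k with
      | none =>
        cases o with
        | none => exact (e e').elim
        | some l =>
          obtain ⟨m, e'', -⟩ := h3 k l (hk l rfl)
          rw [e'] at e''
          cases e''
      | some m =>
        have h4 := h2 k m e'
        obtain ⟨m', h5, h6⟩ := ih m h4 fun l hl => by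
          obtain ⟨m₁, e₁, h'⟩ := h3 k l (hk l hl)
          obtain rfl : m = m₁ := Option.some.inj (e'.symm.trans e₁)
          rcases h' with rfl | h'
          · exact (e (e'.trans hl.symm)).elim
          · exact h'
        refine ⟨m', h5, Or.inr ?_⟩
        rcases h6 with rfl | h6
        · exact h4
        · exact ht _ _ _ h4 h6

theorem laminB : LAMIN := by
  intro E _ _ κ _ D B G JG H JH hD h hd
  have hG := fun k => (h k).1
  have hH := fun k => (h k).2.1
  have gD : ∀ k, G k ⊆ D := fun k => (h k).2.2.1.trans sdiff_subset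
  have hG' := fun k => (h k).2.2.2.1
  have hHG : ∀ k, H k ⊆ G k := fun k => (hG' k).trans sdiff_subset
  have j1 : ∀ k, JG k ⊆ G k \ (H k \ JH k) := fun k x hx =>
    ⟨(hG k).1 hx, fun hx' => (hG' k hx'.1).2 hx⟩
  have j2 : ∀ k, JH k ⊆ G k \ (H k \ JH k) := fun k x hx =>
    ⟨hHG k ((hH k).1 hx), fun hx' => hx'.2 hx⟩
  have up : ∀ k l, k ≠ l → G k ⊆ G l \ JG l → G k ⊆ H l \ JH l := fun k l e s => by
    obtain ⟨x, hx⟩ := Lam.bd_nonempty (hG k)
    refine Lam.nest hD (hH l) (hG k) ((hHG l).trans (gD l)) (gD k)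
      ((hd l k e.symm).mono (j2 l) (j1 k)) ⟨x, hx, ?_⟩
    by_contra hx'
    exact disjoint_left.1 (hd k l e) (j1 k hx) ⟨(s ((hG k).1 hx)).1, fun hy => hx' hy.1⟩
  have tri : ∀ k l, k ≠ l → G k ⊆ H l \ JH l ∨ G l ⊆ H k \ JH k ∨ Disjoint (G k) (G l) :=
    fun k l e => (Lam.laminar hD (hG k) (hG l) (gD k) (gD l) ((hd k l e).mono (j1 k) (j1 l))).imp
      (up k l e) (Or.imp_left (up l k e.symm))
  obtain ⟨par, p1, p2, p3⟩ := exists_par (fun k l => G k ⊆ H l \ JH l)
    (fun a b c s s' => s.trans (sdiff_subset.trans ((hHG b).trans s')))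
    (fun a s => by
      obtain ⟨x, hx⟩ := Lam.bd_nonempty (hG a)
      exact (j1 a hx).2 (s ((hG a).1 hx)))
    (fun k l m s s' e => by
      obtain ⟨x, hx⟩ := Lam.bd_nonempty (hG k)
      refine or_assoc.2 (tri l m e) |>.resolve_right fun hdis => ?_
      exact disjoint_left.1 hdis (hHG l (s ((hG k).1 hx)).1) (hHG m (s' ((hG k).1 hx)).1))
  refine ⟨par, p1, fun k l e e' => ?_, fun Pc hP => ?_⟩
  · rcases tri k l e with s | s | s
    · exact (p2 k l s e').elim
    · exact (p2 l k s e'.symm).elim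
    · exact s
  have q1 : ∀ o, ∀ x ∈ Pc o, ∀ m, par m = o → x ∉ G m \ JG m := fun o x hx m e hm => by
    rw [hP] at hx
    exact hx.2 (mem_iUnion₂.2 ⟨m, e, hm⟩)
  have q2 : ∀ l, Pc (some l) ⊆ H l := fun l x hx => by
    rw [hP] at hx
    exact hx.1
  have q3 : ∀ o k, ∀ x ∈ Pc o, x ∈ G k → (∀ l, o = some l → G k ⊆ H l \ JH l) →
      o = par k ∧ x ∈ JG k := fun o k x hx hk s => by
    obtain ⟨m, e, rfl | s'⟩ := p3 o k s
    · exact ⟨e.symm, by_contra fun hj => q1 o x hx m e ⟨hk, hj⟩⟩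
    · exact (q1 o x hx m e (hG' m (s' hk).1)).elim
  have q4 : ∀ o k, (∀ l, o = some l → G k ⊆ H l \ JH l) → Disjoint (Pc o) (Pc (some k)) :=
    fun o k s => disjoint_left.2 fun x hx hk =>
      (hG' k (q2 k hk)).2 (q3 o k x hx (hHG k (q2 k hk)) s).2
  refine ⟨fun o o' e => ?_, fun o k x hx hk => ?_, fun Z hZ hc hB hA x hx => ?_⟩
  · rcases o with _ | l <;> rcases o' with _ | l'
    · exact (e rfl).elim
    · exact q4 _ _ fun _ e => by cases e
    · exact (q4 _ _ fun _ e => by cases e).symm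
    · rcases tri l l' fun e' => e (e' ▸ rfl) with s | s | s
      · exact (q4 _ _ fun _ e => Option.some.inj e ▸ s).symm
      · exact q4 _ _ fun _ e => Option.some.inj e ▸ s
      · exact s.mono ((q2 l).trans (hHG l)) ((q2 l').trans (hHG l'))
  · by_cases e : o = some k
    · exact Or.inl ⟨e, by_contra fun hj => hk.2 ⟨q2 k (e ▸ hx), hj⟩⟩
    refine Or.inr (q3 o k x hx hk.1 ?_)
    rintro l rfl
    rcases tri k l fun e' => e (e' ▸ rfl) with s | s | s
    · exact s
    · exact (hk.2 (s (hHG l (q2 l hx)))).elim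
    · exact (disjoint_left.1 s hk.1 (hHG l (q2 l hx))).elim
  · rw [hP]
    refine ⟨hZ hx, fun hm => ?_⟩
    obtain ⟨k, -, hk⟩ := mem_iUnion₂.1 hm
    obtain ⟨y, hy, hyB⟩ := hB
    have := Lam.sub_of_meet hD (hG k) (gD k) hc
      (fun z hz => ⟨hZ hz, fun hj => disjoint_left.1 (hA k) hz (j1 k hj)⟩) ⟨x, hx, hk.1⟩
    exact ((h k).2.2.1 (this hy)).2 hyB

end P073.Bd
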