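import Vale.Agent.P073Y.Bd.Sk
import Vale.Agent.P073Z.RCX2

/-!
# Two families of arcs with the same ends; two tilings with the same pattern
-/

open Set Filter

namespace P073.Bd

theorem arciso : ARCISO := by
  intro E _ _ α _ A A' p q hA hd
  have key : ∀ a, ∃ φ : ConHomeo (A a) (A' a), ∀ x ∈ ({p a, q a} : Set E), φ.toFun x = x := by
    intro a
    obtain ⟨φ, k0, k1⟩ := (hA a).1.exists_homeo (hA a).2
    refine ⟨φ, fun x hx => ?_⟩
    rcases hx with rfl | rfl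
    exacts [k0, k1]
  choose φ hφ using key
  have hm : ∀ a, ({p a, q a} : Set E) ⊆ A a := fun a =>
    insert_subset (hA a).1.left_mem (singleton_subset_iff.2 (hA a).1.right_mem)
  obtain ⟨Φ, hΦ⟩ := ConHomeo.exists_glue_family (X := A) (Y := A')
    (RelLF.of_finite fun a => (hA a).1.isClosed) (RelLF.of_finite fun a => (hA a).2.isClosed) φ
    (fun a a' x hx => by
      by_cases e : a = a'
      · subst e; rfl
      · exact (hφ a x ((hd a a' e).1 hx)).trans (hφ a' x ((hd a' a (Ne.symm e)).1 hx.symm)).symm)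
    (fun a a' y hy => by
      by_cases e : a = a'
      · subst e
        exact ⟨_, ⟨(φ a).mapsTo_inv hy.1, (φ a).mapsTo_inv hy.1⟩, (φ a).right_inv hy.1⟩
      · have h1 := (hd a a' e).2 hy
        exact ⟨y, ⟨hm a h1, hm a' ((hd a' a (Ne.symm e)).2 hy.symm)⟩, hφ a y h1⟩)
  exact ⟨Φ, fun a => ((hΦ a).1.image_eq).trans (φ a).image_eq⟩

theorem retile : RETILE := by
  intro E _ _ κ _ D B Γ Γ' φ Δ J Δ' hD hB hΓD hU h hd
  have hJ : ∀ k, J k ⊆ Γ := fun k => (h k).2.1 ▸ inter_subset_right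
  have eΓ : Γ = ⋃ k, J k := by
    refine Subset.antisymm (fun x hx => ?_) (iUnion_subset hJ)
    obtain ⟨k, hk⟩ := mem_iUnion.1 (hU.ge (hΓD hx))
    exact mem_iUnion.2 ⟨k, (h k).2.1.le ⟨hk, hx⟩⟩
  have hΓ : IsCompact Γ := eΓ ▸ isCompact_iUnion fun k => (h k).1.isCompact_bdry
  have hΓ' : Γ' ⊆ ⋃ k, Δ' k := fun y hy => by
    obtain ⟨x, hx, rfl⟩ := φ.image_eq.ge hy
    obtain ⟨k, hk⟩ := mem_iUnion.1 (eΓ.le hx)
    exact mem_iUnion.2 ⟨k, (h k).2.2.1.1 ⟨x, hk, rfl⟩⟩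
  obtain ⟨Φ, h1, -⟩ := ConHomeo.exists_extend_cells φ (fun _ => 2) Δ J Δ'
    (fun k => φ.toFun '' J k) (fun k => (h k).1) (fun k => (h k).2.2.1) (fun _ => rfl)
    (fun k => (h k).2.1)
    (fun k => Subset.antisymm (h k).2.2.2 (subset_inter (h k).2.2.1.1
      ((image_mono (hJ k)).trans φ.mapsTo.image_subset)))
    (fun k l hkl => (hd k l hkl).1) (fun k l hkl => (hd k l hkl).2)
    (fun z _ hz => by rwa [hΓ.isClosed.closure_eq] at hz)
    (fun z _ hz => by rwa [(φ.isCompact_right hΓ).isClosed.closure_eq] at hz)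
    (fun _ _ => ⟨univ, univ_mem, toFinite _⟩) (fun _ _ => ⟨univ, univ_mem, toFinite _⟩)
  have e : Γ ∪ ⋃ k, Δ k = D := by rw [hU]; exact union_eq_right.2 hΓD
  have h2 := hD.image Φ e.ge
  rw [(h1.mono hB).image_eq, ← e, Φ.image_eq, union_eq_right.2 hΓ'] at h2
  exact h2

end P073.Bd
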