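import Vale.Agent.P073Y.Bd.Defs
import Vale.Agent.P073Z.SHELL
import Vale.Agent.P073Z.Lam

/-!
# Zones: products of a circle with a square
-/

open Set Metric Topology Filter

namespace P073.Bd.Sw

variable {E : Type} [NormedAddCommGroup E] [NormedSpace ℝ E] {g Z : Set E} {a b : E → ℝ}

/-- the set `Z` is the product of `g` with the square; `a`, `b` are the coordinates -/
def Zone (g Z : Set E) (a b : E → ℝ) : Prop :=
  ∃ Φ : ConHomeo (g ×ˢ (I ×ˢ I)) Z, ∀ y ∈ Z, (Φ.invFun y).2 = (a y, b y)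

/-- the part of the zone over a subset of the square -/
def sec (Z : Set E) (a b : E → ℝ) (S : Set (ℝ × ℝ)) : Set E := {y ∈ Z | (a y, b y) ∈ S}

theorem conicalSet_sq : ConicalSet (I ×ˢ I) :=
  Convex.conicalSet ((convex_Icc _ _).prod (convex_Icc _ _))

theorem Zone.range (h : Zone g Z a b) {y : E} (hy : y ∈ Z) : a y ∈ I ∧ b y ∈ I := by
  obtain ⟨Φ, hΦ⟩ := h
  have := (Φ.mapsTo_inv hy).2
  rwa [hΦ y hy] at this

theorem Zone.lin (h : Zone g Z a b) (hg : ConicalSet g) (L : (ℝ × ℝ) →L[ℝ] (ℝ × ℝ))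
    (hL : ∀ v, L (L v) = v) (hm : MapsTo L (I ×ˢ I) (I ×ˢ I)) {a' b' : E → ℝ}
    (he : ∀ y ∈ Z, L (a y, b y) = (a' y, b' y)) : Zone g Z a' b' := by
  obtain ⟨Φ, hΦ⟩ := h
  let ψ : ConHomeo (I ×ˢ I) (I ×ˢ I) :=
    ⟨L, L, hm, hm, fun v _ => hL v, fun v _ => hL v, L.continuous.continuousOn,
      L.continuous.continuousOn, conicalOn_linear (L : (ℝ × ℝ) →ₗ[ℝ] (ℝ × ℝ)) conicalSet_sq⟩
  refine ⟨(Sh.prod (ConHomeo.refl hg) ψ).trans Φ, fun y hy => ?_⟩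
  show L (Φ.invFun y).2 = _
  rw [hΦ y hy, he y hy]

theorem Zone.swap (h : Zone g Z a b) (hg : ConicalSet g) : Zone g Z b a :=
  h.lin hg ((ContinuousLinearMap.snd ℝ ℝ ℝ).prod (ContinuousLinearMap.fst ℝ ℝ ℝ))
    (fun _ => rfl) (fun _ hv => ⟨hv.2, hv.1⟩) fun _ _ => rfl

theorem sign_mem {ε t : ℝ} (hε : ε = 1 ∨ ε = -1) (ht : t ∈ I) : ε * t ∈ I := by
  rcases hε with rfl | rfl
  · rwa [one_mul]
  · exact ⟨by linarith [ht.2], by linarith [ht.1]⟩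

theorem sign_sq {ε : ℝ} (hε : ε = 1 ∨ ε = -1) (t : ℝ) : ε * (ε * t) = t := by
  rcases hε with rfl | rfl <;> ring

theorem Zone.sign (h : Zone g Z a b) (hg : ConicalSet g) {ε ε' : ℝ} (hε : ε = 1 ∨ ε = -1)
    (hε' : ε' = 1 ∨ ε' = -1) : Zone g Z (fun y => ε * a y) (fun y => ε' * b y) :=
  h.lin hg ((ε • ContinuousLinearMap.fst ℝ ℝ ℝ).prod (ε' • ContinuousLinearMap.snd ℝ ℝ ℝ))
    (fun v => Prod.ext (sign_sq hε v.1) (sign_sq hε' v.2))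
    (fun _ hv => ⟨sign_mem hε hv.1, sign_mem hε' hv.2⟩) fun _ _ => rfl

theorem img_sec (Φ : ConHomeo (g ×ˢ (I ×ˢ I)) Z) (hΦ : ∀ y ∈ Z, (Φ.invFun y).2 = (a y, b y))
    {S : Set (ℝ × ℝ)} (hS : S ⊆ I ×ˢ I) : Φ.toFun '' (g ×ˢ S) = sec Z a b S := by
  ext y
  constructor
  · rintro ⟨q, hq, rfl⟩
    have h1 : q ∈ g ×ˢ (I ×ˢ I) := ⟨hq.1, hS hq.2⟩
    refine ⟨Φ.mapsTo h1, ?_⟩
    rw [← hΦ _ (Φ.mapsTo h1), Φ.left_inv h1]
    exact hq.2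
  · rintro ⟨h1, h2⟩
    exact ⟨Φ.invFun y, ⟨(Φ.mapsTo_inv h1).1, by rw [hΦ y h1]; exact h2⟩, Φ.right_inv h1⟩

theorem Zone.pre (h : Zone g Z a b) (hg : IsPreconnected g) {S : Set (ℝ × ℝ)}
    (hS : IsPreconnected S) (hS' : S ⊆ I ×ˢ I) : IsPreconnected (sec Z a b S) := by
  obtain ⟨Φ, hΦ⟩ := h
  rw [← img_sec Φ hΦ hS']
  exact (hg.prod hS).image _ (Φ.cont.mono (prod_mono_right hS'))

theorem Zone.cpt (h : Zone g Z a b) (hg : IsCompact g) {S : Set (ℝ × ℝ)}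
    (hS : IsClosed S) : IsCompact (sec Z a b S) := by
  obtain ⟨Φ, hΦ⟩ := h
  have e : sec Z a b S = sec Z a b (S ∩ I ×ˢ I) :=
    Subset.antisymm (fun y hy => ⟨hy.1, hy.2, Zone.range ⟨Φ, hΦ⟩ hy.1⟩) fun y hy => ⟨hy.1, hy.2.1⟩
  rw [e, ← img_sec Φ hΦ inter_subset_right]
  exact (hg.prod ((isCompact_Icc.prod isCompact_Icc).inter_left hS)).image_of_continuousOn
    (Φ.cont.mono (prod_mono_right inter_subset_right))

theorem exists_slice (Φ : ConHomeo (g ×ˢ (I ×ˢ I)) Z)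
    (hΦ : ∀ y ∈ Z, (Φ.invFun y).2 = (a y, b y)) (hg : ConicalSet g) {p : ℝ × ℝ}
    (hp : p ∈ I ×ˢ I) : ∃ θ : ConHomeo g (sec Z a b {p}), ∀ x, θ.toFun x = Φ.toFun (x, p) := by
  let τ : ConHomeo g (g ×ˢ ({p} : Set (ℝ × ℝ))) :=
    ⟨fun x => (x, p), fun q => q.1, fun _ hx => ⟨hx, rfl⟩, fun _ hq => hq.1, fun _ _ => rfl,
      fun _ hq => Prod.ext rfl (mem_singleton_iff.1 hq.2).symm, by fun_prop, by fun_prop,
      (conicalOn_id hg).prodMk (conicalOn_const p hg)⟩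
  have hs : ({p} : Set (ℝ × ℝ)) ⊆ I ×ˢ I := singleton_subset_iff.2 hp
  exact ⟨τ.trans ((Φ.restr τ.conicalSet_right (prod_mono_right hs)).cast rfl (img_sec Φ hΦ hs)),
    fun _ => rfl⟩

theorem Zone.circle (h : Zone g Z a b) (hg : IsCircle g) {p : ℝ × ℝ} (hp : p ∈ I ×ˢ I) :
    IsCircle (sec Z a b {p}) := by
  obtain ⟨Φ, hΦ⟩ := h
  obtain ⟨c⟩ := hg
  obtain ⟨θ, -⟩ := exists_slice Φ hΦ c.conicalSet_right hp
  exact ⟨c.trans θ⟩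

/-- a ball with a collar over an arc of the square -/
theorem Zone.colo_arc (h : Zone g Z a b) (hg : ConicalSet g) {n : ℕ} {H : Set E}
    {S : Set (ℝ × ℝ)} {p q : ℝ × ℝ} (hS : IsArc S p q) (hS' : S ⊆ I ×ˢ I)
    (hH : ConBall n H (sec Z a b {p})) (hd : sec Z a b S ∩ H ⊆ sec Z a b {p}) :
    ConBall n (H ∪ sec Z a b S) (sec Z a b {q}) := by
  obtain ⟨Φ, hΦ⟩ := h
  obtain ⟨θ, hθ⟩ := exists_slice Φ hΦ hg (hS' hS.left_mem)
  have hq : ({q} : Set (ℝ × ℝ)) ⊆ I ×ˢ I := singleton_subset_iff.2 (hS' hS.right_mem)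
  have hc := Sh.conicalSet_prod hg hS.conicalSet
  obtain ⟨σ, h0, h1⟩ := hS
  let κ : ConHomeo (sec Z a b {p} ×ˢ Icc (0:ℝ) 1) (sec Z a b S) :=
    (Sh.prod θ.symm σ).trans ((Φ.restr hc (prod_mono_right hS')).cast rfl (img_sec Φ hΦ hS'))
  have hκ : ∀ x s, κ.toFun (x, s) = Φ.toFun (θ.invFun x, σ.toFun s) := fun _ _ => rfl
  have key := colo κ hH (fun x hx => by rw [hκ, h0, ← hθ, θ.right_inv hx]) hd
  have e : κ.toFun '' (sec Z a b {p} ×ˢ {1}) = sec Z a b {q} := by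
    rw [← img_sec Φ hΦ hq]
    ext y
    constructor
    · rintro ⟨⟨x, s⟩, ⟨hx, hs⟩, rfl⟩
      obtain rfl : s = 1 := hs
      exact ⟨(θ.invFun x, q), ⟨θ.mapsTo_inv hx, rfl⟩, by rw [hκ, h1]⟩
    · rintro ⟨⟨x, v⟩, ⟨hx, hv⟩, rfl⟩
      obtain rfl : v = q := hv
      exact ⟨(θ.toFun x, 1), ⟨θ.mapsTo hx, rfl⟩, by rw [hκ, h1, θ.left_inv hx]⟩
  rwa [e] at key

/-- the circle over a point of the square -/
def pt (Z : Set E) (a b : E → ℝ) (s t : ℝ) : Set E := {y ∈ Z | a y = s ∧ b y = t}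

omit [NormedAddCommGroup E] [NormedSpace ℝ E] in
theorem sec_pt (s t : ℝ) : sec Z a b {(s, t)} = pt Z a b s t := by
  ext y
  simp only [sec, pt, mem_ofPred_eq, mem_singleton_iff, Prod.mk.injEq]

theorem Zone.pt_circle (h : Zone g Z a b) (hg : IsCircle g) {s t : ℝ} (hs : s ∈ I) (ht : t ∈ I) :
    IsCircle (pt Z a b s t) := sec_pt (Z := Z) s t ▸ h.circle hg ⟨hs, ht⟩

theorem Zone.pt_ne (h : Zone g Z a b) (hg : IsCircle g) {s t : ℝ} (hs : s ∈ I) (ht : t ∈ I) :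
    (pt Z a b s t).Nonempty := (A12.circle_isConnected (h.pt_circle hg hs ht)).nonempty

/-- vertical collars -/
theorem Zone.vert (h : Zone g Z a b) (hg : ConicalSet g) {n : ℕ} {H : Set E} {t : ℝ}
    (ht : -1 ≤ t) (ht' : t < 1) (hH : ConBall n H (pt Z a b 0 1))
    (hd : ∀ y ∈ H, y ∈ Z → a y = 0 → b y = 1) :
    ConBall n (H ∪ {y ∈ Z | a y = 0 ∧ t ≤ b y}) (pt Z a b 0 t) := by
  have hm : ∀ v : ℝ × ℝ, v ∈ segment ℝ ((0, t) : ℝ × ℝ) (0, 1) ↔ v.1 = 0 ∧ t ≤ v.2 ∧ v.2 ≤ 1 :=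
    fun v => mem_vseg ht'.le
  have e : sec Z a b (segment ℝ ((0, t) : ℝ × ℝ) (0, 1)) = {y ∈ Z | a y = 0 ∧ t ≤ b y} :=
    Subset.antisymm (fun y hy => ⟨hy.1, ((hm _).1 hy.2).1, ((hm _).1 hy.2).2.1⟩)
      fun y hy => ⟨hy.1, (hm _).2 ⟨hy.2.1, hy.2.2, (h.range hy.1).2.2⟩⟩
  have key := h.colo_arc hg (isArc_segment (p := ((0, t) : ℝ × ℝ)) (q := (0, 1))
    (fun h => ht'.ne (congrArg Prod.snd h))).symm
    (fun v hv => ⟨by rw [((hm v).1 hv).1]; exact ⟨by norm_num, by norm_num⟩,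
      ht.trans ((hm v).1 hv).2.1, ((hm v).1 hv).2.2⟩) (sec_pt (Z := Z) 0 1 ▸ hH)
    (by
      rw [e, sec_pt]
      exact fun y hy => ⟨hy.1.1, hy.1.2.1, hd y hy.2 hy.1.1 hy.1.2.1⟩)
  rwa [e, sec_pt] at key

/-- the diagonal strip -/
def strip (Z : Set E) (a b : E → ℝ) : Set E := {y ∈ Z | a y ≤ 0 ∧ 0 ≤ b y ∧ b y - a y = 1 / 2}

theorem Zone.diag (h : Zone g Z a b) (hg : ConicalSet g) {n : ℕ} {H : Set E}
    (hH : ConBall n H (pt Z a b 0 (1 / 2))) (hd : ∀ y ∈ H, y ∈ Z → a y = 0) :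
    ConBall n (H ∪ strip Z a b) (pt Z a b (-1 / 2) 0) := by
  have hm : ∀ v : ℝ × ℝ, v ∈ segment ℝ ((0, 1 / 2) : ℝ × ℝ) (-1 / 2, 0) ↔
      v.1 ≤ 0 ∧ 0 ≤ v.2 ∧ v.2 - v.1 = 1 / 2 := by
    intro v
    constructor
    · rintro ⟨s, t, hs, ht, hst, rfl⟩
      simp only [Prod.fst_add, Prod.snd_add, Prod.smul_mk, smul_eq_mul]
      exact ⟨by linarith, by linarith, by linarith⟩
    · rintro ⟨h1, h2, h3⟩
      refine ⟨2 * v.2, -2 * v.1, by linarith, by linarith, by linarith, Prod.ext ?_ ?_⟩ <;>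
        simp only [Prod.fst_add, Prod.snd_add, Prod.smul_mk, smul_eq_mul] <;> ring
  have e : sec Z a b (segment ℝ ((0, 1 / 2) : ℝ × ℝ) (-1 / 2, 0)) = strip Z a b :=
    Subset.antisymm (fun y hy => ⟨hy.1, (hm _).1 hy.2⟩) fun y hy => ⟨hy.1, (hm _).2 hy.2⟩
  have key := h.colo_arc hg (isArc_segment (p := ((0, 1 / 2) : ℝ × ℝ)) (q := (-1 / 2, 0))
    (fun h => by have := congrArg Prod.snd h; norm_num at this))
    (fun v hv => by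
      obtain ⟨h1, h2, h3⟩ := (hm v).1 hv
      exact ⟨⟨by linarith, by linarith⟩, by linarith, by linarith⟩) (sec_pt (Z := Z) 0 (1 / 2) ▸ hH)
    (by
      rw [e, sec_pt]
      intro y hy
      have h1 := hd y hy.2 hy.1.1
      exact ⟨hy.1.1, h1, by linarith [hy.1.2.2.2]⟩)
  rwa [e, sec_pt] at key

theorem Zone.strip_closed (h : Zone g Z a b) (hg : IsCompact g) : IsClosed (strip Z a b) :=
  (h.cpt hg (S := {v | v.1 ≤ 0 ∧ 0 ≤ v.2 ∧ v.2 - v.1 = 1 / 2})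
    ((isClosed_le continuous_fst continuous_const).inter
      ((isClosed_le continuous_const continuous_snd).inter
        (isClosed_eq (continuous_snd.sub continuous_fst) continuous_const)))).isClosed

theorem Zone.pre_vert (h : Zone g Z a b) (hg : IsPreconnected g) {T : Set ℝ} (hT : Convex ℝ T) :
    IsPreconnected {y ∈ Z | a y = 0 ∧ b y ∈ T} := by
  have e : sec Z a b (({0} : Set ℝ) ×ˢ (T ∩ I)) = {y ∈ Z | a y = 0 ∧ b y ∈ T} :=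
    Subset.antisymm (fun y hy => ⟨hy.1, hy.2.1, hy.2.2.1⟩)
      fun y hy => ⟨hy.1, hy.2.1, hy.2.2, (h.range hy.1).2⟩
  rw [← e]
  exact h.pre hg ((convex_singleton _).prod (hT.inter (convex_Icc _ _))).isPreconnected
    fun v hv => ⟨by rw [mem_singleton_iff.1 hv.1]; exact ⟨by norm_num, by norm_num⟩, hv.2.2⟩

theorem zero_mem_I : (0:ℝ) ∈ I := ⟨by norm_num, by norm_num⟩
theorem one_mem_I : (1:ℝ) ∈ I := ⟨by norm_num, by norm_num⟩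

theorem Zone.alt (h : Zone g Z a b) (hg : IsCircle g) {D B : Set E} (hD : ConBall 2 D B)
    (hs : ∀ y ∈ Z, a y = 0 → y ∈ D \ B) : ∃ Δ, ConBall 2 Δ (pt Z a b 0 1) ∧ Δ ⊆ D \ B ∧
      ((∀ y ∈ Δ, y ∈ Z → a y = 0 → b y = 1) ∨ pt Z a b 0 (-1) ⊆ Δ) := by
  obtain ⟨Δ, h1, h2, -, h3, -⟩ := cid hD (h.pt_circle hg zero_mem_I one_mem_I)
    fun y hy => (hs y hy.1 hy.2.1).1
  refine ⟨Δ, h2, fun y hy => ⟨h1 hy, fun hB => ?_⟩, ?_⟩
  · by_cases h4 : y ∈ pt Z a b 0 1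
    · exact (hs y h4.1 h4.2.1).2 hB
    · exact disjoint_left.1 h3 ⟨hy, h4⟩ hB
  · by_cases h4 : ∀ y ∈ Δ, y ∈ Z → a y = 0 → b y = 1
    · exact Or.inl h4
    · push Not at h4
      obtain ⟨y, hy, hyZ, hya, hyb⟩ := h4
      have h5 := Lam.sub_of_meet hD h2 h1
        (h.pre_vert (A12.circle_isConnected hg).isPreconnected (convex_Iio 1))
        (fun z hz => ⟨(hs z hz.1 hz.2.1).1, fun h6 => ne_of_lt hz.2.2 h6.2.2⟩)
        ⟨y, ⟨hyZ, hya, lt_of_le_of_ne (h.range hyZ).2.2 hyb⟩, hy⟩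
      exact Or.inr fun z hz => h5 ⟨hz.1, hz.2.1, by rw [hz.2.2]; norm_num⟩

/-- one of the two ends of a thick circle in a disc is the inner one -/
theorem Zone.thick (h : Zone g Z a b) (hg : IsCircle g) {D B : Set E} (hD : ConBall 2 D B)
    (hs : ∀ y ∈ Z, a y = 0 → y ∈ D \ B) : ∃ ε : ℝ, (ε = 1 ∨ ε = -1) ∧ ∃ Δ,
      ConBall 2 Δ {y ∈ Z | a y = 0 ∧ ε * b y = 1} ∧ Δ ⊆ D \ B ∧
      ∀ y ∈ Δ, y ∈ Z → a y = 0 → ε * b y = 1 := by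
  have h' : Zone g Z a (fun y => -1 * b y) := by
    have := h.sign hg.locCone.conicalSet (Or.inl rfl) (Or.inr rfl)
    simpa only [one_mul] using this
  obtain ⟨Δ, h1, h2, h3⟩ := h.alt hg hD hs
  obtain ⟨Δ', h1', h2', h3'⟩ := h'.alt hg hD hs
  rcases h3 with h3 | h3
  · exact ⟨1, Or.inl rfl, Δ, by simpa only [one_mul, pt] using h1, h2, by simpa only [one_mul] using h3⟩
  rcases h3' with h3' | h3'
  · exact ⟨-1, Or.inr rfl, Δ', h1', h2', h3'⟩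
  exfalso
  obtain ⟨x, hx⟩ := Lam.bd_nonempty h1
  obtain ⟨y, hy⟩ := Lam.bd_nonempty h1'
  have h4 := Lam.nest hD h1 h1' (h2.trans sdiff_subset) (h2'.trans sdiff_subset)
    (disjoint_left.2 fun z hz hz' => by linarith [hz.2.2, hz'.2.2])
    ⟨y, hy, h3 ⟨hy.1, hy.2.1, by linarith [hy.2.2]⟩⟩
  exact (h4 (h3' ⟨hx.1, hx.2.1, by linarith [hx.2.2]⟩)).2 hx

end P073.Bd.Sw
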