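import Vale.Agent.P073Y.Bd.Sk
import Vale.Agent.P073Y.Bd.SwapZ

/-!
# Exchange along circles: the planar pieces
-/

open Set Metric Topology Filter

namespace P073.Bd.Sw

variable {E : Type} [NormedAddCommGroup E] [NormedSpace ℝ E] {ι μ : Type}

/-- laminar families in several discs at once -/
theorem lamg (hL : LAMIN) [Finite μ] (w : μ → ι) (W Bd : ι → Set E) (G JG H JH : μ → Set E)
    (hW : ∀ i, ConBall 2 (W i) (Bd i))
    (h1 : ∀ m, ConBall 2 (G m) (JG m) ∧ ConBall 2 (H m) (JH m) ∧ G m ⊆ W (w m) \ Bd (w m) ∧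
      H m ⊆ G m \ JG m ∧ IsPreconnected (G m \ (H m \ JH m)))
    (h2 : ∀ m l, m ≠ l → w m = w l → Disjoint (G m \ (H m \ JH m)) (G l \ (H l \ JH l))) :
    ∃ up : μ → ι ⊕ μ, (∀ m, Sum.elim id w (up m) = w m) ∧
      (∀ m l, up m = .inr l → G m ⊆ H l \ JH l) ∧
      (∀ m l, m ≠ l → up m = up l → Disjoint (G m) (G l)) ∧
      ∀ Pc : ι ⊕ μ → Set E, (∀ n, Pc n = Sum.elim W H n \ ⋃ m, ⋃ (_ : up m = n), (G m \ JG m)) →
        (∀ n n', n ≠ n' → Sum.elim id w n = Sum.elim id w n' → Disjoint (Pc n) (Pc n')) ∧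
        (∀ n m, Sum.elim id w n = w m → ∀ x ∈ Pc n, x ∈ G m \ (H m \ JH m) →
          (n = .inr m ∧ x ∈ JH m) ∨ (n = up m ∧ x ∈ JG m)) ∧
        ∀ i, ∀ Z ⊆ W i, IsPreconnected Z → (Z ∩ Bd i).Nonempty →
          (∀ m, w m = i → Disjoint Z (G m \ (H m \ JH m))) → Z ⊆ Pc (.inl i) := by
  choose par p1 p2 p3 using fun i => hL (κ := {m // w m = i}) (fun k => G k.1) (fun k => JG k.1)
    (fun k => H k.1) (fun k => JH k.1) (hW i) (fun k => by have := h1 k.1; rwa [k.2] at this)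
    (fun k l hkl => h2 k.1 l.1 (fun h => hkl (Subtype.ext h)) (k.2.trans l.2.symm))
  let emb : ∀ i, Option {m // w m = i} → ι ⊕ μ := fun i o => o.elim (.inl i) fun k => .inr k.1
  have inj : ∀ i o o', emb i o = emb i o' → o = o' := by
    rintro i (_ | k) (_ | l) h
    · rfl
    · exact absurd h Sum.inl_ne_inr
    · exact absurd h Sum.inr_ne_inl
    · rw [Subtype.ext (Sum.inr.inj h)]
  have hw : ∀ i o, Sum.elim id w (emb i o) = i := by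
    rintro i (_ | k)
    · rfl
    · exact k.2
  have sur : ∀ n i, Sum.elim id w n = i → ∃ o, emb i o = n := by
    rintro (j | m) i h
    · exact ⟨none, congrArg Sum.inl h.symm⟩
    · exact ⟨some ⟨m, h⟩, rfl⟩
  let up : μ → ι ⊕ μ := fun m => emb (w m) (par (w m) ⟨m, rfl⟩)
  have hup : ∀ i (k : {m // w m = i}), up k.1 = emb i (par i k) := by
    rintro _ ⟨m, rfl⟩
    rfl
  have hwu : ∀ m, Sum.elim id w (up m) = w m := fun m => hw _ _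
  refine ⟨up, hwu, fun m l h => ?_, fun m l hml h => ?_, fun Pc hPc => ?_⟩
  · have e : w l = w m := by rw [← hwu m, h]; rfl
    exact p1 (w m) ⟨m, rfl⟩ ⟨l, e⟩ (inj _ _ _ h)
  · have e : w l = w m := by rw [← hwu m, h, hwu]
    exact p2 (w m) ⟨m, rfl⟩ ⟨l, e⟩ (fun h' => hml (congrArg Subtype.val h'))
      (inj _ _ _ (h.trans (hup _ ⟨l, e⟩)))
  have key : ∀ i o, Pc (emb i o) = o.elim (W i) (fun k => H k.1) \
      ⋃ k, ⋃ (_ : par i k = o), (G k.1 \ JG k.1) := by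
    intro i o
    have e1 : Sum.elim W H (emb i o) = o.elim (W i) (fun k => H k.1) := by cases o <;> rfl
    rw [hPc, e1]
    congr 1
    ext x
    simp only [mem_iUnion]
    constructor
    · rintro ⟨m, h, hx⟩
      have e : w m = i := by rw [← hwu m, h, hw]
      exact ⟨⟨m, e⟩, inj _ _ _ ((hup _ ⟨m, e⟩).symm.trans h), hx⟩
    · rintro ⟨k, h, hx⟩
      exact ⟨k.1, by rw [hup i k, h], hx⟩
  refine ⟨fun n n' hn h => ?_, fun n m h x hx hx' => ?_, fun i Z a1 a2 a3 a4 =>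
    (p3 i _ (key i)).2.2 Z a1 a2 a3 fun k => a4 k.1 k.2⟩
  · obtain ⟨o, ho⟩ := sur n _ rfl
    obtain ⟨o', ho'⟩ := sur n' _ h.symm
    have := (p3 _ _ (key _)).1 o o' fun e => hn (by rw [← ho, ← ho', e])
    rwa [ho, ho'] at this
  · obtain ⟨o, rfl⟩ := sur n _ h
    rcases (p3 _ _ (key _)).2.1 o ⟨m, rfl⟩ x hx hx' with ⟨rfl, h3⟩ | ⟨rfl, h3⟩
    · exact Or.inl ⟨rfl, h3⟩
    · exact Or.inr ⟨rfl, h3⟩

/-- walls, circles with their two walls, zones, coordinates and inner discs -/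
structure Data (E ι μ : Type) where
  /-- walls -/
  W : ι → Set E
  /-- their boundaries -/
  B : ι → Set E
  /-- the same circle seen in the other wall -/
  σ : μ → μ
  /-- the wall -/
  w : μ → ι
  /-- the circle -/
  g : μ → Set E
  /-- the zone -/
  z : μ → Set E
  /-- the innermost disc -/
  H₀ : μ → Set E
  /-- the coordinate which vanishes on the wall -/
  c : μ → E → ℝ

namespace Data

variable (S : Data E ι μ)

/-- the hypotheses -/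
structure Ok : Prop where
  ball : ∀ i, ConBall 2 (S.W i) (S.B i)
  σσ : ∀ m, S.σ (S.σ m) = m
  wσ : ∀ m, S.w (S.σ m) ≠ S.w m
  zσ : ∀ m, S.z (S.σ m) = S.z m
  zd : ∀ m l, l ≠ m → l ≠ S.σ m → Disjoint (S.z m) (S.z l)
  circ : ∀ m, IsCircle (S.g m)
  zone : ∀ m, Zone (S.g m) (S.z m) (S.c m) (S.c (S.σ m))
  memW : ∀ m, ∀ y ∈ S.z m, (y ∈ S.W (S.w m) ↔ S.c m y = 0)
  only : ∀ m, ∀ y ∈ S.z m, ∀ k, y ∈ S.W k → k = S.w m ∨ k = S.w (S.σ m)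
  hball : ∀ m, ConBall 2 (S.H₀ m) (pt (S.z m) (S.c m) (S.c (S.σ m)) 0 1)
  hsub : ∀ m, S.H₀ m ⊆ S.W (S.w m) \ S.B (S.w m)
  hz : ∀ m, ∀ y ∈ S.H₀ m, y ∈ S.z m → S.c (S.σ m) y = 1
  zbd : ∀ m k, Disjoint (S.z m) (S.B k)
  line : ∀ i j, i ≠ j → ∀ x ∈ S.W i ∩ S.W j, (∃ m, x ∈ S.z m) ∨ ∃ L, x ∈ L ∧
    L ⊆ S.W i ∧ IsPreconnected L ∧ (L ∩ S.B i).Nonempty ∧ ∀ m, Disjoint L (S.z m)

/-- the inner disc -/
def H (m : μ) : Set E := S.H₀ m ∪ {y ∈ S.z m | S.c m y = 0 ∧ 1 / 2 ≤ S.c (S.σ m) y}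
/-- its boundary -/
def JH (m : μ) : Set E := pt (S.z m) (S.c m) (S.c (S.σ m)) 0 (1 / 2)
/-- the outer disc -/
def G (m : μ) : Set E := S.H₀ m ∪ {y ∈ S.z m | S.c m y = 0 ∧ -1 / 2 ≤ S.c (S.σ m) y}
/-- its boundary -/
def JG (m : μ) : Set E := pt (S.z m) (S.c m) (S.c (S.σ m)) 0 (-1 / 2)
/-- the strip -/
def St (m : μ) : Set E := strip (S.z m) (S.c m) (S.c (S.σ m))
/-- the wall of a node -/
def hw (n : ι ⊕ μ) : ι := Sum.elim id S.w n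
/-- the planar piece of a node -/
def Pc (up : μ → ι ⊕ μ) (n : ι ⊕ μ) : Set E :=
  Sum.elim S.W S.H n \ ⋃ m, ⋃ (_ : up m = n), (S.G m \ S.JG m)

variable {S}

namespace Ok

variable (h : S.Ok)
include h

theorem cg (m : μ) : ConicalSet (S.g m) := (h.circ m).locCone.conicalSet

theorem pg (m : μ) : IsPreconnected (S.g m) := (A12.circle_isConnected (h.circ m)).isPreconnected

theorem ballH (m : μ) : ConBall 2 (S.H m) (S.JH m) :=
  (h.zone m).vert (h.cg m) (by norm_num) (by norm_num) (h.hball m) fun y h1 h2 _ => h.hz m y h1 h2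

theorem ballG (m : μ) : ConBall 2 (S.G m) (S.JG m) :=
  (h.zone m).vert (h.cg m) (by norm_num) (by norm_num) (h.hball m) fun y h1 h2 _ => h.hz m y h1 h2

theorem G_sub (m : μ) : S.G m ⊆ S.W (S.w m) \ S.B (S.w m) := by
  rintro y (hy | hy)
  · exact h.hsub m hy
  · exact ⟨(h.memW m y hy.1).2 hy.2.1, disjoint_left.1 (h.zbd m _) hy.1⟩

theorem H_sub (m : μ) : S.H m ⊆ S.G m \ S.JG m := by
  rintro y (hy | hy)
  · exact ⟨Or.inl hy, fun h1 => by linarith [h.hz m y hy h1.1, h1.2.2]⟩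
  · exact ⟨Or.inr ⟨hy.1, hy.2.1, by linarith [hy.2.2]⟩, fun h1 => by linarith [hy.2.2, h1.2.2]⟩

theorem H_W (m : μ) : S.H m ⊆ S.W (S.w m) := fun _ hy => (h.G_sub m (h.H_sub m hy).1).1

theorem ann (m : μ) : S.G m \ (S.H m \ S.JH m) =
    {y ∈ S.z m | S.c m y = 0 ∧ S.c (S.σ m) y ∈ Icc (-1 / 2 : ℝ) (1 / 2)} := by
  ext y
  constructor
  · rintro ⟨h1, h2⟩
    by_cases h3 : y ∈ S.JH m
    · exact ⟨h3.1, h3.2.1, by linarith [h3.2.2], h3.2.2.le⟩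
    · rcases h1 with h1 | h1
      · exact (h2 ⟨Or.inl h1, h3⟩).elim
      · exact ⟨h1.1, h1.2.1, h1.2.2, le_of_not_ge fun h4 => h2 ⟨Or.inr ⟨h1.1, h1.2.1, h4⟩, h3⟩⟩
  · rintro ⟨h1, h2, h3, h4⟩
    refine ⟨Or.inr ⟨h1, h2, h3⟩, ?_⟩
    rintro ⟨h5 | h5, h6⟩
    · linarith [h.hz m y h5 h1]
    · exact h6 ⟨h1, h2, le_antisymm h4 h5.2.2⟩

theorem zd' {m l : μ} (hml : m ≠ l) (hw : S.w m = S.w l) : Disjoint (S.z m) (S.z l) :=
  h.zd m l hml.symm fun e => h.wσ m (by rw [← e, hw])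

theorem mem_JG {m : μ} {y : E} : y ∈ S.JG (S.σ m) ↔
    y ∈ S.z m ∧ S.c m y = -1 / 2 ∧ S.c (S.σ m) y = 0 := by
  simp only [JG, pt, h.σσ, h.zσ, mem_ofPred_eq]
  exact and_congr_right fun _ => and_comm

theorem ballD (m : μ) : ConBall 2 (S.H m ∪ S.St m) (S.JG (S.σ m)) := by
  have e : S.JG (S.σ m) = pt (S.z m) (S.c m) (S.c (S.σ m)) (-1 / 2) 0 := by
    ext y
    exact h.mem_JG
  rw [e]
  exact (h.zone m).diag (h.cg m) (h.ballH m) fun y h1 h2 => (h.memW m y h2).1 (h.H_W m h1)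

theorem st_H {m : μ} {y : E} (hy : y ∈ S.St m) (hW : y ∈ S.W (S.w m)) : y ∈ S.JH m := by
  have h1 := (h.memW m y hy.1).1 hW
  exact ⟨hy.1, h1, by linarith [hy.2.2.2]⟩

theorem memW' {m : μ} {y : E} (hy : y ∈ S.z m) : y ∈ S.W (S.w (S.σ m)) ↔ S.c (S.σ m) y = 0 :=
  h.memW _ y ((h.zσ m).symm ▸ hy)

theorem st_G {m : μ} {y : E} (hy : y ∈ S.St m) (hW : y ∈ S.W (S.w (S.σ m))) :
    y ∈ S.JG (S.σ m) := by
  have h1 := (h.memW' hy.1).1 hW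
  exact h.mem_JG.2 ⟨hy.1, by linarith [hy.2.2.2], h1⟩

theorem st_st {m l : μ} {y : E} (hy : y ∈ S.St m) (hy' : y ∈ S.St l) : l = m := by
  by_contra h1
  by_cases h2 : l = S.σ m
  · subst h2
    have h3 := hy'.2.2.2
    rw [h.σσ] at h3
    linarith [hy.2.2.2]
  · exact disjoint_left.1 (h.zd m l h1 h2) hy.1 hy'.1

omit h [NormedAddCommGroup E] [NormedSpace ℝ E] in
theorem JH_st {m : μ} {y : E} (hy : y ∈ S.JH m) : y ∈ S.St m :=
  ⟨hy.1, hy.2.1.le, by linarith [hy.2.2], by linarith [hy.2.1, hy.2.2]⟩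

theorem JG_st {m : μ} {y : E} (hy : y ∈ S.JG (S.σ m)) : y ∈ S.St m := by
  obtain ⟨h1, h2, h3⟩ := h.mem_JG.1 hy
  exact ⟨h1, by linarith, h3.ge, by linarith⟩

end Ok

/-- the nesting of the circles -/
structure Up (S : Data E ι μ) (up : μ → ι ⊕ μ) : Prop where
  hw : ∀ m, S.hw (up m) = S.w m
  sub : ∀ m l, up m = .inr l → S.G m ⊆ S.H l \ S.JH l
  sib : ∀ m l, m ≠ l → up m = up l → Disjoint (S.G m) (S.G l)
  disj : ∀ n n', n ≠ n' → S.hw n = S.hw n' → Disjoint (S.Pc up n) (S.Pc up n')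
  ann : ∀ n m, S.hw n = S.w m → ∀ x ∈ S.Pc up n, x ∈ S.z m → S.c m x = 0 →
    S.c (S.σ m) x ∈ Icc (-1 / 2 : ℝ) (1 / 2) →
    (n = .inr m ∧ x ∈ S.JH m) ∨ (n = up m ∧ x ∈ S.JG m)
  root : ∀ i, ∀ Z ⊆ S.W i, IsPreconnected Z → (Z ∩ S.B i).Nonempty →
    (∀ m, Disjoint Z (S.z m)) → Z ⊆ S.Pc up (.inl i)

theorem Ok.exists_up (h : S.Ok) (hL : LAMIN) [Finite μ] : ∃ up, S.Up up := by
  have hz : ∀ m, S.G m \ (S.H m \ S.JH m) ⊆ S.z m := fun m => by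
    rw [h.ann]; exact fun _ hy => hy.1
  obtain ⟨up, h1, h2, h3, h4⟩ := lamg hL S.w S.W S.B S.G S.JG S.H S.JH h.ball
    (fun m => ⟨h.ballG m, h.ballH m, h.G_sub m, h.H_sub m, by
      rw [h.ann]; exact (h.zone m).pre_vert (h.pg m) (convex_Icc _ _)⟩)
    (fun m l a1 a2 => (h.zd' a1 a2).mono (hz m) (hz l))
  obtain ⟨h5, h6, h7⟩ := h4 (S.Pc up) fun _ => rfl
  exact ⟨up, h1, h2, h3, h5, fun n m a1 x a2 a3 a4 a5 => h6 n m a1 x a2 (by
    rw [h.ann]; exact ⟨a3, a4, a5⟩), fun i Z a1 a2 a3 a4 =>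
      h7 i Z a1 a2 a3 fun m _ => (a4 m).mono_right (hz m)⟩

end Data

end P073.Bd.Sw
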