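import Vale.Agent.P073Y.Bd.SwapL

/-!
# Exchange along circles: the new walls
-/

open Set Metric Topology Filter

namespace P073.Bd.Sw

variable {E : Type} [NormedAddCommGroup E] [NormedSpace ℝ E] {ι μ : Type}

theorem reach_par {𝒩 : Type} {par : 𝒩 → Option 𝒩} {r n n' : 𝒩} (hr : par r = none)
    (h : Relation.ReflTransGen (fun a b => par b = some a) r n) (hn : par n = some n') :
    Relation.ReflTransGen (fun a b => par b = some a) r n' := by
  rcases h.cases_tail with rfl | ⟨b, h1, h2⟩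
  · rw [hr] at hn
    exact absurd hn (by simp)
  · rw [hn] at h2
    rwa [Option.some.inj h2]

theorem reach_uniq {𝒩 : Type} {par : 𝒩 → Option 𝒩} {r r' n : 𝒩} (hr : par r = none)
    (hr' : par r' = none) (h : Relation.ReflTransGen (fun a b => par b = some a) r n)
    (h' : Relation.ReflTransGen (fun a b => par b = some a) r' n) : r = r' := by
  induction h with
  | refl =>
    rcases h'.cases_tail with h1 | ⟨b, -, h2⟩
    · exact h1
    · rw [hr] at h2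
      exact absurd h2 (by simp)
  | tail _ h2 ih => exact ih (reach_par hr' h' h2)

theorem corner_iff {s t : ℝ} : (s, t) ∈ corner ↔ (s = 0 ∧ 1 / 2 ≤ t) ∨ (t = 0 ∧ 1 / 2 ≤ s) ∨
    (0 ≤ s ∧ 0 ≤ t ∧ s + t = 1 / 2) := by
  simp only [corner, mem_ofPred_eq, min_def]
  constructor
  · intro h
    split_ifs at h
    all_goals first
      | exact Or.inl ⟨h, by linarith⟩
      | exact Or.inr (Or.inl ⟨h, by linarith⟩)
      | exact Or.inr (Or.inr ⟨by linarith, by linarith, by linarith⟩)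
  · rintro (⟨h1, h2⟩ | ⟨h1, h2⟩ | ⟨h1, h2, h3⟩) <;> split_ifs <;> linarith

namespace Data

variable {S : Data E ι μ} {up : μ → ι ⊕ μ}

/-- the parent of a node -/
def par (S : Data E ι μ) (up : μ → ι ⊕ μ) : ι ⊕ μ → Option (ι ⊕ μ) :=
  Sum.elim (fun _ => none) fun m => some (up (S.σ m))

/-- the piece of a node -/
def P (S : Data E ι μ) (up : μ → ι ⊕ μ) (n : ι ⊕ μ) : Set E :=
  S.Pc up n ∪ Sum.elim (fun _ => ∅) S.St n

/-- the boundary of the disc of a node -/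
def JT (S : Data E ι μ) : ι ⊕ μ → Set E := Sum.elim S.B fun m => S.JG (S.σ m)

/-- the new wall -/
def N (S : Data E ι μ) (up : μ → ι ⊕ μ) (i : ι) : Set E :=
  ⋃ n, ⋃ (_ : Relation.ReflTransGen (fun a b => S.par up b = some a) (.inl i) n), S.P up n

namespace Ok

variable (h : S.Ok) (hu : S.Up up)
include h

theorem base_W (n : ι ⊕ μ) : Sum.elim S.W S.H n ⊆ S.W (S.hw n) := by
  cases n with
  | inl i => exact Subset.rfl
  | inr m => exact h.H_W m

theorem pc_W {n : ι ⊕ μ} {x : E} (hx : x ∈ S.Pc up n) : x ∈ S.W (S.hw n) := h.base_W n hx.1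

theorem ne_H (m : μ) : (S.JH m).Nonempty := Lam.bd_nonempty (h.ballH m)

theorem ne_G (m : μ) : (S.JG m).Nonempty := Lam.bd_nonempty (h.ballG m)

include hu

theorem pc_z {n : ι ⊕ μ} {m : μ} {x : E} (hx : x ∈ S.Pc up n) (hn : S.hw n = S.w m)
    (hz : x ∈ S.z m) : S.c m x = 0 ∧ (1 / 2 ≤ S.c (S.σ m) x ∨ S.c (S.σ m) x ≤ -1 / 2) := by
  have h1 : S.c m x = 0 := (h.memW m x hz).1 (hn ▸ h.pc_W hx)
  refine ⟨h1, ?_⟩
  by_contra h2
  push Not at h2
  rcases hu.ann n m hn x hx hz h1 ⟨h2.2.le, h2.1.le⟩ with ⟨-, h3⟩ | ⟨-, h3⟩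
  · exact h2.1.ne h3.2.2
  · exact h2.2.ne' h3.2.2

theorem pc_z' {n : ι ⊕ μ} {m : μ} {x : E} (hx : x ∈ S.Pc up n) (hn : S.hw n = S.w (S.σ m))
    (hz : x ∈ S.z m) : S.c (S.σ m) x = 0 ∧ (1 / 2 ≤ S.c m x ∨ S.c m x ≤ -1 / 2) := by
  have := h.pc_z hu hx hn ((h.zσ m).symm ▸ hz)
  rwa [h.σσ] at this

theorem pc_two {n : ι ⊕ μ} {j : ι} {x : E} (hx : x ∈ S.Pc up n) (hj : x ∈ S.W j)
    (hn : S.hw n ≠ j) (m : μ) : x ∉ S.z m := by
  intro hz
  rcases h.only m x hz _ (h.pc_W hx) with h1 | h1 <;> rcases h.only m x hz _ hj with h2 | h2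
  · exact hn (h1.trans h2.symm)
  · have h3 := (h.memW' hz).1 (h2 ▸ hj)
    rcases (h.pc_z hu hx h1 hz).2 with h4 | h4 <;> linarith
  · have h3 := (h.memW m x hz).1 (h2 ▸ hj)
    rcases (h.pc_z' hu hx h1 hz).2 with h4 | h4 <;> linarith
  · exact hn (h1.trans h2.symm)

theorem pc_root {n : ι ⊕ μ} {j : ι} {x : E} (hx : x ∈ S.Pc up n) (hj : x ∈ S.W j)
    (hn : S.hw n ≠ j) : n = .inl (S.hw n) := by
  rcases h.line _ _ hn x ⟨h.pc_W hx, hj⟩ with ⟨m, hm⟩ | ⟨L, a1, a2, a3, a4, a5⟩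
  · exact absurd hm (h.pc_two hu hx hj hn m)
  · by_contra h1
    exact disjoint_left.1 (hu.disj _ _ h1 rfl) hx (hu.root _ L a2 a3 a4 a5 a1)

theorem st_pc {n : ι ⊕ μ} {m : μ} {x : E} (hx : x ∈ S.St m) (hn : x ∈ S.Pc up n) :
    n = .inr m ∨ (n = up (S.σ m) ∧ x ∈ S.JG (S.σ m)) := by
  rcases h.only m x hx.1 _ (h.pc_W hn) with h1 | h1
  · have h2 := h.st_H hx (h1 ▸ h.pc_W hn)
    rcases hu.ann n m h1 x hn hx.1 h2.2.1 ⟨by linarith [h2.2.2], h2.2.2.le⟩ with h3 | ⟨-, h3⟩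
    · exact Or.inl h3.1
    · linarith [h2.2.2, h3.2.2]
  · have h2 := h.st_G hx (h1 ▸ h.pc_W hn)
    rcases hu.ann n _ h1 x hn h2.1 h2.2.1 ⟨h2.2.2.ge, by linarith [h2.2.2]⟩ with ⟨-, h3⟩ | h3
    · linarith [h2.2.2, h3.2.2]
    · exact Or.inr h3

omit h hu [NormedAddCommGroup E] [NormedSpace ℝ E] in
theorem mem_P {n : ι ⊕ μ} {x : E} (hx : x ∈ S.P up n) :
    x ∈ S.Pc up n ∨ ∃ m, n = .inr m ∧ x ∈ S.St m := by
  rcases hx with hx | hx
  · exact Or.inl hx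
  · cases n with
    | inl i => exact hx.elim
    | inr m => exact Or.inr ⟨m, rfl, hx⟩

theorem inter {n n' : ι ⊕ μ} {x : E} (hx : x ∈ S.P up n) (hx' : x ∈ S.P up n') :
    n = n' ∨ (∃ i j, n = .inl i ∧ n' = .inl j) ∨ (S.par up n = some n' ∧ x ∈ S.JT n) ∨
      (S.par up n' = some n ∧ x ∈ S.JT n') := by
  rcases mem_P hx with a | ⟨m, rfl, a⟩ <;> rcases mem_P hx' with a' | ⟨m', rfl, a'⟩
  · by_cases h1 : S.hw n = S.hw n'
    · by_contra h2
      exact disjoint_left.1 (hu.disj _ _ (fun e => h2 (Or.inl e)) h1) a a'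
    · exact Or.inr (Or.inl ⟨_, _, h.pc_root hu a (h.pc_W a') h1,
        h.pc_root hu a' (h.pc_W a) (Ne.symm h1)⟩)
  · rcases h.st_pc hu a' a with h1 | ⟨rfl, h1⟩
    · exact Or.inl h1
    · exact Or.inr (Or.inr (Or.inr ⟨rfl, h1⟩))
  · rcases h.st_pc hu a a' with h1 | ⟨rfl, h1⟩
    · exact Or.inl h1.symm
    · exact Or.inr (Or.inr (Or.inl ⟨rfl, h1⟩))
  · exact Or.inl (by rw [h.st_st a a'])

theorem piece_eq (n : ι ⊕ μ) : piece (S.par up) (Sum.elim S.W fun m => S.H m ∪ S.St m)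
    (Sum.elim (fun _ => ∅) fun m => S.G (S.σ m)) S.JT n = S.P up n := by
  have e : (⋃ n', ⋃ (_ : S.par up n' = some n), (Sum.elim (fun _ => ∅) (fun m => S.G (S.σ m)) n' \
      S.JT n')) = ⋃ m, ⋃ (_ : up m = n), (S.G m \ S.JG m) := by
    ext x
    simp only [mem_iUnion]
    constructor
    · rintro ⟨_ | m, h1, h2⟩
      · exact h2.1.elim
      · exact ⟨_, Option.some.inj h1, h2⟩
    · rintro ⟨m, h1, h2⟩
      refine ⟨.inr (S.σ m), ?_, ?_⟩
      · show some (up (S.σ (S.σ m))) = some n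
        rw [h.σσ, h1]
      · show x ∈ S.G (S.σ (S.σ m)) \ S.JG (S.σ (S.σ m))
        rwa [h.σσ]
  rw [piece, e]
  cases n with
  | inl i => exact (union_empty _).symm
  | inr m =>
    refine Subset.antisymm ?_ ?_
    · rintro x ⟨h1 | h1, h2⟩
      · exact Or.inl ⟨h1, h2⟩
      · exact Or.inr h1
    · rintro x (h1 | h1)
      · exact ⟨Or.inl h1.1, h1.2⟩
      · refine ⟨Or.inr h1, fun h2 => ?_⟩
        obtain ⟨l, h3, h4⟩ := mem_iUnion₂.1 h2
        have h5 := hu.sub l m h3 h4.1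
        exact h5.2 (h.st_H h1 (h.H_W m h5.1))

theorem disc (hT : TREE) [Finite ι] [Finite μ] (i : ι) : ConBall 2 (S.N up i) (S.B i) := by
  have key := hT (S.par up) (Sum.elim S.W fun m => S.H m ∪ S.St m)
    (Sum.elim (fun _ => ∅) fun m => S.G (S.σ m)) S.JT
    (by
      rintro (i | m)
      · exact h.ball i
      · exact h.ballD m)
    (by
      rintro (i | m) n h1
      · exact absurd h1 (by simp [par])
      have h2 : up (S.σ m) = n := Option.some.inj h1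
      refine ⟨h.ballG _, ?_⟩
      cases n with
      | inl j =>
        have h3 : j = S.w (S.σ m) := by rw [← hu.hw, h2]; rfl
        exact h3 ▸ h.G_sub _
      | inr l =>
        intro x hx
        have h3 := hu.sub _ l h2 hx
        refine ⟨Or.inl h3.1, fun h4 => ?_⟩
        obtain ⟨h5, h6, -⟩ := h.mem_JG.1 h4
        linarith [(h.memW l x h5).1 (h.H_W l h3.1)])
    (by
      rintro (i | m) (j | l) n h1 h2 h3
      · exact empty_disjoint _
      · exact empty_disjoint _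
      · exact disjoint_empty _
      · exact hu.sib _ _ (fun e => h1 (by rw [← h.σσ m, e, h.σσ]))
          ((Option.some.inj h2).trans (Option.some.inj h3).symm))
    (by
      intro n n' h1 h2 x h3 h4
      rw [h.piece_eq hu] at h3 h4
      rcases h.inter hu h3 h4 with h5 | ⟨i, j, rfl, rfl⟩ | h5
      · exact absurd h5 h1
      · exact (h2.elim (fun e => e rfl) fun e => e rfl).elim
      · exact h5) (.inl i) rfl
  simp only [h.piece_eq hu] at key
  exact key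

theorem N_inter {i j : ι} (hij : i ≠ j) {x : E} (hi : x ∈ S.N up i) (hj : x ∈ S.N up j) :
    x ∈ S.W i ∩ S.W j ∧ ∀ m, x ∉ S.z m := by
  obtain ⟨n, r, a⟩ := mem_iUnion₂.1 hi
  obtain ⟨n', r', a'⟩ := mem_iUnion₂.1 hj
  have ne : ∀ {k}, Relation.ReflTransGen (fun a b => S.par up b = some a) (.inl i) k →
      Relation.ReflTransGen (fun a b => S.par up b = some a) (.inl j) k → False :=
    fun b b' => hij (Sum.inl.inj (reach_uniq (par := S.par up) rfl rfl b b'))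
  rcases h.inter hu a a' with rfl | ⟨i', j', rfl, rfl⟩ | ⟨h1, -⟩ | ⟨h1, -⟩
  · exact (ne r r').elim
  · obtain rfl : i = i' := Sum.inl.inj (reach_uniq (par := S.par up) rfl rfl r .refl)
    obtain rfl : j = j' := Sum.inl.inj (reach_uniq (par := S.par up) rfl rfl r' .refl)
    have b : x ∈ S.Pc up (.inl i) := a.resolve_right id
    have b' : x ∈ S.Pc up (.inl j) := a'.resolve_right id
    exact ⟨⟨b.1, b'.1⟩, h.pc_two hu b b'.1 hij⟩
  · exact (ne (reach_par rfl r h1) r').elim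
  · exact (ne r (reach_par rfl r' h1)).elim

theorem nin {m : μ} {y : E} (hz : y ∈ S.z m) (h0 : S.c m y = 0) (h1 : 1 / 2 ≤ S.c (S.σ m) y) :
    y ∈ S.Pc up (.inr m) := by
  refine ⟨Or.inr ⟨hz, h0, h1⟩, fun h2 => ?_⟩
  obtain ⟨l, h3, h4⟩ := mem_iUnion₂.1 h2
  have hw : S.w m = S.w l := by rw [← hu.hw l, h3]; rfl
  obtain ⟨x, hx⟩ := h.ne_H m
  have hs := hu.sub l m h3
  have hne : m ≠ l := by
    rintro rfl
    exact (hs (h.H_sub m ((h.ballH m).1 hx)).1).2 hx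
  have h5 := Lam.sub_of_meet (h.ball _) (h.ballG l) ((h.G_sub l).trans sdiff_subset)
    ((h.zone m).pre_vert (h.pg m) (convex_Ici (1 / 2)))
    (fun v hv => ⟨hw ▸ (h.memW m v hv.1).2 hv.2.1,
      fun h6 => disjoint_left.1 (h.zd' hne hw) hv.1 h6.1⟩) ⟨y, ⟨hz, h0, h1⟩, h4.1⟩
  exact (hs (h5 ⟨hx.1, hx.2.1, hx.2.2.ge⟩)).2 hx

theorem nout {m : μ} {y : E} (hz : y ∈ S.z m) (h0 : S.c m y = 0) (h1 : S.c (S.σ m) y ≤ -1 / 2) :
    y ∈ S.Pc up (up m) := by
  have hp := (h.zone m).pre_vert (h.pg m) (convex_Iic (-1 / 2))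
  obtain ⟨x, hx⟩ := h.ne_G m
  have hx' : x ∈ {y ∈ S.z m | S.c m y = 0 ∧ S.c (S.σ m) y ∈ Iic (-1 / 2)} :=
    ⟨hx.1, hx.2.1, hx.2.2.le⟩
  constructor
  · have hw := hu.hw m
    rcases e : up m with i | l
    · rw [e] at hw
      exact (show i = S.w m from hw) ▸ (h.memW m y hz).2 h0
    · rw [e] at hw
      have hw' : S.w m = S.w l := hw.symm
      have hs := hu.sub m l e
      have hne : m ≠ l := by
        rintro rfl
        exact (h.H_sub m (hs ((h.ballG m).1 hx)).1).2 hx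
      exact Lam.sub_of_meet (h.ball _) (h.ballH l) (h.H_W l) hp
        (fun v hv => ⟨hw' ▸ (h.memW m v hv.1).2 hv.2.1,
          fun h6 => disjoint_left.1 (h.zd' hne hw') hv.1 h6.1⟩)
        ⟨x, hx', (hs ((h.ballG m).1 hx)).1⟩ ⟨hz, h0, h1⟩
  · intro h2
    obtain ⟨l, h3, h4⟩ := mem_iUnion₂.1 h2
    by_cases hne : m = l
    · subst hne
      rcases h4.1 with h5 | h5
      · linarith [h.hz m y h5 hz]
      · exact h4.2 ⟨hz, h0, le_antisymm h1 h5.2.2⟩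
    · have hw : S.w m = S.w l := by rw [← hu.hw l, h3, hu.hw]
      have h5 := Lam.sub_of_meet (h.ball _) (h.ballG l) ((h.G_sub l).trans sdiff_subset) hp
        (fun v hv => ⟨hw ▸ (h.memW m v hv.1).2 hv.2.1,
          fun h6 => disjoint_left.1 (h.zd' hne hw) hv.1 h6.1⟩) ⟨y, ⟨hz, h0, h1⟩, h4.1⟩
      exact disjoint_left.1 (hu.sib m l hne h3.symm) ((h.ballG m).1 hx) (h5 hx')

theorem N_strip {i : ι} {m : μ} {x : E} (hx : x ∈ S.N up i) (hs : x ∈ S.St m) {y : E}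
    (hz : y ∈ S.z m) (hlt : S.c m y < S.c (S.σ m) y) :
    y ∈ S.N up i ↔ (-S.c m y, S.c (S.σ m) y) ∈ corner := by
  obtain ⟨n, r, a⟩ := mem_iUnion₂.1 hx
  have r1 : Relation.ReflTransGen (fun a b => S.par up b = some a) (.inl i) (.inr m) := by
    rcases h.inter hu a (n' := .inr m) (Or.inr hs) with rfl | ⟨_, _, -, h1⟩ | ⟨h1, -⟩ | ⟨h1, -⟩
    · exact r
    · exact absurd h1 Sum.inr_ne_inl
    · exact reach_par rfl r h1
    · exact r.tail h1
  have r2 := reach_par (par := S.par up) rfl r1 rfl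
  rw [corner_iff]
  constructor
  · intro hy
    obtain ⟨k, -, b⟩ := mem_iUnion₂.1 hy
    rcases mem_P b with b | ⟨l, -, b⟩
    · rcases h.only m y hz _ (h.pc_W b) with h1 | h1
      · obtain ⟨h2, h3 | h3⟩ := h.pc_z hu b h1 hz
        · exact Or.inl ⟨by linarith, h3⟩
        · linarith
      · obtain ⟨h2, h3 | h3⟩ := h.pc_z' hu b h1 hz
        · linarith
        · exact Or.inr (Or.inl ⟨h2, by linarith⟩)
    · by_cases h1 : l = m
      · subst h1
        exact Or.inr (Or.inr ⟨by linarith [b.2.1], b.2.2.1, by linarith [b.2.2.2]⟩)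
      · by_cases h2 : l = S.σ m
        · subst h2
          have h3 := b.2.2.2
          rw [h.σσ] at h3
          linarith
        · exact (disjoint_left.1 (h.zd m l h1 h2) hz b.1).elim
  · rintro (⟨h1, h2⟩ | ⟨h1, h2⟩ | ⟨h1, h2, h3⟩)
    · exact mem_iUnion₂.2 ⟨_, r1, Or.inl (h.nin hu hz (by linarith) h2)⟩
    · exact mem_iUnion₂.2 ⟨_, r2, Or.inl (h.nout hu ((h.zσ m).symm ▸ hz) h1
        (by rw [h.σσ]; linarith))⟩
    · exact mem_iUnion₂.2 ⟨_, r1, Or.inr ⟨hz, by linarith, h2, by linarith⟩⟩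

theorem pc_closed (n : ι ⊕ μ) : IsClosed (S.Pc up n) := by
  refine isClosed_of_closure_subset fun x hx => ⟨?_, fun h1 => ?_⟩
  · have hc : IsClosed (Sum.elim S.W S.H n) := by
      cases n with
      | inl i => exact (h.ball i).isClosed
      | inr m => exact (h.ballH m).isClosed
    exact closure_minimal sdiff_subset hc hx
  · obtain ⟨l, h2, h3⟩ := mem_iUnion₂.1 h1
    have h4 := (Lam.sub_open (h.ball _) (h.ballG l) ((h.G_sub l).trans sdiff_subset)).2 x h3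
    have h5 : S.Pc up n ⊆ S.W (S.w l) := fun y hy => by
      rw [← hu.hw l, h2]; exact h.pc_W hy
    have h6 : (S.JG l)ᶜ ∈ 𝓝[S.Pc up n] x :=
      mem_nhdsWithin_of_mem_nhds ((h.ballG l).isCompact_bdry.isClosed.isOpen_compl.mem_nhds h3.2)
    have := mem_closure_iff_nhdsWithin_neBot.1 hx
    obtain ⟨y, a1, a2, a3⟩ := Filter.nonempty_of_mem
      (inter_mem (nhdsWithin_mono _ h5 h4) (inter_mem h6 self_mem_nhdsWithin))
    exact a3.2 (mem_iUnion₂.2 ⟨l, h2, a1, a2⟩)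

theorem N_loc [Finite ι] [Finite μ] {i : ι} {x : E} (hx : x ∈ S.N up i) (hs : ∀ m, x ∉ S.St m) :
    ∃ k, ∀ᶠ y in 𝓝 x, (y ∈ S.N up i ↔ y ∈ S.W k) := by
  obtain ⟨n, r, a⟩ := mem_iUnion₂.1 hx
  have a' : x ∈ S.Pc up n := (mem_P a).resolve_right fun ⟨m, _, b⟩ => hs m b
  have hG : ∀ m, x ∉ S.JG m := fun m b => hs (S.σ m) (h.JG_st (by rwa [h.σσ]))
  have e1 : ∀ᶠ y in 𝓝 x, ∀ m, y ∉ S.St m := eventually_all.2 fun m =>
    ((h.zone m).strip_closed (h.circ m).isCompact).isOpen_compl.mem_nhds (hs m)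
  have e2 : ∀ᶠ y in 𝓝 x, ∀ k, x ∉ S.Pc up k → y ∉ S.Pc up k := eventually_all.2 fun k => by
    by_cases b : x ∈ S.Pc up k
    · exact Eventually.of_forall fun _ b' => absurd b b'
    · filter_upwards [(h.pc_closed hu k).isOpen_compl.mem_nhds b] with y hy _ using hy
  have e3 : ∀ᶠ y in 𝓝 x, ∀ m, up m = n → y ∉ S.G m := eventually_all.2 fun m => by
    by_cases b : up m = n
    · have : x ∉ S.G m := fun b' => a'.2 (mem_iUnion₂.2 ⟨m, b, b', hG m⟩)
      filter_upwards [(h.ballG m).isClosed.isOpen_compl.mem_nhds this] with y hy _ using hy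
    · exact Eventually.of_forall fun _ b' => absurd b' b
  have e4 : ∀ᶠ y in 𝓝 x, y ∈ S.W (S.hw n) → y ∈ Sum.elim S.W S.H n := by
    cases n with
    | inl j => exact Eventually.of_forall fun _ b => b
    | inr m =>
      exact eventually_nhdsWithin_iff.1 ((Lam.sub_open (h.ball _) (h.ballH m) (h.H_W m)).2 x
        ⟨a'.1, fun b => hs m (JH_st b)⟩)
  refine ⟨S.hw n, ?_⟩
  filter_upwards [e1, e2, e3, e4] with y b1 b2 b3 b4
  constructor
  · intro hy
    obtain ⟨k, r', b⟩ := mem_iUnion₂.1 hy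
    have b' : y ∈ S.Pc up k := (mem_P b).resolve_right fun ⟨m, _, c⟩ => b1 m c
    have c : x ∈ S.Pc up k := by
      by_contra c
      exact b2 k c b'
    have hJ : ∀ k k', S.par up k = some k' → x ∉ S.JT k := by
      rintro (j | m) k' c1 c2
      · exact absurd c1 (by simp [par])
      · exact hG _ c2
    rcases h.inter hu a (Or.inl c) with rfl | ⟨i', j', rfl, rfl⟩ | ⟨c1, c2⟩ | ⟨c1, c2⟩
    · exact h.pc_W b'
    · rw [← reach_uniq (par := S.par up) rfl rfl r .refl,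
        reach_uniq (par := S.par up) rfl rfl r' .refl]
      exact h.pc_W b'
    · exact absurd c2 (hJ _ _ c1)
    · exact absurd c2 (hJ _ _ c1)
  · intro hy
    refine mem_iUnion₂.2 ⟨n, r, Or.inl ⟨b4 hy, fun c => ?_⟩⟩
    obtain ⟨m, c1, c2⟩ := mem_iUnion₂.1 c
    exact b3 m c1 c2.1

end Ok

/-- the exchange along all circles -/
theorem Ok.main (h : S.Ok) (hT : TREE) (hL : LAMIN) [Finite ι] [Finite μ] :
    ∃ D : ι → Set E, (∀ i, ConBall 2 (D i) (S.B i)) ∧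
      (∀ i, ∀ x ∈ D i, (∃ k, x ∈ S.W k) ∨ ∃ m, x ∈ S.z m) ∧
      (∀ i j, i ≠ j → ∀ x ∈ D i ∩ D j, x ∈ S.W i ∩ S.W j ∧ ∀ m, x ∉ S.z m) ∧
      (∀ i, ∀ x ∈ D i, (∃ k, ∀ᶠ y in 𝓝 x, (y ∈ D i ↔ y ∈ S.W k)) ∨ ∃ m, x ∈ S.St m ∧
        ∀ y ∈ S.z m, S.c m y < S.c (S.σ m) y →
          (y ∈ D i ↔ (-S.c m y, S.c (S.σ m) y) ∈ corner)) ∧
      ∀ i, ∀ Z ⊆ S.W i, IsPreconnected Z → (Z ∩ S.B i).Nonempty → (∀ m, Disjoint Z (S.z m)) →
        Z ⊆ D i := by
  obtain ⟨up, hu⟩ := h.exists_up hL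
  refine ⟨S.N up, h.disc hu hT, fun i x hx => ?_, fun i j hij x hx => h.N_inter hu hij hx.1 hx.2,
    fun i x hx => ?_, fun i Z a1 a2 a3 a4 x hx =>
      mem_iUnion₂.2 ⟨_, .refl, Or.inl (hu.root i Z a1 a2 a3 a4 hx)⟩⟩
  · obtain ⟨n, -, a⟩ := mem_iUnion₂.1 hx
    rcases Ok.mem_P a with a | ⟨m, -, a⟩
    · exact Or.inl ⟨_, h.pc_W a⟩
    · exact Or.inr ⟨m, a.1⟩
  · by_cases hs : ∃ m, x ∈ S.St m
    · obtain ⟨m, hm⟩ := hs
      exact Or.inr ⟨m, hm, fun y h1 h2 => h.N_strip hu hx hm h1 h2⟩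
    · exact Or.inl (h.N_loc hu hx fun m hm => hs ⟨m, hm⟩)

end Data

end P073.Bd.Sw
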