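import Vale.Agent.P073Y.Bd.Sk
import Vale.Agent.P073Z.DISC2
import Vale.Agent.P073Z.RCX2

/-!
# A tree of planar pieces is a disc
-/

open Set Relation

namespace P073.Bd

section Comb

variable {𝒩 : Type} {par : 𝒩 → Option 𝒩}

/-- below a root there are no cycles -/
theorem tree_acyc {r n : 𝒩} (hr : par r = none)
    (h : ReflTransGen (fun a b => par b = some a) r n) :
    ∀ c, par n = some c → ¬ ReflTransGen (fun a b => par b = some a) n c := by
  induction h with
  | refl => intro c hc; rw [hr] at hc; cases hc
  | @tail b n _ hb ih =>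
    intro c hc h
    obtain rfl : b = c := Option.some.inj (hb.symm.trans hc)
    rcases h.cases_tail with e | ⟨d, h1, h2⟩
    · subst e
      exact ih b hb .refl
    · exact ih d h2 (.head hb h1)

/-- the ancestors of a node form a chain -/
theorem tree_total {a b d : 𝒩} (ha : ReflTransGen (fun a b => par b = some a) a d)
    (hb : ReflTransGen (fun a b => par b = some a) b d) :
    ReflTransGen (fun a b => par b = some a) a b ∨ ReflTransGen (fun a b => par b = some a) b a := by
  induction ha with
  | refl => exact Or.inr hb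
  | @tail c d h1 h2 ih =>
    rcases hb.cases_tail with e | ⟨c', h3, h4⟩
    · subst e
      exact Or.inl (h1.tail h2)
    · obtain rfl : c = c' := Option.some.inj (h2.symm.trans h4)
      exact ih h3

/-- a node below `m` is `m` or has its parent below `m` -/
theorem tree_up {m d c : 𝒩} (h : ReflTransGen (fun a b => par b = some a) m d)
    (hc : par d = some c) : d = m ∨ ReflTransGen (fun a b => par b = some a) m c := by
  rcases h.cases_tail with e | ⟨c', h1, h2⟩
  · exact Or.inl e
  · obtain rfl : c = c' := Option.some.inj (hc.symm.trans h2)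
    exact Or.inr h1

theorem tree_ne_none {m n d : 𝒩} (hm : par m = some n)
    (h : ReflTransGen (fun a b => par b = some a) m d) : par d ≠ none := by
  rcases h.cases_tail with e | ⟨c, -, h2⟩
  · rw [e, hm]; exact Option.some_ne_none _
  · rw [show par d = some c from h2]; exact Option.some_ne_none _

end Comb

theorem tree : TREE := by
  intro E _ _ 𝒩 _ par D G J hD hG hS hP r hr
  classical
  have := Fintype.ofFinite 𝒩
  suffices H : ∀ k n, ReflTransGen (fun a b => par b = some a) r n →
      {d | ReflTransGen (fun a b => par b = some a) n d}.ncard = k →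
      ConBall 2 (⋃ d, ⋃ (_ : ReflTransGen (fun a b => par b = some a) n d), piece par D G J d)
        (J n) from H _ r .refl rfl
  intro k
  induction k using Nat.strong_induction_on with
  | _ k ih =>
  intro n hn hk
  have hcyc : ∀ m, par m = some n → ¬ ReflTransGen (fun a b => par b = some a) m n :=
    fun m hm => tree_acyc hr (hn.tail hm) n hm
  let N : 𝒩 → Set E := fun m =>
    ⋃ d, ⋃ (_ : ReflTransGen (fun a b => par b = some a) m d), piece par D G J d
  have hN : ∀ m, par m = some n → ConBall 2 (N m) (J m) := fun m hm => by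
    refine ih _ ?_ m (hn.tail hm) rfl
    rw [← hk]
    exact ncard_lt_ncard ⟨fun d hd => ReflTransGen.head hm hd, fun h => hcyc m hm (h .refl)⟩
      (toFinite _)
  let s : Finset 𝒩 := Finset.univ.filter fun m => par m = some n
  have hs : ∀ m, m ∈ s ↔ par m = some n := fun m => by simp [s]
  have e : (D n \ ⋃ m ∈ s, (G m \ J m)) = piece par D G J n := by
    simp only [piece, hs]
  have hdis : ∀ m m' d, par m = some n → par m' = some n →
      ReflTransGen (fun a b => par b = some a) m d →
      ReflTransGen (fun a b => par b = some a) m' d → m = m' := by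
    intro m m' d hm hm' h h'
    rcases tree_total h h' with h1 | h1
    · exact (tree_up h1 hm').elim Eq.symm fun h2 => (hcyc m hm h2).elim
    · exact (tree_up h1 hm).elim id fun h2 => (hcyc m' hm' h2).elim
  obtain ⟨-, -, -, H⟩ := repl s G J J (hD n)
    (fun m hm => ⟨(hG m n ((hs m).1 hm)).1, (hG m n ((hs m).1 hm)).2.trans sdiff_subset,
      Or.inl ⟨rfl, disjoint_left.2 fun x hx hx' =>
        ((hG m n ((hs m).1 hm)).2 ((hG m n ((hs m).1 hm)).1.1 hx)).2 hx'⟩⟩)
    (fun m hm m' hm' hne => hS m m' n hne ((hs m).1 hm) ((hs m').1 hm'))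
  rw [e] at H
  obtain ⟨Φ, h1, -⟩ := H N J
    (fun m hm => by
      have hm := (hs m).1 hm
      refine ⟨hN m hm, Subset.rfl, fun x hx => ?_⟩
      obtain ⟨hx, hx'⟩ := hx
      simp only [N, mem_iUnion] at hx
      obtain ⟨d, hd, hx⟩ := hx
      have hne : d ≠ n := fun h => hcyc m hm (h ▸ hd)
      rcases hP d n hne (Or.inl (tree_ne_none hm hd)) x hx hx' with ⟨h2, h3⟩ | ⟨h2, -⟩
      · rcases tree_up hd h2 with rfl | h4
        · exact h3
        · exact (hcyc m hm h4).elim
      · exact (hcyc m hm (hd.tail h2)).elim)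
    (fun m hm m' hm' hne => by
      have hm := (hs m).1 hm
      have hm' := (hs m').1 hm'
      refine disjoint_left.2 fun x hx hx' => ?_
      simp only [N, mem_iUnion] at hx hx'
      obtain ⟨d, hd, hx⟩ := hx
      obtain ⟨d', hd', hx'⟩ := hx'
      have hdd : d ≠ d' := fun h => hne (hdis m m' d hm hm' hd (h ▸ hd'))
      rcases hP d d' hdd (Or.inl (tree_ne_none hm hd)) x hx hx' with ⟨h2, -⟩ | ⟨h2, -⟩
      · exact hne (hdis m m' d hm hm' hd (hd'.tail h2))
      · exact hne (hdis m m' d' hm hm' (hd.tail h2) hd'))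
  have hJ : J n ⊆ piece par D G J n := fun x hx => ⟨(hD n).1 hx, fun h => by
    simp only [mem_iUnion] at h
    obtain ⟨m, hm, h⟩ := h
    exact ((hG m n hm).2 h.1).2 hx⟩
  have h2 := (hD n).image Φ Subset.rfl
  rw [Φ.image_eq, (show EqOn Φ.toFun id (J n) from fun x hx => h1 x (hJ hx)).image_eq,
    image_id] at h2
  convert h2 using 1
  ext x
  simp only [N, mem_iUnion, mem_union, hs]
  constructor
  · rintro ⟨d, hd, hx⟩
    rcases hd.cases_head with rfl | ⟨m, hm, h⟩
    · exact Or.inl hx
    · exact Or.inr ⟨m, hm, d, h, hx⟩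
  · rintro (hx | ⟨m, hm, d, h, hx⟩)
    · exact ⟨n, .refl, hx⟩
    · exact ⟨d, .head hm h, hx⟩

end P073.Bd
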